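import Crest.Agent.R128.Defs

/-!
Row 128 (S0172): basic facts about the recursions.
-/

set_option autoImplicit false
open MeasureTheory Real

namespace Crest.Agent.R128

/-! ### Linear recursions -/

section Ring
variable {R : Type*} [CommRing R]

@[simp] theorem sol_zero (V : ℕ → R) (a b : R) : sol V a b 0 = a := rfl
@[simp] theorem sol_one (V : ℕ → R) (a b : R) : sol V a b 1 = b := rfl
theorem sol_succ_succ (V : ℕ → R) (a b : R) (n : ℕ) :
    sol V a b (n + 2) = V (n + 1) * sol V a b (n + 1) - sol V a b n := rfl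

/-- `u` solves the recursion at every site `≥ 1`. -/
def IsSol (V u : ℕ → R) : Prop := ∀ n, u (n + 2) = V (n + 1) * u (n + 1) - u n

theorem isSol_sol (V : ℕ → R) (a b : R) : IsSol V (sol V a b) := fun _ => rfl

/-- A sequence solving the recursion at the sites `1, …, m` agrees with `sol` up to `m + 1`. -/
theorem eq_sol_of_rec {V u : ℕ → R} {m : ℕ}
    (h : ∀ n, n + 1 ≤ m → u (n + 2) = V (n + 1) * u (n + 1) - u n) :
    ∀ i ≤ m + 1, u i = sol V (u 0) (u 1) i := by
  intro i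
  induction i using Nat.strong_induction_on with
  | _ i ih =>
    intro hi
    match i with
    | 0 => rfl
    | 1 => rfl
    | i + 2 =>
      rw [h i (by omega), sol_succ_succ, ← ih (i + 1) (by omega) (by omega),
        ← ih i (by omega) (by omega)]

theorem IsSol.eq_sol {V u : ℕ → R} (h : IsSol V u) (i : ℕ) : u i = sol V (u 0) (u 1) i :=
  eq_sol_of_rec (m := i) (fun n _ => h n) i (Nat.le_succ i)

theorem sol_lin (V : ℕ → R) (a b : R) (n : ℕ) :
    sol V a b n = a * sol V 1 0 n + b * sol V 0 1 n := by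
  have : IsSol V (fun n => a * sol V 1 0 n + b * sol V 0 1 n) := fun n => by
    simp only [sol_succ_succ]; ring
  simpa using (this.eq_sol n).symm

theorem sol_smul (V : ℕ → R) (c a b : R) (n : ℕ) : sol V (c * a) (c * b) n = c * sol V a b n := by
  rw [sol_lin V (c * a), sol_lin V a b]; ring

/-- `sol V 1 a = y + a w`. -/
theorem sol_one_eq (V : ℕ → R) (a : R) (n : ℕ) : sol V 1 a n = sol V 1 0 n + a * sol V 0 1 n := by
  rw [sol_lin V 1 a, one_mul]

/-- Any solution in terms of `sol V 1 c` and the Dirichlet solution. -/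
theorem sol_decomp (V : ℕ → R) (a b c : R) (n : ℕ) :
    sol V a b n = a * sol V 1 c n + (b - a * c) * sol V 0 1 n := by
  rw [sol_lin V a b, sol_one_eq V c]; ring

theorem sol_congr {V V' : ℕ → R} {m : ℕ} (h : ∀ l, 1 ≤ l → l ≤ m → V l = V' l) (a b : R) :
    ∀ i ≤ m + 1, sol V a b i = sol V' a b i :=
  eq_sol_of_rec (V := V') (u := sol V a b) fun n hn => by
    rw [sol_succ_succ, h (n + 1) (by omega) hn]

theorem sol_shift (V : ℕ → R) (a b : R) (m n : ℕ) :
    sol V a b (m + n) = sol (fun i => V (m + i)) (sol V a b m) (sol V a b (m + 1)) n :=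
  IsSol.eq_sol (V := fun i => V (m + i)) (u := fun i => sol V a b (m + i)) (fun _ => rfl) n

/-- Reading a solution backwards from the bond `(m, m + 1)`. -/
theorem sol_rev (V V' : ℕ → R) (a b : R) (m : ℕ) (hV : ∀ i, 1 ≤ i → i ≤ m → V' i = V (m + 1 - i)) :
    ∀ i ≤ m + 1, sol V a b (m + 1 - i) = sol V' (sol V a b (m + 1)) (sol V a b m) i := by
  have := eq_sol_of_rec (V := V') (u := fun i => sol V a b (m + 1 - i)) (m := m) fun n hn => by
    obtain ⟨j, rfl⟩ : ∃ j, m = n + 1 + j := ⟨m - (n + 1), by omega⟩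
    rw [hV (n + 1) (by omega) (by omega)]
    have e1 : n + 1 + j + 1 - (n + 2) = j := by omega
    have e2 : n + 1 + j + 1 - (n + 1) = j + 1 := by omega
    have e3 : n + 1 + j + 1 - n = j + 2 := by omega
    simp only [e1, e2, e3, sol_succ_succ]; ring
  simpa using this

theorem IsSol.wronsk {V u w : ℕ → R} (hu : IsSol V u) (hw : IsSol V w) (n : ℕ) :
    u n * w (n + 1) - u (n + 1) * w n = u 0 * w 1 - u 1 * w 0 := by
  induction n with
  | zero => rfl
  | succ n ih => rw [← ih, hu n, hw n]; ring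

theorem wronsk (V : ℕ → R) (a b c d : R) (n : ℕ) :
    sol V a b n * sol V c d (n + 1) - sol V a b (n + 1) * sol V c d n = a * d - b * c :=
  (isSol_sol V a b).wronsk (isSol_sol V c d) n

theorem wronsk_one (V : ℕ → R) (a : R) (n : ℕ) :
    sol V 1 a n * sol V 0 1 (n + 1) - sol V 1 a (n + 1) * sol V 0 1 n = 1 := by
  rw [wronsk]; ring

/-- Forward Duhamel formula for `f_{n+2} = V_{n+1} f_{n+1} - f_n + g_{n+1}`. -/
theorem duhamel (V : ℕ → R) (c : R) {f g : ℕ → R} {m : ℕ}
    (h : ∀ n, n + 1 ≤ m → f (n + 2) = V (n + 1) * f (n + 1) - f n + g (n + 1)) :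
    ∀ s ≤ m + 1, f s = sol V (f 0) (f 1) s + ∑ l ∈ Finset.Ico 1 s,
      (sol V 0 1 s * sol V 1 c l - sol V 1 c s * sol V 0 1 l) * g l := by
  intro s
  induction s using Nat.strong_induction_on with
  | _ s ih =>
    intro hs
    match s with
    | 0 => simp
    | 1 => simp
    | s + 2 =>
      rw [h s (by omega), ih (s + 1) (by omega) (by omega), ih s (by omega) (by omega),
        Finset.sum_Ico_succ_top (by omega : 1 ≤ s + 1), sol_succ_succ V (f 0)]
      have e1 : ∑ l ∈ Finset.Ico 1 s, (sol V 0 1 s * sol V 1 c l - sol V 1 c s * sol V 0 1 l) * g l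
          = ∑ l ∈ Finset.Ico 1 (s + 1),
            (sol V 0 1 s * sol V 1 c l - sol V 1 c s * sol V 0 1 l) * g l := by
        rcases Nat.eq_zero_or_pos s with rfl | hs0
        · simp
        · rw [Finset.sum_Ico_succ_top hs0]; ring
      have e2 : ∑ l ∈ Finset.Ico 1 (s + 1),
          (sol V 0 1 (s + 2) * sol V 1 c l - sol V 1 c (s + 2) * sol V 0 1 l) * g l
          = V (s + 1) * ∑ l ∈ Finset.Ico 1 (s + 1),
            (sol V 0 1 (s + 1) * sol V 1 c l - sol V 1 c (s + 1) * sol V 0 1 l) * g l -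
            ∑ l ∈ Finset.Ico 1 (s + 1),
            (sol V 0 1 s * sol V 1 c l - sol V 1 c s * sol V 0 1 l) * g l := by
        rw [Finset.mul_sum, ← Finset.sum_sub_distrib]
        exact Finset.sum_congr rfl fun l _ => by simp only [sol_succ_succ]; ring
      rw [e1, e2]
      linear_combination (-g (s + 1)) * wronsk_one V c (s + 1)

/-- The two-sided Green operator on the sites `1, …, m`. -/
def grn (V : ℕ → R) (c : R) (g : ℕ → R) (m s : ℕ) : R :=
  sol V 1 c s * ∑ l ∈ Finset.Ioc 0 (min s m), sol V 0 1 l * g l +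
    sol V 0 1 s * ∑ l ∈ Finset.Ioc s m, sol V 1 c l * g l

@[simp] theorem grn_zero (V : ℕ → R) (c : R) (g : ℕ → R) (m : ℕ) : grn V c g m 0 = 0 := by
  simp [grn]

theorem grn_end (V : ℕ → R) (c : R) (g : ℕ → R) {m e : ℕ} (he : m ≤ e) (h0 : sol V 1 c e = 0) :
    grn V c g m e = 0 := by
  simp [grn, h0, Finset.Ioc_eq_empty_of_le he]

theorem grn_rec (V : ℕ → R) (c : R) (g : ℕ → R) {m n : ℕ} (hn : n + 1 ≤ m) :
    grn V c g m (n + 2) = V (n + 1) * grn V c g m (n + 1) - grn V c g m n - g (n + 1) := by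
  have hA : ∀ s, s ≤ m → grn V c g m (s + 1) =
      sol V 1 c (s + 1) * ∑ l ∈ Finset.Ioc 0 s, sol V 0 1 l * g l +
        sol V 0 1 (s + 1) * ∑ l ∈ Finset.Ioc s m, sol V 1 c l * g l := by
    intro s hs
    rcases eq_or_lt_of_le hs with rfl | hlt
    · simp [grn]
    · rw [grn, min_eq_left (by omega : s + 1 ≤ m), Finset.sum_Ioc_succ_top (Nat.zero_le s),
        ← Finset.sum_Ioc_consecutive _ (Nat.le_succ s) (by omega : s + 1 ≤ m)]
      simp only [Nat.Ioc_succ_singleton, Finset.sum_singleton]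
      ring
  rw [hA (n + 1) hn, grn, grn, min_eq_left hn, min_eq_left (by omega : n ≤ m),
    Finset.sum_Ioc_succ_top (Nat.zero_le n),
    ← Finset.sum_Ioc_consecutive _ (Nat.le_succ n) hn]
  simp only [Nat.Ioc_succ_singleton, Finset.sum_singleton, sol_succ_succ]
  linear_combination (-g (n + 1)) * wronsk_one V c n

end Ring

/-- Green representation with a boundary condition at `e ∈ {m, m+1}` where `sol V 1 c` vanishes. -/
theorem green {R : Type*} [Field R] (V : ℕ → R) (c : R) {f g : ℕ → R} {m e : ℕ}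
    (he : e = m ∨ e = m + 1) (h0 : sol V 1 c e = 0) (hw : sol V 0 1 e ≠ 0)
    (h : ∀ n, n + 1 ≤ m → f (n + 2) = V (n + 1) * f (n + 1) - f n + g (n + 1)) :
    ∀ s ≤ m + 1, f s = f 0 * sol V 1 c s + f e / sol V 0 1 e * sol V 0 1 s - grn V c g m s := by
  have h1 := eq_sol_of_rec (V := V) (u := fun s => f s + grn V c g m s) (m := m) fun n hn => by
    simp only [h n hn, grn_rec V c g hn]; ring
  have h2 : ∀ s ≤ m + 1, f s + grn V c g m s =
      f 0 * sol V 1 c s + (f 1 + grn V c g m 1 - f 0 * c) * sol V 0 1 s := fun s hs => by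
    have := h1 s hs
    simp only [grn_zero, add_zero] at this
    rw [this, sol_decomp V _ _ c]
  have h3 := h2 e (by omega)
  rw [grn_end V c g (by omega) h0, h0] at h3
  have h4 : f 1 + grn V c g m 1 - f 0 * c = f e / sol V 0 1 e := by
    rw [eq_div_iff hw]; linear_combination -h3
  intro s hs
  rw [← h4]; linear_combination h2 s hs

/-! ### Size of solutions -/

theorem nv_nonneg (u : ℕ → ℝ) (s : ℕ) : 0 ≤ nv u s := le_max_of_le_left (abs_nonneg _)
theorem abs_le_nv (u : ℕ → ℝ) (s : ℕ) : |u s| ≤ nv u s := le_max_left _ _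
theorem abs_succ_le_nv (u : ℕ → ℝ) (s : ℕ) : |u (s + 1)| ≤ nv u s := le_max_right _ _
theorem nv_le {u : ℕ → ℝ} {s : ℕ} {c : ℝ} (h1 : |u s| ≤ c) (h2 : |u (s + 1)| ≤ c) : nv u s ≤ c :=
  max_le h1 h2

theorem nv_succ_le {V u : ℕ → ℝ} {K : ℝ} {s : ℕ} (hr : u (s + 2) = V (s + 1) * u (s + 1) - u s)
    (hV : |V (s + 1)| ≤ K - 1) : nv u (s + 1) ≤ K * nv u s := by
  have h0 := abs_nonneg (V (s + 1))
  have h1 := abs_le_nv u s
  have h2 := abs_succ_le_nv u s
  have h3 := nv_nonneg u s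
  refine nv_le (by nlinarith) ?_
  rw [hr]
  refine (abs_sub _ _).trans ?_
  rw [abs_mul]
  nlinarith [mul_le_mul hV h2 (abs_nonneg _) (by linarith)]

theorem nv_le_succ {V u : ℕ → ℝ} {K : ℝ} {s : ℕ} (hr : u (s + 2) = V (s + 1) * u (s + 1) - u s)
    (hV : |V (s + 1)| ≤ K - 1) : nv u s ≤ K * nv u (s + 1) := by
  have h0 := abs_nonneg (V (s + 1))
  have h1 := abs_le_nv u (s + 1)
  have h2 := abs_succ_le_nv u (s + 1)
  have h3 := nv_nonneg u (s + 1)
  refine nv_le ?_ (by nlinarith)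
  have : u s = V (s + 1) * u (s + 1) - u (s + 1 + 1) := by rw [hr]; ring
  rw [this]
  refine (abs_sub _ _).trans ?_
  rw [abs_mul]
  nlinarith [mul_le_mul hV h1 (abs_nonneg _) (by linarith)]

/-- After an up-bond a large potential forces growth (and another up-bond). -/
theorem abs_up {V u : ℕ → ℝ} {L : ℝ} {s : ℕ} (hr : u (s + 2) = V (s + 1) * u (s + 1) - u s)
    (hup : |u s| ≤ |u (s + 1)|) (hL : L + 1 ≤ |V (s + 1)|) : L * |u (s + 1)| ≤ |u (s + 2)| := by
  have h := abs_sub_abs_le_abs_sub (V (s + 1) * u (s + 1)) (u s)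
  rw [← hr, abs_mul] at h
  nlinarith [mul_le_mul_of_nonneg_right hL (abs_nonneg (u (s + 1)))]

theorem nv_up {V u : ℕ → ℝ} {L : ℝ} {s : ℕ} (hr : u (s + 2) = V (s + 1) * u (s + 1) - u s)
    (hup : |u s| ≤ |u (s + 1)|) (hL : L + 1 ≤ |V (s + 1)|) : L * nv u s ≤ nv u (s + 1) := by
  rw [nv, max_eq_right hup]
  exact (abs_up hr hup hL).trans (abs_succ_le_nv u (s + 1))

/-- Before a down-bond a large potential forces decay. -/
theorem abs_down {V u : ℕ → ℝ} {L : ℝ} {s : ℕ} (hr : u (s + 2) = V (s + 1) * u (s + 1) - u s)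
    (hd : |u (s + 2)| ≤ |u (s + 1)|) (hL : L + 1 ≤ |V (s + 1)|) : L * |u (s + 1)| ≤ |u s| := by
  have h := abs_sub_abs_le_abs_sub (V (s + 1) * u (s + 1)) (u (s + 2))
  have e : V (s + 1) * u (s + 1) - u (s + 2) = u s := by rw [hr]; ring
  rw [e, abs_mul] at h
  nlinarith [mul_le_mul_of_nonneg_right hL (abs_nonneg (u (s + 1)))]

theorem nv_down {V u : ℕ → ℝ} {L : ℝ} {s : ℕ} (hr : u (s + 2) = V (s + 1) * u (s + 1) - u s)
    (hd : |u (s + 2)| ≤ |u (s + 1)|) (hL : L + 1 ≤ |V (s + 1)|) : L * nv u (s + 1) ≤ nv u s := by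
  rw [nv, max_eq_left hd]
  exact (abs_down hr hd hL).trans (abs_le_nv u s)

theorem IsSol.nv_add_le {V u : ℕ → ℝ} {K : ℝ} (hu : IsSol V u) (hV : ∀ l, |V l| ≤ K - 1)
    (s j : ℕ) : nv u (s + j) ≤ K ^ j * nv u s := by
  have hK : 0 ≤ K := by linarith [hV 0, abs_nonneg (V 0)]
  induction j with
  | zero => simp
  | succ j ih =>
    calc nv u (s + j + 1) ≤ K * nv u (s + j) := nv_succ_le (hu _) (hV _)
      _ ≤ K * (K ^ j * nv u s) := mul_le_mul_of_nonneg_left ih hK
      _ = _ := by ring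

theorem IsSol.nv_le_add {V u : ℕ → ℝ} {K : ℝ} (hu : IsSol V u) (hV : ∀ l, |V l| ≤ K - 1)
    (s j : ℕ) : nv u s ≤ K ^ j * nv u (s + j) := by
  have hK : 0 ≤ K := by linarith [hV 0, abs_nonneg (V 0)]
  induction j with
  | zero => simp
  | succ j ih =>
    calc nv u s ≤ K ^ j * nv u (s + j) := ih
      _ ≤ K ^ j * (K * nv u (s + j + 1)) :=
        mul_le_mul_of_nonneg_left (nv_le_succ (hu _) (hV _)) (pow_nonneg hK _)
      _ = _ := by ring

@[simp] theorem nv_dir_zero (V : ℕ → ℝ) : nv (sol V 0 1) 0 = 1 := by simp [nv]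

theorem nv_dir_le {V : ℕ → ℝ} {K : ℝ} (hV : ∀ l, |V l| ≤ K - 1) (s : ℕ) :
    nv (sol V 0 1) s ≤ K ^ s := by
  simpa using (isSol_sol V 0 1).nv_add_le hV 0 s

theorem abs_dir_le {V : ℕ → ℝ} {K : ℝ} (hV : ∀ l, |V l| ≤ K - 1) (l : ℕ) :
    |sol V 0 1 l| ≤ K ^ (l - 1) := by
  cases l with
  | zero => simp
  | succ l => exact (abs_succ_le_nv _ l).trans (nv_dir_le hV l)

/-- Ratio lemma: a second solution `w` is `lam l • u` up to `|Wr| / nv u l`, and `lam` moves slowly. -/
theorem ratio_lemma {V u w : ℕ → ℝ} {K c : ℝ} (hu : IsSol V u) (hw : IsSol V w)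
    (hV : ∀ l, |V l| ≤ K - 1) (hc : u 0 * w 1 - u 1 * w 0 = c) (hpos : ∀ l, 0 < nv u l) :
    ∃ lam : ℕ → ℝ, (∀ l, nv (fun i => w i - lam l * u i) l ≤ |c| / nv u l) ∧
      (∀ l, |lam (l + 1) - lam l| ≤ 2 * K * |c| / (nv u l * nv u (l + 1))) ∧
      (∀ l, |u (l + 1)| ≤ |u l| → lam l * u l = w l) ∧
      (∀ l, |u l| < |u (l + 1)| → lam l * u (l + 1) = w (l + 1)) := by
  have hK : 1 ≤ K := by linarith [hV 0, abs_nonneg (V 0)]
  set lam : ℕ → ℝ := fun l => if |u (l + 1)| ≤ |u l| then w l / u l else w (l + 1) / u (l + 1)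
    with hlam
  have h3 : ∀ l, |u (l + 1)| ≤ |u l| → lam l * u l = w l := fun l h => by
    have h0 := hpos l
    rw [nv, max_eq_left h, abs_pos] at h0
    simp only [hlam, if_pos h]; field_simp
  have h4 : ∀ l, |u l| < |u (l + 1)| → lam l * u (l + 1) = w (l + 1) := fun l h => by
    have h0 := hpos l
    rw [nv, max_eq_right h.le, abs_pos] at h0
    simp only [hlam, if_neg (not_le.2 h)]; field_simp
  have h1 : ∀ l, nv (fun i => w i - lam l * u i) l ≤ |c| / nv u l := fun l => by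
    have hW := hu.wronsk hw l
    rw [hc] at hW
    have h0 := hpos l
    rw [le_div_iff₀ h0]
    rcases le_or_gt |u (l + 1)| |u l| with h | h
    · have e := h3 l h
      have e2 : (w (l + 1) - lam l * u (l + 1)) * u l = c := by linear_combination hW - u (l + 1) * e
      have : w l - lam l * u l = 0 := by linarith
      simp only [nv, this, abs_zero, max_eq_left h]
      rw [max_eq_right (abs_nonneg (w (l + 1) - lam l * u (l + 1))), ← abs_mul, e2]
    · have e := h4 l h
      have e2 : (w l - lam l * u l) * u (l + 1) = -c := by linear_combination -hW - u l * e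
      have : w (l + 1) - lam l * u (l + 1) = 0 := by linarith
      simp only [nv, this, abs_zero, max_eq_right h.le]
      rw [max_eq_left (abs_nonneg (w l - lam l * u l)), ← abs_mul, e2, abs_neg]
  refine ⟨lam, h1, fun l => ?_, h3, h4⟩
  have a0 := hpos l
  have a1 := hpos (l + 1)
  have b1 : nv (fun i => w i - lam l * u i) (l + 1) ≤ K * (|c| / nv u l) :=
    (nv_succ_le (V := V) (by simp only [hu l, hw l]; ring) (hV _)).trans
      (mul_le_mul_of_nonneg_left (h1 l) (by linarith))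
  have b2 := h1 (l + 1)
  have b3 : |c| / nv u (l + 1) ≤ K * (|c| / nv u l) := by
    rw [div_le_iff₀ a1]
    have := nv_le_succ (hu l) (hV _)
    calc |c| = |c| / nv u l * nv u l := by field_simp
      _ ≤ |c| / nv u l * (K * nv u (l + 1)) := mul_le_mul_of_nonneg_left this (by positivity)
      _ = _ := by ring
  have key : ∀ i, i = l + 1 ∨ i = l + 1 + 1 →
      |lam (l + 1) - lam l| * |u i| ≤ 2 * (K * (|c| / nv u l)) := fun i hi => by
    have e : (lam (l + 1) - lam l) * u i = (w i - lam l * u i) - (w i - lam (l + 1) * u i) := by ring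
    rw [← abs_mul, e]
    refine (abs_sub _ _).trans ?_
    rcases hi with rfl | rfl
    · linarith [abs_le_nv (fun i => w i - lam l * u i) (l + 1),
        abs_le_nv (fun i => w i - lam (l + 1) * u i) (l + 1)]
    · linarith [abs_succ_le_nv (fun i => w i - lam l * u i) (l + 1),
        abs_succ_le_nv (fun i => w i - lam (l + 1) * u i) (l + 1)]
  have key2 : |lam (l + 1) - lam l| * nv u (l + 1) ≤ 2 * (K * (|c| / nv u l)) := by
    rw [nv]
    rcases le_total |u (l + 1)| |u (l + 1 + 1)| with h | h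
    · rw [max_eq_right h]; exact key _ (Or.inr rfl)
    · rw [max_eq_left h]; exact key _ (Or.inl rfl)
  rw [le_div_iff₀ (mul_pos a0 a1)]
  calc |lam (l + 1) - lam l| * (nv u l * nv u (l + 1))
      = |lam (l + 1) - lam l| * nv u (l + 1) * nv u l := by ring
    _ ≤ 2 * (K * (|c| / nv u l)) * nv u l := mul_le_mul_of_nonneg_right key2 a0.le
    _ = _ := by field_simp

theorem nv_pos_of_wronsk {V u w : ℕ → ℝ} (hu : IsSol V u) (hw : IsSol V w)
    (hc : u 0 * w 1 - u 1 * w 0 ≠ 0) (l : ℕ) : 0 < nv u l := by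
  rw [← hu.wronsk hw l] at hc
  by_contra h
  have h1 : u l = 0 := abs_nonpos_iff.1 ((abs_le_nv u l).trans (not_lt.1 h))
  have h2 : u (l + 1) = 0 := abs_nonpos_iff.1 ((abs_succ_le_nv u l).trans (not_lt.1 h))
  simp [h1, h2] at hc

/-- The decaying solution attached to a growing Dirichlet solution. -/
theorem dec_sol {V : ℕ → ℝ} {K lam : ℝ} (hV : ∀ l, |V l| ≤ K - 1) (h2 : 2 ≤ lam) (hK : lam ≤ K)
    (m : ℕ) (h : ∀ s ≤ m, lam ^ s ≤ nv (sol V 0 1) s) :
    ∃ (c : ℝ) (e : ℕ), (e = m ∨ e = m + 1) ∧ sol V 1 c e = 0 ∧ nv (sol V 0 1) m ≤ |sol V 0 1 e| ∧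
      ∀ s ≤ m, nv (sol V 1 c) s ≤ 5 * K ^ (s + 1) / lam ^ (2 * s + 1) := by
  have hl0 : 0 < lam := by linarith
  have hK0 : 0 < K := by linarith
  have hpos : ∀ l, 0 < nv (sol V 0 1) l :=
    nv_pos_of_wronsk (isSol_sol V 0 1) (isSol_sol V 1 0) (by simp)
  obtain ⟨e, he, hwe, hcase⟩ : ∃ e, (e = m ∨ e = m + 1) ∧ nv (sol V 0 1) m ≤ |sol V 0 1 e| ∧
      ((|sol V 0 1 (m + 1)| ≤ |sol V 0 1 m| ∧ e = m) ∨
        (|sol V 0 1 m| < |sol V 0 1 (m + 1)| ∧ e = m + 1)) := by
    rcases le_or_gt |sol V 0 1 (m + 1)| |sol V 0 1 m| with h' | h'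
    · exact ⟨m, Or.inl rfl, by rw [nv, max_eq_left h'], Or.inl ⟨h', rfl⟩⟩
    · exact ⟨m + 1, Or.inr rfl, by rw [nv, max_eq_right h'.le], Or.inr ⟨h', rfl⟩⟩
  have hne : sol V 0 1 e ≠ 0 := abs_pos.1 ((hpos m).trans_le hwe)
  set c := -sol V 1 0 e / sol V 0 1 e with hc
  have h0 : sol V 1 c e = 0 := by rw [sol_one_eq, hc]; field_simp; ring
  refine ⟨c, e, he, h0, hwe, ?_⟩
  obtain ⟨μ, m1, m2, m3, m4⟩ := ratio_lemma (isSol_sol V 0 1) (isSol_sol V 1 c) hV
    (c := -1) (by simp) hpos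
  simp only [abs_neg, abs_one, mul_one] at m1 m2
  have hμm : μ m = 0 := by
    rcases hcase with ⟨h', rfl⟩ | ⟨h', rfl⟩
    · have := m3 _ h'
      rw [h0] at this
      exact (mul_eq_zero.1 this).resolve_right hne
    · have := m4 _ h'
      rw [h0] at this
      exact (mul_eq_zero.1 this).resolve_right hne
  have hμ : ∀ j s, s + j = m → |μ s| ≤ 4 * K / lam ^ (2 * s + 1) := by
    intro j
    induction j with
    | zero => intro s hs; obtain rfl : s = m := by omega
              rw [hμm, abs_zero]; positivity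
    | succ j ih =>
      intro s hs
      have a1 := ih (s + 1) (by omega)
      have a2 : |μ (s + 1) - μ s| ≤ 2 * K / lam ^ (2 * s + 1) := by
        refine (m2 s).trans (div_le_div_of_nonneg_left (by positivity) (by positivity) ?_)
        calc lam ^ (2 * s + 1) = lam ^ s * lam ^ (s + 1) := by ring
          _ ≤ _ := mul_le_mul (h s (by omega)) (h (s + 1) (by omega)) (by positivity) (hpos s).le
      have a3 : 4 * K / lam ^ (2 * (s + 1) + 1) ≤ 2 * K / lam ^ (2 * s + 1) := by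
        rw [div_le_div_iff₀ (by positivity) (by positivity)]
        have : lam ^ (2 * (s + 1) + 1) = lam ^ 2 * lam ^ (2 * s + 1) := by ring
        rw [this]
        have h4 : 4 ≤ lam ^ 2 := by nlinarith
        have : 0 < K * lam ^ (2 * s + 1) := by positivity
        nlinarith
      have a4 : |μ s| ≤ |μ (s + 1)| + |μ (s + 1) - μ s| := by
        have := abs_sub (μ (s + 1)) (μ (s + 1) - μ s)
        simpa using this
      have : 4 * K / lam ^ (2 * s + 1) = 2 * K / lam ^ (2 * s + 1) + 2 * K / lam ^ (2 * s + 1) := by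
        ring
      linarith
  intro s hs
  have b1 := m1 s
  have b2 := hμ (m - s) s (by omega)
  have b3 := nv_dir_le hV s
  have b4 : 1 / nv (sol V 0 1) s ≤ K ^ (s + 1) / lam ^ (2 * s + 1) := by
    refine (one_div_le_one_div_of_le (by positivity) (h s hs)).trans ?_
    rw [div_le_div_iff₀ (by positivity) (by positivity)]
    calc 1 * lam ^ (2 * s + 1) = lam ^ (s + 1) * lam ^ s := by ring
      _ ≤ K ^ (s + 1) * lam ^ s := by gcongr
  have b5 : |μ s| * nv (sol V 0 1) s ≤ 4 * K ^ (s + 1) / lam ^ (2 * s + 1) := by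
    calc |μ s| * nv (sol V 0 1) s ≤ 4 * K / lam ^ (2 * s + 1) * K ^ s :=
          mul_le_mul b2 b3 (hpos s).le (by positivity)
      _ = _ := by ring
  have key : ∀ i, |sol V 1 c i - μ s * sol V 0 1 i| ≤ 1 / nv (sol V 0 1) s →
      |sol V 0 1 i| ≤ nv (sol V 0 1) s → |sol V 1 c i| ≤ 5 * K ^ (s + 1) / lam ^ (2 * s + 1) := by
    intro i hi1 hi2
    have := abs_add_le (sol V 1 c i - μ s * sol V 0 1 i) (μ s * sol V 0 1 i)
    rw [sub_add_cancel, abs_mul] at this
    have h6 := mul_le_mul_of_nonneg_left hi2 (abs_nonneg (μ s))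
    have : 5 * K ^ (s + 1) / lam ^ (2 * s + 1) =
      K ^ (s + 1) / lam ^ (2 * s + 1) + 4 * K ^ (s + 1) / lam ^ (2 * s + 1) := by ring
    linarith
  exact nv_le (key s ((abs_le_nv (fun i => sol V 1 c i - μ s * sol V 0 1 i) s).trans b1)
      (abs_le_nv _ s))
    (key (s + 1) ((abs_succ_le_nv (fun i => sol V 1 c i - μ s * sol V 0 1 i) s).trans b1)
      (abs_succ_le_nv _ s))

/-! ### Orbits -/

@[simp] theorem orb_zero (k : ℝ) (p : ℝ × ℝ) : orb k p 0 = p.1 := rfl
@[simp] theorem orb_one (k : ℝ) (p : ℝ × ℝ) : orb k p 1 = p.2 := rfl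
theorem orb_succ_succ (k : ℝ) (p : ℝ × ℝ) (n : ℕ) :
    orb k p (n + 2) = phi k (orb k p (n + 1)) - orb k p n := rfl

theorem eq_orb_of_rec {k : ℝ} {x : ℕ → ℝ} {m : ℕ}
    (h : ∀ n, n + 1 ≤ m → x (n + 2) = phi k (x (n + 1)) - x n) :
    ∀ i ≤ m + 1, x i = orb k (x 0, x 1) i := by
  intro i
  induction i using Nat.strong_induction_on with
  | _ i ih =>
    intro hi
    match i with
    | 0 => rfl
    | 1 => rfl
    | i + 2 =>
      rw [h i (by omega), orb_succ_succ, ← ih (i + 1) (by omega) (by omega),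
        ← ih i (by omega) (by omega)]

theorem iter_T (k : ℝ) (p : ℝ × ℝ) (t : ℕ) : (T k)^[t] p = (orb k p t, orb k p (t + 1)) := by
  induction t with
  | zero => rfl
  | succ t ih => rw [Function.iterate_succ_apply', ih]; rfl

theorem orb_iter (k : ℝ) (p : ℝ × ℝ) (t i : ℕ) : orb k ((T k)^[t] p) i = orb k p (t + i) := by
  rw [iter_T]
  exact (eq_orb_of_rec (x := fun i => orb k p (t + i)) (m := i) (fun _ _ => rfl) i
    (Nat.le_succ i)).symm

theorem Vp_iter (k : ℝ) (p : ℝ × ℝ) (t : ℕ) : Vp k ((T k)^[t] p) = fun i => Vp k p (t + i) :=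
  funext fun i => by simp only [Vp, orb_iter]

@[simp] theorem Ti_T (k : ℝ) (p : ℝ × ℝ) : Ti k (T k p) = p := by simp [Ti, T]
@[simp] theorem T_Ti (k : ℝ) (p : ℝ × ℝ) : T k (Ti k p) = p := by simp [Ti, T]
@[simp] theorem Lf_Lf (k : ℝ) (p : ℝ × ℝ) : Lf k (Lf k p) = p := by simp [Lf]
@[simp] theorem Lf_fst (k : ℝ) (p : ℝ × ℝ) : (Lf k p).1 = p.1 := rfl
theorem Lf_add (k x₀ α δ : ℝ) :
    Lf k (x₀, α + δ) = ((Lf k (x₀, α)).1, (Lf k (x₀, α)).2 + -δ) := by
  simp only [Lf]; congr 1; ring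

theorem Ti_iter_T (k : ℝ) (p : ℝ × ℝ) {i t : ℕ} (h : i ≤ t) :
    (Ti k)^[i] ((T k)^[t] p) = (T k)^[t - i] p := by
  induction i with
  | zero => rfl
  | succ i ih =>
    rw [Function.iterate_succ_apply', ih (by omega),
      show t - i = (t - (i + 1)) + 1 by omega, Function.iterate_succ_apply', Ti_T]

theorem orb_swap_iter (k : ℝ) (p : ℝ × ℝ) (t : ℕ) :
    ∀ i ≤ t + 1, orb k ((T k)^[t] p).swap i = orb k p (t + 1 - i) := by
  intro i hi
  have := eq_orb_of_rec (k := k) (x := fun i => orb k p (t + 1 - i)) (m := t) (fun n hn => by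
    obtain ⟨j, rfl⟩ : ∃ j, t = n + 1 + j := ⟨t - (n + 1), by omega⟩
    have e1 : n + 1 + j + 1 - (n + 2) = j := by omega
    have e2 : n + 1 + j + 1 - (n + 1) = j + 1 := by omega
    have e3 : n + 1 + j + 1 - n = j + 2 := by omega
    simp only [e1, e2, e3, orb_succ_succ]; ring) i hi
  rw [iter_T]
  exact this.symm

theorem Lf_T (k : ℝ) (p : ℝ × ℝ) : Lf k (T k p) = p.swap := by simp [Lf, T, Prod.swap]

theorem orb_Lf_iter (k : ℝ) (p : ℝ × ℝ) (c : ℕ) :
    ∀ i ≤ c, orb k (Lf k ((T k)^[c] p)) i = orb k p (c - i) := by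
  intro i hi
  cases c with
  | zero => obtain rfl : i = 0 := by omega
            rfl
  | succ c => rw [Function.iterate_succ_apply', Lf_T, orb_swap_iter k p c i hi]

/-! ### The nonlinearity -/

theorem Sc.one_le {k B : ℝ} (h : Sc k B) (hB : 2 ≤ B) : 1 ≤ k := by
  have h1 : B ^ 10 ≤ B ^ 1000 := pow_le_pow_right₀ (by linarith) (by norm_num)
  have h2 : (2 : ℝ) ^ 10 ≤ B ^ 10 := pow_le_pow_left₀ (by norm_num) hB 10
  have h3 := pi_le_four
  have h4 := pi_pos
  rw [Sc] at h
  by_contra hk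
  push Not at hk
  nlinarith

theorem abs_pot_le {k K : ℝ} (hk : 0 ≤ k) (h : 2 * π * k + 3 = K) (x : ℝ) : |pot k x| ≤ K - 1 := by
  have h1 : |2 * π * k * Real.cos (2 * π * x)| ≤ 2 * π * k := by
    rw [abs_mul, abs_of_nonneg (by positivity : 0 ≤ 2 * π * k)]
    exact mul_le_of_le_one_right (by positivity) (abs_cos_le_one _)
  have := abs_add_le 2 (2 * π * k * Real.cos (2 * π * x))
  rw [abs_two] at this
  rw [pot]; linarith

theorem abs_Vp_le {k K : ℝ} (hk : 0 ≤ k) (h : 2 * π * k + 3 = K) (p : ℝ × ℝ) (l : ℕ) :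
    |Vp k p l| ≤ K - 1 := abs_pot_le hk h _

theorem le_abs_pot {k η x : ℝ} (hk : 0 ≤ k) (h : η ≤ |Real.cos (2 * π * x)|) :
    2 * π * k * η - 2 ≤ |pot k x| := by
  have h1 : 2 * π * k * η ≤ |2 * π * k * Real.cos (2 * π * x)| := by
    rw [abs_mul, abs_of_nonneg (by positivity : 0 ≤ 2 * π * k)]
    exact mul_le_mul_of_nonneg_left h (by positivity)
  have := abs_sub (2 + 2 * π * k * Real.cos (2 * π * x)) 2
  rw [add_sub_cancel_left, abs_two] at this
  rw [pot]; linarith

/-- At non-critical sites `|V| - 1 ≥ η K / 2` as soon as `η K ≥ 12`. -/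
theorem noncrit {k K η x : ℝ} (hk : 0 ≤ k) (hK : 2 * π * k + 3 = K) (hη : 12 ≤ η * K)
    (h : η ≤ |Real.cos (2 * π * x)|) : η / 2 * K + 1 ≤ |pot k x| := by
  have h1 := le_abs_pot hk h
  have h2 : η ≤ 1 := h.trans (abs_cos_le_one _)
  have : 2 * π * k * η = η * K - 3 * η := by rw [← hK]; ring
  linarith

theorem hasDerivAt_phi (k x : ℝ) : HasDerivAt (phi k) (pot k x) x := by
  have h1 : HasDerivAt (fun x : ℝ => 2 * π * x) (2 * π) x := by
    simpa using (hasDerivAt_id x).const_mul (2 * π)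
  have h2 : HasDerivAt (fun x : ℝ => 2 * x) 2 x := by simpa using (hasDerivAt_id x).const_mul 2
  have := h2.add (h1.sin.const_mul k)
  have e : pot k x = 2 + k * (Real.cos (2 * π * x) * (2 * π)) := by rw [pot]; ring
  rw [e]; exact this

theorem pot_lip {k K : ℝ} (hk : 0 ≤ k) (h : 2 * π * k + 3 = K) (x y : ℝ) :
    |pot k x - pot k y| ≤ 7 * K * |x - y| := by
  have h1 := abs_cos_sub_cos_le (2 * π * x) (2 * π * y)
  have e : pot k x - pot k y = 2 * π * k * (Real.cos (2 * π * x) - Real.cos (2 * π * y)) := by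
    simp only [pot]; ring
  have e2 : 2 * π * x - 2 * π * y = 2 * π * (x - y) := by ring
  rw [e2, abs_mul, abs_of_nonneg (by positivity : 0 ≤ 2 * π)] at h1
  rw [e, abs_mul, abs_of_nonneg (by positivity : 0 ≤ 2 * π * k)]
  have h3 : 2 * π ≤ 7 := by linarith [pi_lt_d2]
  calc 2 * π * k * |Real.cos (2 * π * x) - Real.cos (2 * π * y)|
      ≤ K * (7 * |x - y|) := by
        refine mul_le_mul (by linarith) (h1.trans ?_) (abs_nonneg _) (by rw [← h]; positivity)
        exact mul_le_mul_of_nonneg_right h3 (abs_nonneg _)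
    _ = _ := by ring

theorem phi_lip {k K : ℝ} (hk : 0 ≤ k) (h : 2 * π * k + 3 = K) (x y : ℝ) :
    |phi k x - phi k y| ≤ (K - 1) * |x - y| := by
  have := (convex_univ (𝕜 := ℝ) (E := ℝ)).norm_image_sub_le_of_norm_hasDerivWithin_le
    (f := phi k) (f' := pot k) (C := K - 1) (fun z _ => (hasDerivAt_phi k z).hasDerivWithinAt)
    (fun z _ => abs_pot_le hk h z) (Set.mem_univ y) (Set.mem_univ x)
  simpa using this

/-- The nonlinear remainder. -/
noncomputable def NN (k x z : ℝ) : ℝ := phi k (x + z) - phi k x - pot k x * z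

@[simp] theorem NN_zero (k x : ℝ) : NN k x 0 = 0 := by simp [NN]

theorem NN_lip {k K : ℝ} (hk : 0 ≤ k) (h : 2 * π * k + 3 = K) (x : ℝ) {z z' ω : ℝ} (hz : |z| ≤ ω)
    (hz' : |z'| ≤ ω) : |NN k x z - NN k x z'| ≤ 7 * K * ω * |z - z'| := by
  have hK : 0 ≤ K := by rw [← h]; positivity
  have := (convex_Icc (-ω) ω).norm_image_sub_le_of_norm_hasDerivWithin_le
    (f := NN k x) (f' := fun t => pot k (x + t) - pot k x) (C := 7 * K * ω)
    (fun t _ => by
      have h1 : HasDerivAt (fun t => phi k (x + t)) (pot k (x + t)) t := by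
        simpa using (hasDerivAt_phi k (x + t)).comp_const_add x t
      have h2 : HasDerivAt (fun t => pot k x * t) (pot k x) t := by
        simpa using (hasDerivAt_id t).const_mul (pot k x)
      exact ((h1.sub_const _).sub h2).hasDerivWithinAt)
    (fun t ht => by
      refine (pot_lip hk h _ _).trans ?_
      rw [add_sub_cancel_left]
      exact mul_le_mul_of_nonneg_left (abs_le.2 ht) (by positivity))
    (abs_le.1 hz') (abs_le.1 hz)
  simpa using this

theorem abs_NN_le {k K : ℝ} (hk : 0 ≤ k) (h : 2 * π * k + 3 = K) (x z : ℝ) :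
    |NN k x z| ≤ 7 * K * z ^ 2 := by
  have := NN_lip hk h x (z := z) (z' := 0) (ω := |z|) le_rfl (by simp)
  rw [NN_zero, sub_zero, sub_zero, mul_assoc, abs_mul_abs_self] at this
  rwa [sq]

/-- The difference of two orbits solves the linearised recursion with source `NN`. -/
theorem orb_sub_rec (k : ℝ) (p q : ℝ × ℝ) (n : ℕ) :
    orb k q (n + 2) - orb k p (n + 2) = Vp k p (n + 1) * (orb k q (n + 1) - orb k p (n + 1)) -
      (orb k q n - orb k p n) + NN k (orb k p (n + 1)) (orb k q (n + 1) - orb k p (n + 1)) := by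
  simp only [orb_succ_succ, NN, Vp, add_sub_cancel]; ring

/-- Orbits with the same `x_0` separate at most at rate `K`. -/
theorem orb_lip {k K : ℝ} (hk : 0 ≤ k) (h : 2 * π * k + 3 = K) {p q : ℝ × ℝ} (hpq : q.1 = p.1)
    (l : ℕ) : |orb k q l - orb k p l| ≤ K ^ (l - 1) * |q.2 - p.2| := by
  have hK : 1 ≤ K := by rw [← h]; have := pi_pos; nlinarith [mul_nonneg pi_pos.le hk]
  have key : ∀ s, |orb k q s - orb k p s| ≤ K ^ s * |q.2 - p.2| ∧
      |orb k q (s + 1) - orb k p (s + 1)| ≤ K ^ s * |q.2 - p.2| := by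
    intro s
    induction s with
    | zero => simp [hpq]
    | succ s ih =>
      have h0 : 0 ≤ K ^ s * |q.2 - p.2| := by positivity
      refine ⟨ih.2.trans (by rw [pow_succ]; nlinarith), ?_⟩
      have e : orb k q (s + 1 + 1) - orb k p (s + 1 + 1) =
          (phi k (orb k q (s + 1)) - phi k (orb k p (s + 1))) - (orb k q s - orb k p s) := by
        simp only [orb_succ_succ]; ring
      rw [e]
      refine (abs_sub _ _).trans ?_
      have h1 := (phi_lip hk h (orb k q (s + 1)) (orb k p (s + 1))).trans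
        (mul_le_mul_of_nonneg_left ih.2 (by linarith))
      rw [pow_succ]; nlinarith [ih.1]
  cases l with
  | zero => simp [hpq]
  | succ l => exact (key l).2

end Crest.Agent.R128
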