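import Crest.Agent.R128.Defs

/-! Row 128: gain in a cell around an unmatched level. -/

set_option autoImplicit false
open MeasureTheory Real

namespace Crest.Agent.R128

namespace Cell

lemma vol_scale {P α₀ c : ℝ} (hP : 0 < P) {S A : Set ℝ} (hS : volume S ≤ ENNReal.ofReal c)
    (h : ∀ y ∈ A, P * (y + -α₀) ∈ S) : volume A ≤ ENNReal.ofReal (c / P) := by
  have h1 : A ⊆ (fun y => y + -α₀) ⁻¹' ((fun y => P * y) ⁻¹' S) := h
  refine (measure_mono h1).trans ?_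
  rw [measure_preimage_add_right, Real.volume_preimage_mul_left hP.ne', abs_of_pos (inv_pos.2 hP),
    div_eq_inv_mul, ENNReal.ofReal_mul (inv_pos.2 hP).le]
  gcongr

/-- The Taylor error, rescaled. -/
lemma err1 {B M P w d : ℝ} (hB : 1 ≤ B) (hM : M ≤ B ^ 1000) (hw : w ≠ 0) (hwP : |w| ≤ P)
    (hd : |d| * P ≤ 1) : M * P ^ 2 * ((|w| * |d|) ^ 3 / (B ^ 1100 * w ^ 2)) ≤ 1 / B := by
  have hw' : 0 < |w| := abs_pos.2 hw
  have hP : 0 < P := hw'.trans_le hwP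
  have hB0 : 0 < B := by linarith
  have h1 : P ^ 2 * (|w| * |d| ^ 3) ≤ 1 := by
    calc P ^ 2 * (|w| * |d| ^ 3) ≤ P ^ 2 * (P * |d| ^ 3) := by gcongr
      _ = (|d| * P) ^ 3 := by ring
      _ ≤ 1 := pow_le_one₀ (by positivity) hd
  have h2 : B ^ 1000 * B ≤ B ^ 1100 := by
    rw [← pow_succ]; exact pow_le_pow_right₀ hB (by norm_num)
  calc M * P ^ 2 * ((|w| * |d|) ^ 3 / (B ^ 1100 * w ^ 2))
      = M * (P ^ 2 * (|w| * |d| ^ 3)) / B ^ 1100 := by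
        rw [← sq_abs w]
        generalize B ^ 1100 = X
        by_cases hX : X = 0
        · simp [hX]
        · field_simp
    _ ≤ B ^ 1000 * 1 / (B ^ 1000 * B) := by gcongr
    _ = 1 / B := by rw [mul_div_mul_left _ _ (by positivity)]

/-- The mismatch of the two boundary values, rescaled. -/
lemma err2 {B M P w w' : ℝ} (hB : 2 ≤ B) (hM : M ≤ B ^ 1000) (hP : 0 < P) (hPw : P ≤ B ^ 600 * |w|)
    (hw : |w' - w| ≤ |w| / B ^ 800) : M * P ^ 2 * (1 / (B ^ 2900 * w' ^ 2)) ≤ 4 / B := by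
  have hB0 : 0 < B := by linarith
  have hB1 : 1 ≤ B := by linarith
  have h800 : 2 ≤ B ^ 800 := hB.trans (le_self_pow₀ hB1 (by norm_num))
  have h1 : |w| / B ^ 800 ≤ |w| / 2 := by gcongr
  have h2 : |w| ≤ 2 * |w'| := by
    have := abs_sub_abs_le_abs_sub w w'
    rw [abs_sub_comm] at this
    linarith
  have h3 : P ≤ B ^ 600 * (2 * |w'|) := hPw.trans (by gcongr)
  have hw' : 0 < |w'| := by
    rcases (abs_nonneg w').eq_or_lt with h | h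
    · rw [← h] at h3; linarith
    · exact h
  have h4 : B ^ 1000 * (B ^ 600) ^ 2 * B ≤ B ^ 2900 := by
    rw [← pow_mul, ← pow_add, ← pow_succ]; exact pow_le_pow_right₀ hB1 (by norm_num)
  rw [← sq_abs w']
  have h600 : 0 < B ^ 600 := by positivity
  have h1000 : 0 < B ^ 1000 := by positivity
  generalize B ^ 600 = X at *
  generalize B ^ 1000 = Y at *
  calc M * P ^ 2 * (1 / (B ^ 2900 * |w'| ^ 2))
      ≤ Y * (X * (2 * |w'|)) ^ 2 * (1 / (Y * X ^ 2 * B * |w'| ^ 2)) := by gcongr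
    _ = 4 / B := by field_simp; norm_num

lemma sec_scale {M P w c : ℝ} (hM : M ≠ 0) (hP : P ≠ 0) (hw : w ≠ 0) :
    M * P ^ 2 * (1 / (w ^ 2 * M * c)) = 1 / ((w / P) ^ 2 * c) := by
  by_cases hc : c = 0
  · simp [hc]
  · field_simp

end Cell

open Cell in
theorem cell (h1 : OneStmt) (h2 : PtStmt) (h3 : SideStmt) (h4 : ModelAStmt) : CellStmt := by
  intro η θ κ hη hθ hκ
  by_cases hη1 : 1 < η
  · refine ⟨1, 0, one_pos, le_rfl, fun k B _ _ x₀ α₀ J J' ⟨a, ha, _⟩ => ?_⟩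
    exact absurd (ha.c0.trans (abs_cos_le_one _)) (not_le.2 hη1)
  obtain ⟨B₁, h1⟩ := h1 η hη
  obtain ⟨B₂, h2⟩ := h2 η hη
  obtain ⟨B₃, h3⟩ := h3
  obtain ⟨r, δ, hr, hrη, hδ, h4⟩ := h4 η θ κ hη hθ hκ
  have hr1 : r ≤ 1 := by linarith [not_lt.1 hη1]
  refine ⟨r, max (max B₁ B₂) (max B₃ (max 2 (10 / δ))), hr, hr1,
    fun k B hB hSc x₀ α₀ J J' hLev hM => ?_⟩
  simp only [max_le_iff] at hB
  obtain ⟨⟨hB1, hB2⟩, hB3, hB, hBδ⟩ := hB
  obtain ⟨a₀, gR, gL, hLR, hRL⟩ := hLev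
  obtain ⟨q₀, q₁, q₂, oR⟩ := h1 k B hB1 hSc _ _ _ gR
  obtain ⟨p₀, p₁, p₂, oL⟩ := h1 k B hB1 hSc _ _ _ gL
  obtain ⟨sR, -, sR'⟩ := h3 k B hB3 hSc _ _ _ _ gR
  obtain ⟨sL, -, sL'⟩ := h3 k B hB3 hSc _ _ _ _ gL
  have hB0 : 0 < B := by linarith
  have hB1' : 1 ≤ B := by linarith
  have hwR : ww k (x₀, α₀) J' ≠ 0 :=
    abs_pos.1 ((pow_pos hB0 950).trans_le (h2 k B hB2 hSc _ _ _ gR).1)
  have hwL : ww k (Lf k (x₀, α₀)) J ≠ 0 :=
    abs_pos.1 ((pow_pos hB0 950).trans_le (h2 k B hB2 hSc _ _ _ gL).1)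
  have hRP : |ww k (x₀, α₀) J'| ≤ PP k (x₀, α₀) J J' := le_max_right _ _
  have hLP : |ww k (Lf k (x₀, α₀)) J| ≤ PP k (x₀, α₀) J J' := le_max_left _ _
  have h600 : 1 ≤ B ^ 600 := one_le_pow₀ hB1'
  have hPR : PP k (x₀, α₀) J J' ≤ B ^ 600 * |ww k (x₀, α₀) J'| :=
    max_le hLR (le_mul_of_one_le_left (abs_nonneg _) h600)
  have hPL : PP k (x₀, α₀) J J' ≤ B ^ 600 * |ww k (Lf k (x₀, α₀)) J| :=
    max_le (le_mul_of_one_le_left (abs_nonneg _) h600) hRL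
  have hPdef : PP k (x₀, α₀) J J' = max |ww k (Lf k (x₀, α₀)) J| |ww k (x₀, α₀) J'| := rfl
  have hK : 2 * π * k ≤ B ^ 1000 := by rw [← hSc]; linarith
  have hK0 : 0 < 2 * π * k := by
    have : B ^ 2 ≤ B ^ 1000 := pow_le_pow_right₀ hB1' (by norm_num)
    rw [← hSc] at this
    nlinarith
  unfold Matched at hM
  have c1 := gR.c0
  have c2 := gL.c0
  simp only [Lf] at sL' oL
  change ∀ d : ℝ, |d| * |ww k (Lf k (x₀, α₀)) J| ≤ 1 → |_ - ww k (Lf k (x₀, α₀)) J| ≤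
    |ww k (Lf k (x₀, α₀)) J| / _ ∧ _ at sL'
  change ∀ d : ℝ, |d| * |ww k (Lf k (x₀, α₀)) J| ≤ _ → |_ - _ - 1 / (ww k (Lf k (x₀, α₀)) J ^ 2 * _ *
    cos (2 * π * (orb k (Lf k (x₀, α₀)) J + ww k (Lf k (x₀, α₀)) J * d)))| ≤
    (|ww k (Lf k (x₀, α₀)) J| * _) ^ 3 / (_ * ww k (Lf k (x₀, α₀)) J ^ 2) at oL
  generalize PP k (x₀, α₀) J J' = P at *
  generalize ww k (x₀, α₀) J' = wR at *
  generalize ww k (Lf k (x₀, α₀)) J = wL at *
  generalize orb k (x₀, α₀) J' = x₁ at *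
  generalize orb k (Lf k (x₀, α₀)) J = x₂ at *
  have hP : 0 < P := (abs_pos.2 hwR).trans_le hRP
  refine vol_scale (α₀ := α₀) hP (h4 x₁ x₂ (wR / P) (-wL / P)
    (2 * π * k * P ^ 2 * (q₀ + p₀ - pot k x₀)) (2 * π * k * P * (q₁ - p₁)) (2 * π * k * (q₂ + p₂))
    c1 c2 (div_ne_zero hwR hP.ne') (div_ne_zero (neg_ne_zero.2 hwL) hP.ne') ?_ ?_) ?_
  · rw [abs_div, abs_div, abs_neg, abs_of_pos hP, max_div_div_right hP.le, max_comm, ← hPdef,
      div_self hP.ne']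
  · intro σ hσ
    by_contra hc
    rw [not_or, not_lt, not_lt] at hc
    refine hM ⟨σ, hσ, ?_, hc.2⟩
    have e : wR / P - σ * (-wL / P) = (wR + σ * wL) / P := by ring
    have := hc.1
    rwa [e, abs_div, abs_of_pos hP, div_le_iff₀ hP] at this
  rintro y ⟨α, hα, ⟨a, gR', gL', -⟩, hy⟩
  obtain ⟨d, rfl⟩ : ∃ d, α = α₀ + d := ⟨α - α₀, by ring⟩
  rw [add_sub_cancel_left] at hα
  have eL : Lf k (x₀, α₀ + d) = (x₀, phi k x₀ - α₀ + -d) := by
    simp only [Lf]; congr 1; ring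
  have tR := (h2 k B hB2 hSc _ _ _ gR').2.1
  have tL := (h2 k B hB2 hSc _ _ _ gL').2.1
  rw [eL] at tL
  have dR : |d| * |wR| ≤ r := le_trans (by gcongr) hα
  have dL : |-d| * |wL| ≤ r := by rw [abs_neg]; exact le_trans (by gcongr) hα
  have e1 := err1 hB1' hK hwR hRP (hα.trans hr1)
  have e2 := err1 (d := -d) hB1' hK hwL hLP (by rw [abs_neg]; exact hα.trans hr1)
  have e3 := err2 hB hK hP hPR (sR' d (dR.trans hr1)).1
  have e4 := err2 hB hK hP hPL (sL' (-d) (dL.trans hr1)).1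
  have o1 := oR d (dR.trans hrη)
  have o2 := oL (-d) (dL.trans hrη)
  have hM0 : 0 ≤ 2 * π * k * P ^ 2 := by positivity
  refine ⟨P * d, by rwa [abs_mul, abs_of_pos hP, mul_comm], ?_, ?_⟩
  · have a1 : wR / P * (P * d) = wR * d := by field_simp
    have a2 : -wL / P * (P * d) = wL * -d := by field_simp
    have a3 : (-wL / P) ^ 2 = (wL / P) ^ 2 := by ring
    rw [a1, a2, a3, ← sec_scale hK0.ne' hP.ne' hwR, ← sec_scale hK0.ne' hP.ne' hwL]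
    have b1 := (mul_le_mul_of_nonneg_left o1 hM0).trans e1
    have b2 := (mul_le_mul_of_nonneg_left o2 hM0).trans e2
    have b3 := (mul_le_mul_of_nonneg_left tR hM0).trans e3
    have b4 := (mul_le_mul_of_nonneg_left tL hM0).trans e4
    rw [← abs_of_nonneg hM0, ← abs_mul, abs_le] at b1 b2 b3 b4
    have hδ' : 10 / B ≤ δ := by
      rw [div_le_iff₀ hB0]; rw [div_le_iff₀ hδ] at hBδ; linarith
    have s1 : 10 / B = 1 / B + 1 / B + 4 / B + 4 / B := by ring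
    dsimp only at b1 b2 b3 b4
    rw [abs_le]
    constructor <;> linarith [b1.1, b1.2, b2.1, b2.2, b3.1, b3.2, b4.1, b4.2]
  · have e : P * (y + -α₀) - P * d = (y - (α₀ + d)) * P := by ring
    rwa [e, abs_mul, abs_of_pos hP]

end Crest.Agent.R128
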