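import Crest.Agent.R128.Basic

/-!
Row 128 (S0172): complex perturbations of `x_1` and their real consequences.
-/

set_option autoImplicit false
open MeasureTheory Real

namespace Crest.Agent.R128

namespace Cplx

theorem norm_sin_le (w : ℂ) : ‖Complex.sin w‖ ≤ Real.exp |w.im| := by
  have h1 : ‖Complex.exp (-w * Complex.I)‖ ≤ Real.exp |w.im| := by
    rw [Complex.norm_exp]; exact Real.exp_le_exp.2 (by simpa using le_abs_self w.im)
  have h2 : ‖Complex.exp (w * Complex.I)‖ ≤ Real.exp |w.im| := by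
    rw [Complex.norm_exp]; exact Real.exp_le_exp.2 (by simpa using neg_le_abs w.im)
  have h3 := norm_sub_le (Complex.exp (-w * Complex.I)) (Complex.exp (w * Complex.I))
  rw [Complex.sin, norm_div, norm_mul, Complex.norm_I, Complex.norm_two]
  linarith

/-- The absolute constant in the complex estimates. -/
noncomputable def C0 : ℝ := 2 * π * Real.exp (2 * π)

theorem C0_pos : 0 < C0 := by unfold C0; positivity

theorem norm_two_pi : ‖(2 * π : ℂ)‖ = 2 * π := by
  rw [norm_mul, Complex.norm_two, Complex.norm_real, Real.norm_of_nonneg pi_pos.le]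

theorem hasDerivAt_aff (x : ℝ) (t : ℂ) :
    HasDerivAt (fun t : ℂ => 2 * π * (x + t)) (2 * π : ℂ) t := by
  simpa using ((hasDerivAt_id t).const_add (x : ℂ)).const_mul (2 * π : ℂ)

theorem cos_lip (x : ℝ) {z : ℂ} (hz : ‖z‖ ≤ 1) :
    ‖Complex.cos (2 * π * (x + z)) - Complex.cos (2 * π * x)‖ ≤ C0 * ‖z‖ := by
  have := (convex_closedBall (0 : ℂ) 1).norm_image_sub_le_of_norm_hasDerivWithin_le (𝕜 := ℂ)
    (f := fun t : ℂ => Complex.cos (2 * π * (x + t)))
    (f' := fun t => -Complex.sin (2 * π * (x + t)) * (2 * π)) (C := C0)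
    (fun t _ => (hasDerivAt_aff x t).ccos.hasDerivWithinAt)
    (fun t ht => by
      rw [norm_mul, norm_neg, norm_two_pi, C0, mul_comm]
      refine mul_le_mul_of_nonneg_left ((norm_sin_le _).trans (Real.exp_le_exp.2 ?_))
        (by positivity)
      have h1 : (2 * π * (x + t) : ℂ).im = 2 * π * t.im := by simp
      have h2 : |t.im| ≤ 1 := (Complex.abs_im_le_norm t).trans (by simpa using ht)
      rw [h1, abs_mul, abs_of_pos (by positivity : 0 < 2 * π)]
      exact mul_le_of_le_one_right (by positivity) h2)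
    (Metric.mem_closedBall_self zero_le_one) (y := z) (by simpa using hz)
  simpa using this

theorem sin_rem (x : ℝ) {z : ℂ} (hz : ‖z‖ ≤ 1) :
    ‖Complex.sin (2 * π * (x + z)) - Complex.sin (2 * π * x) -
      2 * π * Complex.cos (2 * π * x) * z‖ ≤ 2 * π * C0 * ‖z‖ ^ 2 := by
  have := (convex_closedBall (0 : ℂ) ‖z‖).norm_image_sub_le_of_norm_hasDerivWithin_le (𝕜 := ℂ)
    (f := fun t : ℂ => Complex.sin (2 * π * (x + t)) - 2 * π * Complex.cos (2 * π * x) * t)
    (f' := fun t => Complex.cos (2 * π * (x + t)) * (2 * π) - 2 * π * Complex.cos (2 * π * x) * 1)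
    (C := 2 * π * C0 * ‖z‖)
    (fun t _ => ((hasDerivAt_aff x t).csin.sub
      ((hasDerivAt_id t).const_mul _)).hasDerivWithinAt)
    (fun t ht => by
      have ht' : ‖t‖ ≤ ‖z‖ := by simpa using ht
      have e : Complex.cos (2 * π * (x + t)) * (2 * π) - 2 * π * Complex.cos (2 * π * x) * 1 =
          2 * π * (Complex.cos (2 * π * (x + t)) - Complex.cos (2 * π * x)) := by ring
      rw [e, norm_mul, norm_two_pi, mul_assoc (2 * π)]
      refine mul_le_mul_of_nonneg_left ((cos_lip x (ht'.trans hz)).trans ?_) (by positivity)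
      exact mul_le_mul_of_nonneg_left ht' C0_pos.le)
    (Metric.mem_closedBall_self (norm_nonneg z)) (y := z) (by simp)
  simp only [add_zero, mul_zero, sub_zero] at this
  rw [sub_right_comm, sq, ← mul_assoc]
  exact this

theorem orbC_succ_succ (k x₀ : ℝ) (t : ℂ) (n : ℕ) : orbC k x₀ t (n + 2) =
    2 * orbC k x₀ t (n + 1) + k * Complex.sin (2 * π * orbC k x₀ t (n + 1)) - orbC k x₀ t n := rfl

theorem orbC_real (k : ℝ) (p : ℝ × ℝ) (n : ℕ) : orbC k p.1 p.2 n = orb k p n := by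
  induction n using Nat.strong_induction_on with
  | _ n ih =>
    match n with
    | 0 => rfl
    | 1 => rfl
    | n + 2 =>
      rw [orbC_succ_succ, ih (n + 1) (by omega), ih n (by omega), orb_succ_succ, phi]
      push_cast
      rfl

theorem potC_real (k x : ℝ) : potC k x = pot k x := by
  rw [potC, pot]; push_cast; rfl

theorem VpC_real (k : ℝ) (p : ℝ × ℝ) (n : ℕ) : VpC k p.1 p.2 n = Vp k p n := by
  rw [VpC, orbC_real, potC_real, Vp]

theorem sol_real (V : ℕ → ℝ) (a b : ℝ) (n : ℕ) :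
    sol (fun n => (V n : ℂ)) a b n = ((sol V a b n : ℝ) : ℂ) := by
  induction n using Nat.strong_induction_on with
  | _ n ih =>
    match n with
    | 0 => rfl
    | 1 => rfl
    | n + 2 =>
      rw [sol_succ_succ, sol_succ_succ, ih (n + 1) (by omega), ih n (by omega)]
      push_cast
      rfl

theorem solC_real (k : ℝ) (p : ℝ × ℝ) (n : ℕ) : sol (VpC k p.1 p.2) 0 1 n = ww k p n := by
  have : VpC k p.1 p.2 = fun n => (Vp k p n : ℂ) := funext (VpC_real k p)
  rw [this]
  exact_mod_cast sol_real (Vp k p) 0 1 n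

theorem diff_orbC (k x₀ : ℝ) (n : ℕ) : Differentiable ℂ (fun t => orbC k x₀ t n) := by
  induction n using Nat.strong_induction_on with
  | _ n ih =>
    match n with
    | 0 => exact differentiable_const _
    | 1 => exact differentiable_id
    | n + 2 =>
      have h1 := ih (n + 1) (by omega)
      have h0 := ih n (by omega)
      simp only [orbC_succ_succ]
      exact ((h1.const_mul _).add ((h1.const_mul _).csin.const_mul _)).sub h0

theorem diff_VpC (k x₀ : ℝ) (n : ℕ) : Differentiable ℂ (fun t => VpC k x₀ t n) := by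
  simp only [VpC, potC]
  exact (((diff_orbC k x₀ n).const_mul _).ccos.const_mul _).const_add _

variable {k B : ℝ}

theorem pow_gap (hB : 30 ≤ B) {m n : ℕ} (h : m < n) : 30 * B ^ m ≤ B ^ n :=
  calc 30 * B ^ m ≤ B * B ^ m := by gcongr
    _ = B ^ (m + 1) := by ring
    _ ≤ B ^ n := pow_le_pow_right₀ (by linarith) h

theorem kC_le (hB : 30 ≤ B) (hC : C0 ≤ B) (hk : Sc k B) : 2 * π * k * C0 ≤ B ^ 1002 := by
  have h1 : 2 * π * k ≤ B ^ 1000 := by rw [← hk]; linarith
  calc 2 * π * k * C0 ≤ B ^ 1000 * B := mul_le_mul h1 hC C0_pos.le (by positivity)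
    _ = B ^ 1001 := by ring
    _ ≤ B ^ 1002 := pow_le_pow_right₀ (by linarith) (by norm_num)

theorem potC_lip (hB : 30 ≤ B) (hC : C0 ≤ B) (hk : Sc k B) (x : ℝ) {z : ℂ} (hz : ‖z‖ ≤ 1) :
    ‖potC k (x + z) - pot k x‖ ≤ B ^ 1002 * ‖z‖ := by
  have hk0 : 0 ≤ k := by linarith [hk.one_le (by linarith)]
  have e : potC k (x + z) - pot k x =
      2 * π * k * (Complex.cos (2 * π * (x + z)) - Complex.cos (2 * π * x)) := by
    rw [← potC_real, potC, potC]; ring
  rw [e, norm_mul, norm_mul, norm_two_pi, Complex.norm_real, Real.norm_of_nonneg hk0]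
  calc 2 * π * k * ‖Complex.cos (2 * π * (x + z)) - Complex.cos (2 * π * x)‖
      ≤ 2 * π * k * (C0 * ‖z‖) := mul_le_mul_of_nonneg_left (cos_lip x hz) (by positivity)
    _ = 2 * π * k * C0 * ‖z‖ := by ring
    _ ≤ _ := mul_le_mul_of_nonneg_right (kC_le hB hC hk) (norm_nonneg _)

theorem rem_le (hB : 30 ≤ B) (hC : C0 ≤ B) (hk : Sc k B) (x : ℝ) {z : ℂ} (hz : ‖z‖ ≤ 1) :
    ‖k * (Complex.sin (2 * π * (x + z)) - Complex.sin (2 * π * x) -
      2 * π * Complex.cos (2 * π * x) * z)‖ ≤ B ^ 1002 * ‖z‖ ^ 2 := by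
  have hk0 : 0 ≤ k := by linarith [hk.one_le (by linarith)]
  rw [norm_mul, Complex.norm_real, Real.norm_of_nonneg hk0]
  calc k * ‖Complex.sin (2 * π * (x + z)) - Complex.sin (2 * π * x) -
        2 * π * Complex.cos (2 * π * x) * z‖
      ≤ k * (2 * π * C0 * ‖z‖ ^ 2) := mul_le_mul_of_nonneg_left (sin_rem x hz) hk0
    _ = 2 * π * k * C0 * ‖z‖ ^ 2 := by ring
    _ ≤ _ := mul_le_mul_of_nonneg_right (kC_le hB hC hk) (by positivity)

variable {η a : ℝ} {p : ℝ × ℝ} {J : ℕ}

theorem Wm_nonneg (hB : 0 < B) (l : ℕ) : 0 ≤ Wm k B p J l := by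
  unfold Wm; positivity

theorem Wm_succ (hB : 0 < B) {l : ℕ} (hl : l < J) :
    Wm k B p J (l + 1) = Wm k B p J l * B ^ 950 := by
  unfold Wm
  rw [show 950 * (J - l) = 950 * (J - (l + 1)) + 950 by omega, pow_add]
  field_simp

theorem Wm_self : Wm k B p J J = |ww k p J| := by simp [Wm]

theorem abs_ww_le (hB : 0 < B) (hG : Good k B η p a J) {l : ℕ} (hl : l ≤ J) :
    |ww k p l| ≤ Wm k B p J l := by
  rcases hl.eq_or_lt with rfl | hl
  · rw [Wm_self]
  · rw [Wm, le_div_iff₀ (by positivity)]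
    exact hG.hW l hl

theorem num1 (hB : 30 ≤ B) : B ^ 1000 / B ^ 890 + 4 * B ^ 1002 ≤ (B ^ 950) ^ 2 / B ^ 890 := by
  have h0 : 0 < B := by linarith
  have e1 : B ^ 1000 / B ^ 890 = B ^ 110 := by field_simp
  have e2 : (B ^ 950) ^ 2 / B ^ 890 = B ^ 1010 := by field_simp
  have h1 : B ^ 110 ≤ B ^ 1002 := pow_le_pow_right₀ (by linarith) (by norm_num)
  have h2 := pow_gap hB (show 1002 < 1010 by norm_num)
  have h3 : 0 < B ^ 1002 := by positivity
  rw [e1, e2]
  linarith

theorem main (hB : 30 ≤ B) (hC : C0 ≤ B) (hk : Sc k B) (hG : Good k B η p a J) (δ : ℂ) (i : ℕ) :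
    i ≤ J → ‖δ‖ * Wm k B p J i ≤ B ^ 900 →
      ‖orbC k p.1 (p.2 + δ) i - orb k p i - δ * ww k p i‖ ≤ ‖δ‖ ^ 2 * Wm k B p J i ^ 2 / B ^ 890 ∧
      ‖sol (VpC k p.1 (p.2 + δ)) 0 1 i - ww k p i‖ ≤ ‖δ‖ * Wm k B p J i ^ 2 / B ^ 890 := by
  have hB0 : 0 < B := by linarith
  have hB1 : 1 ≤ B := by linarith
  have hk0 : 0 ≤ k := by linarith [hk.one_le (by linarith)]
  induction i using Nat.strong_induction_on with
  | _ i ih =>
    intro hi hδ
    match i with
    | 0 =>
      have := Wm_nonneg (k := k) (p := p) (J := J) hB0 0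
      constructor
      · simp only [orbC, orb, ww, sol_zero]; simp; positivity
      · simp only [ww, sol_zero]; simp; positivity
    | 1 =>
      have := Wm_nonneg (k := k) (p := p) (J := J) hB0 1
      constructor
      · simp only [orbC, orb, ww, sol_one]; simp; positivity
      · simp only [ww, sol_one]; simp; positivity
    | l + 2 =>
      set d := ‖δ‖ with hd
      have hd0 : 0 ≤ d := norm_nonneg _
      set A := Wm k B p J (l + 1) with hA
      have hA0 : 0 ≤ A := Wm_nonneg hB0 _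
      have hW2 : Wm k B p J (l + 2) = A * B ^ 950 := Wm_succ hB0 (by omega)
      have hW0 : Wm k B p J l ≤ A := by
        rw [hA, Wm_succ hB0 (by omega : l < J)]
        exact le_mul_of_one_le_right (Wm_nonneg hB0 _) (one_le_pow₀ hB1)
      have hWl0 : 0 ≤ Wm k B p J l := Wm_nonneg hB0 _
      rw [hW2] at hδ ⊢
      have hdA : d * A ≤ 1 / 2 := by
        have h1 := pow_gap hB (show 900 < 950 by norm_num)
        have h2 : 0 < B ^ 950 := by positivity
        have h3 : 0 ≤ d * A := by positivity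
        nlinarith
      have h900 : 1 ≤ B ^ 900 := one_le_pow₀ hB1
      have h890 : 1 ≤ B ^ 890 := one_le_pow₀ hB1
      obtain ⟨e1, f1⟩ := ih (l + 1) (by omega) (by omega) (by linarith)
      obtain ⟨e0, f0⟩ := ih l (by omega) (by omega)
        ((mul_le_mul_of_nonneg_left hW0 hd0).trans (by linarith))
      rw [← hA] at e1 f1
      replace e0 := e0.trans (show _ ≤ d ^ 2 * A ^ 2 / B ^ 890 by gcongr)
      replace f0 := f0.trans (show _ ≤ d * A ^ 2 / B ^ 890 by gcongr)
      have hw1 : ‖(ww k p (l + 1) : ℂ)‖ ≤ A := by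
        rw [Complex.norm_real]; exact abs_ww_le hB0 hG (by omega)
      have hsm : d * A / B ^ 890 ≤ 1 := by
        rw [div_le_one (by positivity)]; linarith
      set z := orbC k p.1 (p.2 + δ) (l + 1) - orb k p (l + 1) with hz
      have hz2 : ‖z‖ ≤ 2 * (d * A) := by
        have h1 := norm_add_le (z - δ * ww k p (l + 1)) (δ * ww k p (l + 1))
        rw [sub_add_cancel, norm_mul] at h1
        have h2 : d ^ 2 * A ^ 2 / B ^ 890 ≤ d * A := by
          calc d ^ 2 * A ^ 2 / B ^ 890 = d * A * (d * A / B ^ 890) := by ring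
            _ ≤ d * A * 1 := by gcongr
            _ = _ := mul_one _
        have h3 : d * ‖(ww k p (l + 1) : ℂ)‖ ≤ d * A := by gcongr
        linarith
      have hz1 : ‖z‖ ≤ 1 := by linarith
      have hzx : orbC k p.1 (p.2 + δ) (l + 1) = orb k p (l + 1) + z := by rw [hz]; ring
      have hV : ‖(Vp k p (l + 1) : ℂ)‖ ≤ B ^ 1000 - 1 := by
        rw [Complex.norm_real]; exact abs_Vp_le hk0 hk p _
      have hV0 : 0 ≤ B ^ 1000 - 1 := (norm_nonneg _).trans hV
      have hB2 : 0 ≤ B ^ 1002 := by positivity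
      have hn := num1 hB
      constructor
      · have e : orbC k p.1 (p.2 + δ) (l + 2) - orb k p (l + 2) - δ * ww k p (l + 2) =
            Vp k p (l + 1) * (z - δ * ww k p (l + 1)) -
              (orbC k p.1 (p.2 + δ) l - orb k p l - δ * ww k p l) +
              k * (Complex.sin (2 * π * (orb k p (l + 1) + z)) -
                Complex.sin (2 * π * orb k p (l + 1)) -
                2 * π * Complex.cos (2 * π * orb k p (l + 1)) * z) := by
          rw [orbC_succ_succ, hzx, orb_succ_succ, ww, sol_succ_succ, phi, Vp, pot]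
          push_cast
          ring
        rw [e]
        refine (norm_add_le _ _).trans ((add_le_add (norm_sub_le _ _)
          (rem_le hB hC hk _ hz1)).trans ?_)
        rw [norm_mul]
        calc ‖(Vp k p (l + 1) : ℂ)‖ * ‖z - δ * ww k p (l + 1)‖ +
              ‖orbC k p.1 (p.2 + δ) l - orb k p l - δ * ww k p l‖ + B ^ 1002 * ‖z‖ ^ 2
            ≤ (B ^ 1000 - 1) * (d ^ 2 * A ^ 2 / B ^ 890) + d ^ 2 * A ^ 2 / B ^ 890 +
              B ^ 1002 * (2 * (d * A)) ^ 2 :=
              add_le_add (add_le_add (mul_le_mul hV e1 (norm_nonneg _) hV0) e0)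
                (mul_le_mul_of_nonneg_left (pow_le_pow_left₀ (norm_nonneg _) hz2 2) hB2)
          _ = d ^ 2 * A ^ 2 * (B ^ 1000 / B ^ 890 + 4 * B ^ 1002) := by ring
          _ ≤ d ^ 2 * A ^ 2 * ((B ^ 950) ^ 2 / B ^ 890) := by gcongr
          _ = _ := by ring
      · have e : sol (VpC k p.1 (p.2 + δ)) 0 1 (l + 2) - ww k p (l + 2) =
            Vp k p (l + 1) * (sol (VpC k p.1 (p.2 + δ)) 0 1 (l + 1) - ww k p (l + 1)) -
              (sol (VpC k p.1 (p.2 + δ)) 0 1 l - ww k p l) +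
              (potC k (orb k p (l + 1) + z) - pot k (orb k p (l + 1))) *
                sol (VpC k p.1 (p.2 + δ)) 0 1 (l + 1) := by
          rw [sol_succ_succ, ww, sol_succ_succ, ← hzx, VpC, Vp]
          push_cast
          ring
        have hs : ‖sol (VpC k p.1 (p.2 + δ)) 0 1 (l + 1)‖ ≤ 2 * A := by
          have h1 := norm_add_le (sol (VpC k p.1 (p.2 + δ)) 0 1 (l + 1) - ww k p (l + 1))
            (ww k p (l + 1))
          rw [sub_add_cancel] at h1
          have h2 : d * A ^ 2 / B ^ 890 ≤ A := by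
            calc d * A ^ 2 / B ^ 890 = A * (d * A / B ^ 890) := by ring
              _ ≤ A * 1 := by gcongr
              _ = _ := mul_one _
          linarith
        have hp := potC_lip hB hC hk (orb k p (l + 1)) hz1
        rw [e]
        refine (norm_add_le _ _).trans ((add_le_add (norm_sub_le _ _) le_rfl).trans ?_)
        rw [norm_mul, norm_mul]
        calc ‖(Vp k p (l + 1) : ℂ)‖ * ‖sol (VpC k p.1 (p.2 + δ)) 0 1 (l + 1) - ww k p (l + 1)‖ +
              ‖sol (VpC k p.1 (p.2 + δ)) 0 1 l - ww k p l‖ +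
              ‖potC k (orb k p (l + 1) + z) - pot k (orb k p (l + 1))‖ *
                ‖sol (VpC k p.1 (p.2 + δ)) 0 1 (l + 1)‖
            ≤ (B ^ 1000 - 1) * (d * A ^ 2 / B ^ 890) + d * A ^ 2 / B ^ 890 +
              B ^ 1002 * (2 * (d * A)) * (2 * A) :=
              add_le_add (add_le_add (mul_le_mul hV f1 (norm_nonneg _) hV0) f0)
                (mul_le_mul (hp.trans (mul_le_mul_of_nonneg_left hz2 hB2)) hs (norm_nonneg _)
                  (mul_nonneg hB2 (mul_nonneg zero_le_two (mul_nonneg hd0 hA0))))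
          _ = d * A ^ 2 * (B ^ 1000 / B ^ 890 + 4 * B ^ 1002) := by ring
          _ ≤ d * A ^ 2 * ((B ^ 950) ^ 2 / B ^ 890) := by gcongr
          _ = _ := by ring

theorem side_main (hT : TaylorStmt) (hB : 30 ≤ B) (hC : C0 ≤ B) (hk : Sc k B)
    (hG : Good k B η p a J) : ∃ s₂ : ℝ, |s₂| ≤ ww k p J ^ 2 / B ^ 800 ∧
      ∀ δ : ℝ, |δ| * |ww k p J| ≤ 1 →
        |ww k (p.1, p.2 + δ) J - ww k p J| ≤ |ww k p J| / B ^ 800 ∧
        |orb k (p.1, p.2 + δ) (J - 1) - orb k p (J - 1)| ≤ 1 / B ^ 900 ∧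
        |orb k (p.1, p.2 + δ) J - orb k p J - ww k p J * δ - s₂ * δ ^ 2| ≤ 1 / B ^ 1500 := by
  have hB0 : 0 < B := by linarith
  have hB1 : 1 ≤ B := by linarith
  have hJ := hG.two_le
  set P := |ww k p J| with hP
  have hP0 : 0 < P := by
    have := hG.hW 1 (by omega)
    rw [ww, sol_one, abs_one, one_mul] at this
    exact lt_of_lt_of_le (by positivity) this
  set f : ℂ → ℂ := fun δ => orbC k p.1 (p.2 + δ) J - orb k p J - δ * ww k p J with hf
  have hfb : ∀ δ : ℂ, ‖δ‖ * P ≤ B ^ 900 → ‖f δ‖ ≤ (‖δ‖ * P) ^ 2 / B ^ 890 := fun δ hδ => by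
    have := (main hB hC hk hG δ J le_rfl (by rwa [Wm_self])).1
    rwa [Wm_self, ← mul_pow] at this
  have hfd : Differentiable ℂ f :=
    (((diff_orbC k p.1 J).comp (differentiable_id.const_add _)).sub_const _).sub
      (differentiable_id.mul_const _)
  have h850 : B ^ 850 ≤ B ^ 900 := pow_le_pow_right₀ hB1 (by norm_num)
  have h850' : 1 < B ^ 850 := one_lt_pow₀ (by linarith) (by norm_num)
  obtain ⟨q₀, q₁, q₂, hq⟩ := hT f (B ^ 850 / P) (B ^ 810) (by positivity) hfd.differentiableOn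
    (fun z hz => by
      rw [mem_ball_zero_iff, lt_div_iff₀ hP0] at hz
      refine (hfb z (hz.le.trans h850)).trans ?_
      rw [div_le_iff₀ (by positivity)]
      calc (‖z‖ * P) ^ 2 ≤ (B ^ 850) ^ 2 := pow_le_pow_left₀ (by positivity) hz.le 2
        _ = _ := by ring)
  have hq' : ∀ z : ℂ, ‖z‖ * P ≤ 1 →
      ‖f z - (q₀ + q₁ * z + q₂ * z ^ 2)‖ ≤ 27 * (‖z‖ * P) ^ 3 / B ^ 1740 := fun z hz => by
    refine (hq z (by rw [mem_ball_zero_iff, lt_div_iff₀ hP0]; linarith)).trans_eq ?_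
    field_simp
  have h900 : 1 ≤ B ^ 900 := one_le_pow₀ hB1
  have hq0 : q₀ = 0 := by
    have h1 := hq' 0 (by simp)
    have h2 := hfb 0 (by simp; positivity)
    simp only [norm_zero, zero_mul, ne_eq, OfNat.ofNat_ne_zero, not_false_eq_true, zero_pow,
      zero_div, norm_le_zero_iff, mul_zero, add_zero] at h1 h2
    rw [h2] at h1
    simpa using h1
  subst hq0
  set t : ℝ := 1 / B ^ 700 with ht
  have ht0 : 0 < t := by positivity
  have ht1 : t ≤ 1 := by rw [ht, div_le_one (by positivity)]; exact one_le_pow₀ hB1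
  have hE : ∀ z : ℂ, ‖z‖ * P = t → ‖q₁ * z + q₂ * z ^ 2‖ ≤ 2 * (t ^ 2 / B ^ 890) := fun z hz => by
    have h1 := hq' z (hz.trans_le ht1)
    have h2 := hfb z (hz.trans_le (ht1.trans h900))
    rw [hz] at h1 h2
    have h3 := norm_sub_le (f z) (f z - (0 + q₁ * z + q₂ * z ^ 2))
    rw [sub_sub_cancel, zero_add] at h3
    have h4 : 27 * t ^ 3 / B ^ 1740 ≤ t ^ 2 / B ^ 890 := by
      rw [div_le_div_iff₀ (by positivity) (by positivity)]
      have h5 := pow_gap hB (show 890 < 1740 by norm_num)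
      have h6 : 0 < B ^ 890 := by positivity
      calc 27 * t ^ 3 * B ^ 890 = t ^ 2 * (t * (27 * B ^ 890)) := by ring
        _ ≤ t ^ 2 * (1 * B ^ 1740) := mul_le_mul_of_nonneg_left
          (mul_le_mul ht1 (by linarith) (by positivity) zero_le_one) (by positivity)
        _ = _ := by ring
    rw [zero_add] at h1
    linarith
  have hzn : ‖((t / P : ℝ) : ℂ)‖ = t / P := by
    rw [Complex.norm_real, Real.norm_of_nonneg (by positivity)]
  have hE1 := hE ((t / P : ℝ) : ℂ) (by rw [hzn]; field_simp)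
  have hE2 := hE (-((t / P : ℝ) : ℂ)) (by rw [norm_neg, hzn]; field_simp)
  have hq1 : ‖q₁‖ / P ≤ 2 / B ^ 1590 := by
    have h1 := norm_sub_le (q₁ * ((t / P : ℝ) : ℂ) + q₂ * ((t / P : ℝ) : ℂ) ^ 2)
      (q₁ * -((t / P : ℝ) : ℂ) + q₂ * (-((t / P : ℝ) : ℂ)) ^ 2)
    have e : q₁ * ((t / P : ℝ) : ℂ) + q₂ * ((t / P : ℝ) : ℂ) ^ 2 -
        (q₁ * -((t / P : ℝ) : ℂ) + q₂ * (-((t / P : ℝ) : ℂ)) ^ 2) =
        2 * q₁ * ((t / P : ℝ) : ℂ) := by ring
    rw [e, norm_mul, norm_mul, hzn, Complex.norm_two] at h1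
    have h2 : ‖q₁‖ / P * t ≤ 2 / B ^ 1590 * t := by
      calc ‖q₁‖ / P * t = 2 * ‖q₁‖ * (t / P) / 2 := by ring
        _ ≤ 2 * (t ^ 2 / B ^ 890) := by linarith
        _ = 2 / B ^ 1590 * t := by rw [ht]; field_simp
    exact le_of_mul_le_mul_right h2 ht0
  have hq2 : ‖q₂‖ ≤ P ^ 2 / B ^ 800 := by
    have h1 := norm_add_le (q₁ * ((t / P : ℝ) : ℂ) + q₂ * ((t / P : ℝ) : ℂ) ^ 2)
      (q₁ * -((t / P : ℝ) : ℂ) + q₂ * (-((t / P : ℝ) : ℂ)) ^ 2)
    have e : q₁ * ((t / P : ℝ) : ℂ) + q₂ * ((t / P : ℝ) : ℂ) ^ 2 +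
        (q₁ * -((t / P : ℝ) : ℂ) + q₂ * (-((t / P : ℝ) : ℂ)) ^ 2) =
        2 * q₂ * ((t / P : ℝ) : ℂ) ^ 2 := by ring
    rw [e, norm_mul, norm_mul, norm_pow, hzn, Complex.norm_two] at h1
    have h3 : 2 / B ^ 890 ≤ 1 / B ^ 800 := by
      rw [div_le_div_iff₀ (by positivity) (by positivity)]
      have h5 := pow_gap hB (show 800 < 890 by norm_num)
      have h6 : 0 < B ^ 800 := by positivity
      linarith
    have h2 : ‖q₂‖ * (t / P) ^ 2 ≤ P ^ 2 / B ^ 800 * (t / P) ^ 2 := by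
      calc ‖q₂‖ * (t / P) ^ 2 ≤ 2 * (t ^ 2 / B ^ 890) := by linarith
        _ = t ^ 2 * (2 / B ^ 890) := by ring
        _ ≤ t ^ 2 * (1 / B ^ 800) := mul_le_mul_of_nonneg_left h3 (by positivity)
        _ = _ := by field_simp
    exact le_of_mul_le_mul_right h2 (by positivity)
  refine ⟨q₂.re, by rw [← sq_abs (ww k p J)]; exact (Complex.abs_re_le_norm q₂).trans hq2,
    fun δ hδ => ?_⟩
  have hδn : ‖(δ : ℂ)‖ = |δ| := by rw [Complex.norm_real, Real.norm_eq_abs]
  have hδ0 := abs_nonneg δ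
  have horb : ∀ n, orbC k p.1 (p.2 + δ) n = orb k (p.1, p.2 + δ) n := fun n => by
    rw [← orbC_real k (p.1, p.2 + δ) n]; push_cast; rfl
  have hsol : sol (VpC k p.1 (p.2 + δ)) 0 1 J = ww k (p.1, p.2 + δ) J := by
    rw [← solC_real k (p.1, p.2 + δ) J]; push_cast; rfl
  refine ⟨?_, ?_, ?_⟩
  · have h1 := (main hB hC hk hG δ J le_rfl (by rw [Wm_self, hδn]; linarith)).2
    rw [hsol, Wm_self, hδn, ← hP, ← Complex.ofReal_sub, Complex.norm_real, Real.norm_eq_abs] at h1
    refine h1.trans ?_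
    calc |δ| * P ^ 2 / B ^ 890 = |δ| * P * P / B ^ 890 := by ring
      _ ≤ 1 * P / B ^ 800 := div_le_div₀ (by positivity)
          (mul_le_mul_of_nonneg_right hδ hP0.le) (by positivity)
          (pow_le_pow_right₀ hB1 (by norm_num))
      _ = _ := by rw [one_mul]
  · have hW : Wm k B p J (J - 1) * B ^ 950 = P := by
      rw [← Wm_succ hB0 (by omega), show J - 1 + 1 = J by omega, Wm_self]
    set A := Wm k B p J (J - 1) with hA
    have hA0 : 0 ≤ A := Wm_nonneg hB0 _
    have hdA : |δ| * A ≤ 1 / B ^ 950 := by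
      rw [le_div_iff₀ (by positivity), mul_assoc, hW]; exact hδ
    have h950 : 1 / B ^ 950 ≤ 1 := by
      rw [div_le_one (by positivity)]; exact one_le_pow₀ hB1
    have h1 := (main hB hC hk hG δ (J - 1) (by omega) (by rw [hδn]; linarith)).1
    rw [horb, hδn, ← hA, ← Complex.ofReal_sub, ← Complex.ofReal_mul, ← Complex.ofReal_sub,
      Complex.norm_real, Real.norm_eq_abs] at h1
    have h2 := abs_add_le (orb k (p.1, p.2 + δ) (J - 1) - orb k p (J - 1) - δ * ww k p (J - 1))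
      (δ * ww k p (J - 1))
    rw [sub_add_cancel, abs_mul] at h2
    have h3 : |δ| * |ww k p (J - 1)| ≤ |δ| * A :=
      mul_le_mul_of_nonneg_left (abs_ww_le hB0 hG (by omega)) hδ0
    have h4 : |δ| ^ 2 * A ^ 2 / B ^ 890 ≤ |δ| * A := by
      have h5 : |δ| * A / B ^ 890 ≤ 1 := by
        rw [div_le_one (by positivity)]
        exact (hdA.trans h950).trans (one_le_pow₀ hB1)
      calc |δ| ^ 2 * A ^ 2 / B ^ 890 = |δ| * A * (|δ| * A / B ^ 890) := by ring
        _ ≤ |δ| * A * 1 := mul_le_mul_of_nonneg_left h5 (by positivity)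
        _ = _ := mul_one _
    have h6 : 2 * (1 / B ^ 950) ≤ 1 / B ^ 900 := by
      rw [mul_one_div, div_le_div_iff₀ (by positivity) (by positivity)]
      have h5 := pow_gap hB (show 900 < 950 by norm_num)
      linarith
    linarith
  · have h1 := hq' δ (by rwa [hδn])
    have e : orb k (p.1, p.2 + δ) J - orb k p J - ww k p J * δ - q₂.re * δ ^ 2 =
        (f δ - (0 + q₁ * δ + q₂ * δ ^ 2) + q₁ * δ).re := by
      simp only [hf, horb]
      simp [← Complex.ofReal_pow]
      ring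
    rw [e]
    refine (Complex.abs_re_le_norm _).trans ((norm_add_le _ _).trans ?_)
    rw [norm_mul, hδn]
    rw [hδn] at h1
    have h2 : 27 * (|δ| * P) ^ 3 / B ^ 1740 ≤ 27 / B ^ 1590 :=
      div_le_div₀ (by positivity)
        (mul_le_of_le_one_right (by norm_num) (pow_le_one₀ (by positivity) hδ)) (by positivity)
        (pow_le_pow_right₀ hB1 (by norm_num))
    have h3 : ‖q₁‖ * |δ| ≤ 2 / B ^ 1590 := by
      calc ‖q₁‖ * |δ| = ‖q₁‖ / P * (|δ| * P) := by field_simp
        _ ≤ 2 / B ^ 1590 * 1 := mul_le_mul hq1 hδ (by positivity) (by positivity)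
        _ = _ := mul_one _
    have h4 : 27 / B ^ 1590 + 2 / B ^ 1590 ≤ 1 / B ^ 1500 := by
      rw [← add_div, div_le_div_iff₀ (by positivity) (by positivity)]
      have h5 := pow_gap hB (show 1500 < 1590 by norm_num)
      have h6 : 0 < B ^ 1500 := by positivity
      linarith
    linarith

end Cplx

open Cplx in
theorem cplx : CplxStmt :=
  ⟨fun k p n => ⟨orbC_real k p n, VpC_real k p n⟩, fun k x₀ n => ⟨diff_orbC k x₀ n, diff_VpC k x₀ n⟩,
    max 30 C0, fun _ _ hB hk => ⟨fun x _ hz => potC_lip (le_of_max_le_left hB)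
      (le_of_max_le_right hB) hk x hz, fun _ _ _ _ hG δ i =>
        main (le_of_max_le_left hB) (le_of_max_le_right hB) hk hG δ i⟩⟩

open Cplx in
theorem side (h : TaylorStmt) : SideStmt :=
  ⟨max 30 C0, fun _ _ hB hk _ _ _ _ hG =>
    side_main h (le_of_max_le_left hB) (le_of_max_le_right hB) hk hG⟩

end Crest.Agent.R128
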