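import Mathlib

/-!
Row 128 (S0172): positive Lyapunov exponent of the standard map.
Definitions and the statements of the pieces of the proof.

Coordinates: `x_{n+1} = φ(x_n) - x_{n-1}`, `φ(x) = 2x + k sin 2πx`, phase point `p = (x_0, x_1)`.
The linearised recursion is `u_{n+1} = V_n u_n - u_{n-1}` with `V_n = φ'(x_n)`.
-/

set_option autoImplicit false
open MeasureTheory Real

namespace Crest.Agent.R128

/-- `φ(x) = 2x + k sin 2πx`. -/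
noncomputable def phi (k x : ℝ) : ℝ := 2 * x + k * Real.sin (2 * π * x)

/-- `V = φ'`. -/
noncomputable def pot (k x : ℝ) : ℝ := 2 + 2 * π * k * Real.cos (2 * π * x)

/-- The forward orbit `x_0 = p.1, x_1 = p.2, x_{n+2} = φ(x_{n+1}) - x_n`. -/
noncomputable def orb (k : ℝ) (p : ℝ × ℝ) : ℕ → ℝ
  | 0 => p.1
  | 1 => p.2
  | n + 2 => phi k (orb k p (n + 1)) - orb k p n

/-- Solution of `u_{n+2} = V_{n+1} u_{n+1} - u_n` with `u_0 = a`, `u_1 = b`. -/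
def sol {R : Type*} [CommRing R] (V : ℕ → R) (a b : R) : ℕ → R
  | 0 => a
  | 1 => b
  | n + 2 => V (n + 1) * sol V a b (n + 1) - sol V a b n

/-- The potential along the orbit of `p`. -/
noncomputable def Vp (k : ℝ) (p : ℝ × ℝ) : ℕ → ℝ := fun n => pot k (orb k p n)

/-- Dirichlet solution `w_0 = 0, w_1 = 1` (`w_n = ∂x_n/∂x_1`). -/
noncomputable def ww (k : ℝ) (p : ℝ × ℝ) : ℕ → ℝ := sol (Vp k p) 0 1
/-- The solution `y_0 = 1, y_1 = 0`. -/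
noncomputable def yy (k : ℝ) (p : ℝ × ℝ) : ℕ → ℝ := sol (Vp k p) 1 0
/-- The solution `u_0 = 1, u_1 = a`. -/
noncomputable def uu (k : ℝ) (p : ℝ × ℝ) (a : ℝ) : ℕ → ℝ := sol (Vp k p) 1 a
/-- The value of `u_1` for which `u_J = 0`. -/
noncomputable def RR (k : ℝ) (p : ℝ × ℝ) (J : ℕ) : ℝ := -yy k p J / ww k p J

/-- Sup norm of the vector `(u_s, u_{s+1})`. -/
def nv (u : ℕ → ℝ) (s : ℕ) : ℝ := max |u s| |u (s + 1)|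

/-- The map on phase points. -/
noncomputable def T (k : ℝ) (p : ℝ × ℝ) : ℝ × ℝ := (p.2, phi k p.2 - p.1)
/-- Its inverse. -/
noncomputable def Ti (k : ℝ) (p : ℝ × ℝ) : ℝ × ℝ := (phi k p.1 - p.2, p.1)
/-- `(x_0, x_1) ↦ (x_0, x_{-1})`: the orbit of `Lf k p` is the backward orbit of `p` from `x_0`. -/
noncomputable def Lf (k : ℝ) (p : ℝ × ℝ) : ℝ × ℝ := (p.1, phi k p.1 - p.2)

/-- The unit square. -/
def Q : Set (ℝ × ℝ) := Set.Ico (0 : ℝ) 1 ×ˢ Set.Ico (0 : ℝ) 1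
/-- Area on the unit square. -/
noncomputable def nu : Measure (ℝ × ℝ) := volume.restrict Q
/-- `ℤ²`-periodic sets. -/
def Per (A : Set (ℝ × ℝ)) : Prop := ∀ p ∈ A, ∀ m n : ℤ, (p.1 + m, p.2 + n) ∈ A

/-- The scale: `K = 2πk + 3 = B^1000`, so `|V| ≤ K - 1`. -/
def Sc (k B : ℝ) : Prop := 2 * π * k + 3 = B ^ 1000

/-- The Dirichlet solution fails to grow at rate `lam` at some time `≤ N`. -/
def Fail (k lam : ℝ) (N : ℕ) : Set (ℝ × ℝ) := {p | ∃ s, s ≤ N ∧ nv (ww k p) s < lam ^ s}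
/-- `n` is the first failure time. -/
def First (k lam : ℝ) (p : ℝ × ℝ) (n : ℕ) : Prop :=
  (∀ s < n, lam ^ s ≤ nv (ww k p) s) ∧ nv (ww k p) n < lam ^ n
/-- Failure both forwards and backwards. -/
def Zs (k lam : ℝ) (N : ℕ) : Set (ℝ × ℝ) := Fail k lam N ∩ Prod.swap ⁻¹' Fail k lam N
/-- The site `x_0` is critical. -/
def Crit (η : ℝ) : Set (ℝ × ℝ) := {p | |Real.cos (2 * π * p.1)| < η}

open Classical in
/-- `u = uu k p a` decays and the site is non-critical at all but `h / 10^5` sites of `[1, h]`. -/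
def Dec (k η : ℝ) (p : ℝ × ℝ) (a : ℝ) (h : ℕ) : Prop :=
  100000 * ((Finset.Icc 1 h).filter fun i =>
    ¬ (|uu k p a (i + 1)| ≤ |uu k p a i| ∧ η ≤ |Real.cos (2 * π * orb k p i)|)).card ≤ h

/-- Resonance: a solution peaked at site `0` and decaying on both sides for `h` steps. -/
def Res (k η : ℝ) (h : ℕ) : Set (ℝ × ℝ) :=
  {p | ∃ a : ℝ, |a| ≤ 1 ∧ |pot k p.1 - a| ≤ 1 ∧ Dec k η p a h ∧ Dec k η (Lf k p) (pot k p.1 - a) h}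

/-- Bad bonds. -/
def Bad (k η lam : ℝ) (N : ℕ) : Set (ℝ × ℝ) := Zs k lam N ∪ Crit η

open Classical in
/-- Bonds with a high backward density of bad bonds. -/
def Bad' (k η lam : ℝ) (C N : ℕ) : Set (ℝ × ℝ) :=
  {q | ∃ j, 1 ≤ j ∧ j ≤ N + 1 ∧
    j ≤ C * ((Finset.range j).filter fun i => (Ti k)^[i] q ∈ Bad k η lam N).card}

/-- The exceptional set of the structure lemma. -/
def Eset (k η lam : ℝ) (C N : ℕ) : Set (ℝ × ℝ) :=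
  T k ⁻¹' Crit η ∪ Bad' k η lam C N ∪ ⋃ h : ℕ, ⋃ (_ : C ≤ 2 * h), (Ti k)^[h] ⁻¹' Res k η h

/-! ### Measure theory -/

/-- Periodicity, measurability, invariance. -/
def MeasStmt : Prop :=
  (∀ (k : ℝ) (A : Set (ℝ × ℝ)), MeasurableSet A → Per A →
    (nu (T k ⁻¹' A) = nu A ∧ Per (T k ⁻¹' A)) ∧ (nu (Ti k ⁻¹' A) = nu A ∧ Per (Ti k ⁻¹' A)) ∧
      (nu (Prod.swap ⁻¹' A) = nu A ∧ Per (Prod.swap ⁻¹' A))) ∧
  (∀ k : ℝ, Continuous (T k) ∧ Continuous (Ti k)) ∧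
  (∀ (k lam : ℝ) (N : ℕ), IsOpen (Fail k lam N) ∧ Per (Fail k lam N)) ∧
  (∀ η : ℝ, IsOpen (Crit η) ∧ Per (Crit η) ∧ nu (Crit η) ≤ ENNReal.ofReal η) ∧
  (∀ (k η : ℝ) (h : ℕ), IsClosed (Res k η h) ∧ Per (Res k η h)) ∧
  (∀ A : Set (ℝ × ℝ), MeasurableSet A → Per A →
    ∃ c ∈ Set.Ico (0 : ℝ) 1, volume ({d : ℝ | (c, d) ∈ A} ∩ Set.Icc (-3) 4) ≤ 7 * nu A) ∧
  (∀ A : Set (ℝ × ℝ), Per A → nu A = 0 → volume A = 0)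

open Classical in
/-- Maximal inequalities: for measures, and for finite sets of integers (backward windows). -/
def MaxStmt : Prop :=
  (∀ (μ : Measure (ℝ × ℝ)) (F : ℝ × ℝ → ℝ × ℝ) (M E : Set (ℝ × ℝ)) (C N : ℕ), Measurable F →
    MeasurableSet M → MeasurableSet E → (∀ i, μ (F^[i] ⁻¹' M) = μ M) → (∀ i, μ (F^[i] ⁻¹' E) = μ E) →
    (∀ x ∈ M, ∃ j, 1 ≤ j ∧ j ≤ N ∧ j ≤ C * ((Finset.range j).filter fun i => F^[i] x ∈ E).card) →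
    μ M ≤ C * μ E) ∧
  (∀ (D G : Finset ℕ) (C : ℕ),
    (∀ e ∈ G, ∃ j, 1 ≤ j ∧ j ≤ C * (D.filter fun d => d ≤ e ∧ e < d + j).card) → G.card ≤ C * D.card)

/-! ### The product estimate -/

/-- Closeness of a point of the stable leaf. -/
def Close (k B : ℝ) (p q : ℝ × ℝ) (n : ℕ) : Prop :=
  ∀ l, 1 ≤ l → l ≤ n → |orb k q l - orb k p l| ≤ 2 / B ^ (900 * min l (n - 1))

/-- Width of the strips. -/
noncomputable def wd (B : ℝ) (n : ℕ) : ℝ := 1 / B ^ (1200 * (n - 1))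

/-- The neighbourhood of an orbit segment in which the linearisation is accurate. -/
def Near (k B : ℝ) (p q : ℝ × ℝ) (n : ℕ) : Prop :=
  ∀ l, 1 ≤ l → l ≤ n →
    |orb k q l - orb k p l| ≤ 10 / B ^ (900 * min l (n - 1)) + 10 * B ^ (1000 * (l - 1)) * wd B n

/-- Existence of long finite-time stable leaves. -/
def LeafStmt : Prop :=
  ∃ B₀ : ℝ, ∀ k B lam : ℝ, B₀ ≤ B → Sc k B → B ^ 999 ≤ lam → ∀ (p : ℝ × ℝ) (n : ℕ) (c : ℝ),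
    100 < n → First k lam p n → |c - p.1| ≤ 1 → ∃ d : ℝ, Close k B p (c, d) n

/-- Failure is stable near the leaf. -/
def StabStmt : Prop :=
  ∃ B₀ : ℝ, ∀ k B lam : ℝ, B₀ ≤ B → Sc k B → B ^ 999 ≤ lam → ∀ (p q : ℝ × ℝ) (n : ℕ),
    100 < n → First k lam p n → Near k B p q n → nv (ww k q) n ≤ 3 * lam ^ n

/-- Leaves through nearby base points stay close. -/
def TwoStmt : Prop :=
  ∃ B₀ : ℝ, ∀ k B lam : ℝ, B₀ ≤ B → Sc k B → B ^ 999 ≤ lam →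
    ∀ (p q q' r r' : ℝ × ℝ) (n : ℕ), 100 < n → First k lam p n →
    Near k B p q n → Near k B p q' n → Near k B p r n → Near k B p r' n →
    Close k B q r n → Close k B q' r' n → r.1 = r'.1 → |r.2 - r'.2| ≤ 10 * wd B n →
    |q.2 - q'.2| ≤ |q.1 - q'.1| / 4 + 50 * wd B n

/-- The product estimate. -/
def ProdStmt : Prop :=
  ∃ (C : ℕ) (B₀ : ℝ), ∀ k B lam lam' : ℝ, B₀ ≤ B → Sc k B → B ^ 999 ≤ lam → 4 * lam ≤ lam' →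
    ∀ N : ℕ, nu ((Fail k lam N \ Fail k lam 100) ∩ Prod.swap ⁻¹' (Fail k lam N \ Fail k lam 100))
      ≤ C * nu (Fail k lam' N) ^ 2

/-! ### The structure lemma -/

open Classical in
/-- A first failure at time `n` forces `n / (2 * 10^7)` exceptional bonds. -/
def StructStmt : Prop :=
  ∀ η : ℝ, 0 < η → ∃ b₀ : ℝ, ∀ k b : ℝ, b₀ ≤ b → 2 * π * k + 3 = b ^ 10000000 →
    ∀ (C N n : ℕ) (p : ℝ × ℝ), 2000000 ≤ C → n ≤ N + 1 → First k (b ^ 9999998) p n →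
      n ≤ 20000000 *
        ((Finset.range n).filter fun t => (T k)^[t] p ∈ Eset k η (b ^ 9999997) C N).card

/-! ### The resonance estimate -/

/-- `J` is a good index for the solution `uu k p a`. -/
structure Good (k B η : ℝ) (p : ℝ × ℝ) (a : ℝ) (J : ℕ) : Prop where
  two_le : 2 ≤ J
  hW : ∀ l < J, |ww k p l| * B ^ (950 * (J - l)) ≤ |ww k p J|
  hU : ∀ l < J, |uu k p a l| * |ww k p J| ≤ 2 * B ^ (1000 * (J - 1 - l))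
  c0 : η ≤ |Real.cos (2 * π * orb k p J)|
  c1 : η ≤ |Real.cos (2 * π * orb k p (J + 1))|
  dec : |uu k p a (J + 2)| ≤ |uu k p a (J + 1)|

/-- A level: good indices `J` on the left and `J'` on the right with comparable slopes. -/
def Lev (k B η : ℝ) (p : ℝ × ℝ) (J J' : ℕ) : Prop :=
  ∃ a : ℝ, Good k B η p a J' ∧ Good k B η (Lf k p) (pot k p.1 - a) J ∧
    |ww k (Lf k p) J| ≤ B ^ 600 * |ww k p J'| ∧ |ww k p J'| ≤ B ^ 600 * |ww k (Lf k p) J|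

/-- Two consecutive levels. -/
def Pair (k B η : ℝ) (p : ℝ × ℝ) (J J' : ℕ) : Prop :=
  Lev k B η p J J' ∧ Lev k B η p (J + 1) (J' + 1)

/-- The larger slope. -/
noncomputable def PP (k : ℝ) (p : ℝ × ℝ) (J J' : ℕ) : ℝ := max |ww k (Lf k p) J| |ww k p J'|

/-- The two far sites are related by the approximate anti-symmetry. -/
def Matched (k θ : ℝ) (p : ℝ × ℝ) (J J' : ℕ) : Prop :=
  ∃ σ : ℝ, (σ = 1 ∨ σ = -1) ∧ |ww k p J' + σ * ww k (Lf k p) J| ≤ θ * PP k p J J' ∧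
    |Real.cos (π * (orb k p J' - σ * orb k (Lf k p) J))| ≤ θ

/-- A resonant point has `h / 10` spaced pairs of levels. -/
def PairStmt : Prop :=
  ∀ η : ℝ, 0 < η → ∃ B₀ : ℝ, ∀ k B : ℝ, B₀ ≤ B → Sc k B → ∀ (h : ℕ) (p : ℝ × ℝ), 1000 ≤ h →
    p ∈ Res k η h → ∃ f g : ℕ → ℕ, (∀ i, i + 1 < h / 10 → f i + 3 ≤ f (i + 1) ∧ g i < g (i + 1)) ∧
      ∀ i < h / 10, f i ≤ h ∧ g i ≤ h ∧ Pair k B η p (f i) (g i)

/-- Pointwise consequences of goodness. -/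
def PtStmt : Prop :=
  ∀ η : ℝ, 0 < η → ∃ B₀ : ℝ, ∀ k B : ℝ, B₀ ≤ B → Sc k B → ∀ (p : ℝ × ℝ) (a : ℝ) (J : ℕ),
    Good k B η p a J → B ^ 950 ≤ |ww k p J| ∧
      |a - RR k p (J + 1)| ≤ 1 / (B ^ 2900 * ww k p J ^ 2) ∧
      η / 2 * B ^ 1000 * |ww k p J| ≤ |ww k p (J + 1)| ∧
      |ww k p (J + 1)| ≤ B ^ 1000 * |ww k p J|

/-- Complex orbits. -/
noncomputable def orbC (k x₀ : ℝ) (t : ℂ) : ℕ → ℂ
  | 0 => x₀
  | 1 => t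
  | n + 2 => 2 * orbC k x₀ t (n + 1) + k * Complex.sin (2 * π * orbC k x₀ t (n + 1)) - orbC k x₀ t n

/-- Complex potential. -/
noncomputable def potC (k : ℝ) (z : ℂ) : ℂ := 2 + 2 * π * k * Complex.cos (2 * π * z)

/-- The potential along a complex orbit. -/
noncomputable def VpC (k x₀ : ℝ) (t : ℂ) : ℕ → ℂ := fun n => potC k (orbC k x₀ t n)

/-- The majorant `W_l = P B^{-950 (J - l)}`. -/
noncomputable def Wm (k B : ℝ) (p : ℝ × ℝ) (J l : ℕ) : ℝ := |ww k p J| / B ^ (950 * (J - l))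

/-- Estimates for complex perturbations of `x_1`. -/
def CplxStmt : Prop :=
  (∀ (k : ℝ) (p : ℝ × ℝ) (n : ℕ), orbC k p.1 p.2 n = orb k p n ∧ VpC k p.1 p.2 n = Vp k p n) ∧
  (∀ (k x₀ : ℝ) (n : ℕ), Differentiable ℂ (fun t => orbC k x₀ t n) ∧
    Differentiable ℂ (fun t => VpC k x₀ t n)) ∧
  ∃ B₀ : ℝ, ∀ k B : ℝ, B₀ ≤ B → Sc k B →
    (∀ (x : ℝ) (z : ℂ), ‖z‖ ≤ 1 → ‖potC k (x + z) - pot k x‖ ≤ B ^ 1002 * ‖z‖) ∧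
    ∀ (η : ℝ) (p : ℝ × ℝ) (a : ℝ) (J : ℕ), Good k B η p a J → ∀ (δ : ℂ) (i : ℕ), i ≤ J →
      ‖δ‖ * Wm k B p J i ≤ B ^ 900 →
      ‖orbC k p.1 (p.2 + δ) i - orb k p i - δ * ww k p i‖ ≤ ‖δ‖ ^ 2 * Wm k B p J i ^ 2 / B ^ 890 ∧
      ‖sol (VpC k p.1 (p.2 + δ)) 0 1 i - ww k p i‖ ≤ ‖δ‖ * Wm k B p J i ^ 2 / B ^ 890

/-- Third-order Taylor remainder of a bounded holomorphic function. -/
def TaylorStmt : Prop :=
  ∀ (f : ℂ → ℂ) (ρ M : ℝ), 0 < ρ → DifferentiableOn ℂ f (Metric.ball 0 ρ) →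
    (∀ z ∈ Metric.ball (0 : ℂ) ρ, ‖f z‖ ≤ M) → ∃ q₀ q₁ q₂ : ℂ, ∀ z ∈ Metric.ball (0 : ℂ) ρ,
      ‖f z - (q₀ + q₁ * z + q₂ * z ^ 2)‖ ≤ 27 * M * (‖z‖ / ρ) ^ 3

/-- Real consequences: stability of slopes and second-order expansion of the far site. -/
def SideStmt : Prop :=
  ∃ B₀ : ℝ, ∀ k B : ℝ, B₀ ≤ B → Sc k B → ∀ (η : ℝ) (p : ℝ × ℝ) (a : ℝ) (J : ℕ),
    Good k B η p a J → ∃ s₂ : ℝ, |s₂| ≤ ww k p J ^ 2 / B ^ 800 ∧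
      ∀ δ : ℝ, |δ| * |ww k p J| ≤ 1 →
        |ww k (p.1, p.2 + δ) J - ww k p J| ≤ |ww k p J| / B ^ 800 ∧
        |orb k (p.1, p.2 + δ) (J - 1) - orb k p (J - 1)| ≤ 1 / B ^ 900 ∧
        |orb k (p.1, p.2 + δ) J - orb k p J - ww k p J * δ - s₂ * δ ^ 2| ≤ 1 / B ^ 1500

/-- The inner sites contribute a quadratic polynomial. -/
def InnerStmt : Prop :=
  ∃ B₀ : ℝ, ∀ k B : ℝ, B₀ ≤ B → Sc k B → ∀ (η : ℝ) (p : ℝ × ℝ) (a : ℝ) (J : ℕ),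
    Good k B η p a J → |uu k p a J| ≤ |uu k p a (J - 1)| → ∃ q₀ q₁ q₂ : ℝ,
      ∀ δ : ℝ, |δ| * |ww k p J| ≤ 1 →
        |RR k (p.1, p.2 + δ) J - (q₀ + q₁ * δ + q₂ * δ ^ 2)|
          ≤ (|ww k p J| * |δ|) ^ 3 / (B ^ 1500 * ww k p J ^ 2)

/-- The one-sided expansion. -/
def OneStmt : Prop :=
  ∀ η : ℝ, 0 < η → ∃ B₀ : ℝ, ∀ k B : ℝ, B₀ ≤ B → Sc k B → ∀ (p : ℝ × ℝ) (a : ℝ) (J : ℕ),
    Good k B η p a J → ∃ q₀ q₁ q₂ : ℝ, ∀ δ : ℝ, |δ| * |ww k p J| ≤ η / 100 →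
      |RR k (p.1, p.2 + δ) (J + 1) - (q₀ + q₁ * δ + q₂ * δ ^ 2) -
          1 / (ww k p J ^ 2 * (2 * π * k) * Real.cos (2 * π * (orb k p J + ww k p J * δ)))|
        ≤ (|ww k p J| * |δ|) ^ 3 / (B ^ 1100 * ww k p J ^ 2)

/-- Few well-spaced points of a sublevel set of a function with a large `l`-th derivative. -/
def SpaceStmt : Prop :=
  ∀ (f : ℕ → ℝ → ℝ) (l : ℕ) (a b c δ s : ℝ), 0 < s → 0 ≤ δ →
    (∀ i < l, ∀ x ∈ Set.Icc a b, HasDerivAt (f i) (f (i + 1) x) x) →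
    (∀ x ∈ Set.Icc a b, c ≤ |f l x|) → δ * (2 / s) ^ l < c →
    ∃ F : Finset ℝ, F.card ≤ 2 ^ l ∧ ∀ x ∈ Set.Icc a b, |f 0 x| ≤ δ → ∃ y ∈ F, |x - y| ≤ s

/-- Two secants cannot cancel modulo quadratics unless they are matched. -/
def ModelAStmt : Prop :=
  ∀ η θ κ : ℝ, 0 < η → 0 < θ → 0 < κ → ∃ r δ : ℝ, 0 < r ∧ r ≤ η / 100 ∧ 0 < δ ∧
    ∀ x₁ x₂ ρ₁ ρ₂ q₀ q₁ q₂ : ℝ, η ≤ |Real.cos (2 * π * x₁)| → η ≤ |Real.cos (2 * π * x₂)| →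
      ρ₁ ≠ 0 → ρ₂ ≠ 0 → max |ρ₁| |ρ₂| = 1 →
      (∀ σ : ℝ, σ = 1 ∨ σ = -1 → θ < |ρ₁ - σ * ρ₂| ∨ θ < |Real.cos (π * (x₁ - σ * x₂))|) →
      volume {y : ℝ | ∃ ξ : ℝ, |ξ| ≤ r ∧
        |q₀ + q₁ * ξ + q₂ * ξ ^ 2 + 1 / (ρ₁ ^ 2 * Real.cos (2 * π * (x₁ + ρ₁ * ξ))) +
          1 / (ρ₂ ^ 2 * Real.cos (2 * π * (x₂ + ρ₂ * ξ)))| ≤ δ ∧ |y - ξ| ≤ κ * r}
        ≤ ENNReal.ofReal (300 * κ * r)

/-- The model for the mismatch at the next level. -/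
noncomputable def Dm (k s₀ s₂ e₀ e₁ e₂ d ξ : ℝ) : ℝ :=
  d + 4 * ξ + 4 * s₂ * ξ ^ 2 + 2 * (e₀ + e₁ * ξ + e₂ * ξ ^ 2) -
    2 * k * Real.cos (2 * π * (s₀ + ξ + s₂ * ξ ^ 2) + π * (e₀ + e₁ * ξ + e₂ * ξ ^ 2)) *
      Real.sin (π * (e₀ + e₁ * ξ + e₂ * ξ ^ 2))

/-- The mismatch is rarely close to a half-integer. -/
def ModelBStmt : Prop :=
  ∃ r₀ : ℝ, 0 < r₀ ∧ ∀ r κ : ℝ, 0 < r → r ≤ r₀ → 0 < κ → ∃ θ θ₀ : ℝ, 0 < θ ∧ 0 < θ₀ ∧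
    ∀ k s₀ s₂ e₀ e₁ e₂ d : ℝ, 0 ≤ k → |s₂| ≤ θ → |e₀| ≤ θ → |e₁| ≤ θ → |e₂| ≤ θ →
      volume {ξ : ℝ | |ξ| ≤ r ∧ |Real.cos (π * Dm k s₀ s₂ e₀ e₁ e₂ d ξ)| ≤ θ₀}
        ≤ ENNReal.ofReal (κ * r)

/-- Gain in a cell around an unmatched level. -/
def CellStmt : Prop :=
  ∀ η θ κ : ℝ, 0 < η → 0 < θ → 0 < κ → ∃ r B₀ : ℝ, 0 < r ∧ r ≤ 1 ∧ ∀ k B : ℝ, B₀ ≤ B → Sc k B →
    ∀ (x₀ α₀ : ℝ) (J J' : ℕ), Lev k B η (x₀, α₀) J J' → ¬ Matched k θ (x₀, α₀) J J' →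
      volume {y : ℝ | ∃ α : ℝ, |α - α₀| * PP k (x₀, α₀) J J' ≤ r ∧ Lev k B η (x₀, α) J J' ∧
        |y - α| * PP k (x₀, α₀) J J' ≤ κ * r} ≤ ENNReal.ofReal (300 * κ * r / PP k (x₀, α₀) J J')

/-- After a matched level the next level is rarely matched. -/
def MatchStmt : Prop :=
  ∀ η κ : ℝ, 0 < η → 0 < κ → ∃ r θ θ₀ B₀ : ℝ, 0 < r ∧ r ≤ 1 ∧ 0 < θ ∧ 0 < θ₀ ∧
    ∀ k B : ℝ, B₀ ≤ B → Sc k B → ∀ (x₀ α₁ : ℝ) (J J' : ℕ),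
      Lev k B η (x₀, α₁) J J' → Matched k θ (x₀, α₁) J J' →
      volume {y : ℝ | ∃ α : ℝ, |α - α₁| * PP k (x₀, α₁) J J' ≤ r ∧ Lev k B η (x₀, α) J J' ∧
        Matched k θ₀ (x₀, α) (J + 1) (J' + 1) ∧ |y - α| * PP k (x₀, α₁) J J' ≤ 1 / B ^ 1500}
        ≤ ENNReal.ofReal (κ * r / PP k (x₀, α₁) J J')

/-- Gain in a node. -/
def NodeStmt : Prop :=
  ∀ η κ : ℝ, 0 < η → 0 < κ → ∃ r B₀ : ℝ, 0 < r ∧ r ≤ 1 ∧ ∀ k B : ℝ, B₀ ≤ B → Sc k B →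
    ∀ (x₀ α₀ : ℝ) (J J' : ℕ), Pair k B η (x₀, α₀) J J' →
      volume {y : ℝ | ∃ α : ℝ, |α - α₀| * PP k (x₀, α₀) J J' ≤ r ∧ Pair k B η (x₀, α) J J' ∧
        |y - α| * PP k (x₀, α₀) J J' ≤ 1 / B ^ 1600} ≤ ENNReal.ofReal (κ * r / PP k (x₀, α₀) J J')

/-- The resonance estimate. -/
def ResStmt : Prop :=
  ∀ η : ℝ, 0 < η → ∃ B₀ : ℝ, ∀ k B : ℝ, B₀ ≤ B → Sc k B → ∀ h : ℕ, 1000 ≤ h →
    nu (Res k η h) ≤ ENNReal.ofReal ((1 / 2) ^ h)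

end Crest.Agent.R128
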