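import Crest.Agent.R128.Basic
import Crest.Prelude.Def_StandardMap

/-!
Row 128 (S0172): assembly of the pieces.
-/

set_option autoImplicit false
open MeasureTheory Real Filter

namespace Crest.Agent.R128

namespace Fin128

instance : IsProbabilityMeasure nu := ⟨by
  rw [nu, Measure.restrict_apply_univ, Q, show (volume : Measure (ℝ × ℝ)) = volume.prod volume
    from rfl, Measure.prod_prod]
  simp⟩

theorem per_iff {A : Set (ℝ × ℝ)} (h : Per A) (p : ℝ × ℝ) (m n : ℤ) :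
    (p.1 + m, p.2 + n) ∈ A ↔ p ∈ A := by
  refine ⟨fun h1 => ?_, fun h1 => h p h1 m n⟩
  simpa using h _ h1 (-m) (-n)

theorem per_union {A B : Set (ℝ × ℝ)} (hA : Per A) (hB : Per B) : Per (A ∪ B) :=
  fun p hp m n => hp.imp (fun h => hA p h m n) (fun h => hB p h m n)

theorem per_inter {A B : Set (ℝ × ℝ)} (hA : Per A) (hB : Per B) : Per (A ∩ B) :=
  fun p hp m n => ⟨hA p hp.1 m n, hB p hp.2 m n⟩

theorem inv_iter {F : ℝ × ℝ → ℝ × ℝ} (hF : Measurable F)
    (h : ∀ A : Set (ℝ × ℝ), MeasurableSet A → Per A → nu (F ⁻¹' A) = nu A ∧ Per (F ⁻¹' A))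
    {A : Set (ℝ × ℝ)} (hA : MeasurableSet A) (hP : Per A) (i : ℕ) :
    nu (F^[i] ⁻¹' A) = nu A ∧ Per (F^[i] ⁻¹' A) := by
  induction i with
  | zero => exact ⟨rfl, hP⟩
  | succ i ih =>
    rw [Function.iterate_succ, Set.preimage_comp]
    obtain ⟨h1, h2⟩ := h _ ((hF.iterate i) hA) ih.2
    exact ⟨h1.trans ih.1, h2⟩

theorem exists_first {k lam : ℝ} {N : ℕ} {p : ℝ × ℝ} (h : p ∈ Fail k lam N) :
    ∃ n, 1 ≤ n ∧ n ≤ N ∧ First k lam p n := by
  classical
  obtain ⟨s, hs, hp⟩ := h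
  have hex : ∃ s, nv (ww k p) s < lam ^ s := ⟨s, hp⟩
  refine ⟨Nat.find hex, ?_, (Nat.find_min' hex hp).trans hs,
    fun t ht => not_lt.1 (Nat.find_min hex ht), Nat.find_spec hex⟩
  by_contra h0
  have h1 := Nat.find_spec hex
  rw [show Nat.find hex = 0 by omega] at h1
  simp [ww] at h1

theorem short_fail {k K η lam : ℝ} (hk : 0 ≤ k) (hK : 2 * π * k + 3 = K) (hη : 12 ≤ η * K)
    (hl : lam ≤ η / 2 * K) (hl1 : 1 ≤ lam) (m : ℕ) :
    Fail k lam m ⊆ ⋃ i ∈ Finset.Icc 1 m, (T k)^[i] ⁻¹' Crit η := by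
  intro p hp
  by_contra hn
  simp only [Set.mem_iUnion, not_exists, Set.mem_preimage, Crit, Set.mem_ofPred_eq, iter_T,
    not_lt, Finset.mem_Icc] at hn
  have key : ∀ s ≤ m, |ww k p s| ≤ |ww k p (s + 1)| ∧ lam ^ s ≤ nv (ww k p) s := by
    intro s
    induction s with
    | zero => intro _; simp [ww]
    | succ s ih =>
      intro hs
      obtain ⟨h1, h2⟩ := ih (by omega)
      have hV : lam + 1 ≤ |Vp k p (s + 1)| :=
        le_trans (by linarith) (noncrit hk hK hη (hn (s + 1) ⟨by omega, hs⟩))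
      have a1 := abs_up (V := Vp k p) (u := ww k p) rfl h1 hV
      have a2 := nv_up (V := Vp k p) (u := ww k p) rfl h1 hV
      refine ⟨le_trans ?_ a1, le_trans ?_ a2⟩
      · exact le_mul_of_one_le_left (abs_nonneg _) hl1
      · rw [pow_succ, mul_comm]; exact mul_le_mul_of_nonneg_left h2 (by linarith)
  obtain ⟨s, hs, hp⟩ := hp
  exact absurd hp (not_lt.2 (key s hs).2)

open Classical in
theorem meas_count {F : ℝ × ℝ → ℝ × ℝ} (hF : Measurable F) {A : Set (ℝ × ℝ)}
    (hA : MeasurableSet A) (j : ℕ) :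
    Measurable fun q => ((Finset.range j).filter fun i => F^[i] q ∈ A).card := by
  simp only [Finset.card_filter]
  exact Finset.measurable_sum _ fun i _ =>
    Measurable.ite ((hF.iterate i) hA) measurable_const measurable_const

theorem tsum_half (h₀ : ℕ) :
    ∑' j : ℕ, ENNReal.ofReal ((1 / 2 : ℝ) ^ (h₀ + j)) = ENNReal.ofReal (2 * (1 / 2) ^ h₀) := by
  rw [← ENNReal.ofReal_tsum_of_nonneg (fun j => by positivity)]
  · congr 1
    simp only [pow_add]
    rw [tsum_mul_left, tsum_geometric_two, mul_comm]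
  · simp only [pow_add]
    exact summable_geometric_two.mul_left _

/-- One step of the induction. -/
theorem step (hM : MeasStmt) (hX : MaxStmt) {k η lam lam' : ℝ} {C₀ h₀ N : ℕ} (hη : 0 ≤ η)
    (hshort : Fail k lam 100 ⊆ ⋃ i ∈ Finset.Icc 1 100, (T k)^[i] ⁻¹' Crit η)
    (hP : nu ((Fail k lam N \ Fail k lam 100) ∩ Prod.swap ⁻¹' (Fail k lam N \ Fail k lam 100))
      ≤ C₀ * nu (Fail k lam' N) ^ 2)
    (hR : ∀ h, h₀ ≤ h → nu (Res k η h) ≤ ENNReal.ofReal ((1 / 2) ^ h))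
    (hS : ∀ (n : ℕ) (p : ℝ × ℝ), n ≤ N + 1 → First k lam' p n → n ≤ 20000000 *
        (@Finset.filter _ (fun t => (T k)^[t] p ∈ Eset k η lam (2 * h₀) N)
          (Classical.decPred _) (Finset.range n)).card) :
    nu.real (Fail k lam' (N + 1)) ≤ 20000000 *
      (η + 2 * h₀ * (C₀ * nu.real (Fail k lam' N) ^ 2 + 201 * η) + 2 * (1 / 2) ^ h₀) := by
  classical
  obtain ⟨hinv, hcont, hfail, hcrit, hres, -, -⟩ := hM
  have mT : Measurable (T k) := (hcont k).1.measurable
  have mTi : Measurable (Ti k) := (hcont k).2.measurable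
  have iT := fun {A : Set (ℝ × ℝ)} (hA : MeasurableSet A) (hP : Per A) (i : ℕ) =>
    inv_iter mT (fun A h1 h2 => (hinv k A h1 h2).1) hA hP i
  have iTi := fun {A : Set (ℝ × ℝ)} (hA : MeasurableSet A) (hP : Per A) (i : ℕ) =>
    inv_iter mTi (fun A h1 h2 => (hinv k A h1 h2).2.1) hA hP i
  have mF : ∀ l n, MeasurableSet (Fail k l n) := fun l n => (hfail k l n).1.measurableSet
  have pF : ∀ l n, Per (Fail k l n) := fun l n => (hfail k l n).2
  have mC : MeasurableSet (Crit η) := (hcrit η).1.measurableSet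
  have pC : Per (Crit η) := (hcrit η).2.1
  have nC : nu.real (Crit η) ≤ η := ENNReal.toReal_le_of_le_ofReal hη (hcrit η).2.2
  have mZ : MeasurableSet (Zs k lam N) := (mF _ _).inter (measurable_swap (mF _ _))
  have pZ : Per (Zs k lam N) := per_inter (pF _ _) (hinv k _ (mF _ _) (pF _ _)).2.2.2
  have mB : MeasurableSet (Bad k η lam N) := mZ.union mC
  have pB : Per (Bad k η lam N) := per_union pZ pC
  -- short failures
  have n100 : nu.real (Fail k lam 100) ≤ 100 * η := by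
    refine (measureReal_mono hshort (measure_ne_top _ _)).trans ((measureReal_biUnion_finset_le _ _).trans ?_)
    have : ∀ i ∈ Finset.Icc 1 100, nu.real ((T k)^[i] ⁻¹' Crit η) ≤ η := fun i _ => by
      rw [Measure.real, (iT mC pC i).1]; exact nC
    simpa using Finset.sum_le_card_nsmul _ _ _ this
  have nZ : nu.real (Zs k lam N) ≤ C₀ * nu.real (Fail k lam' N) ^ 2 + 200 * η := by
    have hsub : Zs k lam N ⊆ ((Fail k lam N \ Fail k lam 100) ∩
        Prod.swap ⁻¹' (Fail k lam N \ Fail k lam 100)) ∪ Fail k lam 100 ∪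
        Prod.swap ⁻¹' Fail k lam 100 := by
      intro p hp
      by_cases h1 : p ∈ Fail k lam 100
      · exact Or.inl (Or.inr h1)
      by_cases h2 : p.swap ∈ Fail k lam 100
      · exact Or.inr h2
      exact Or.inl (Or.inl ⟨⟨hp.1, h1⟩, ⟨hp.2, h2⟩⟩)
    have a1 : nu.real ((Fail k lam N \ Fail k lam 100) ∩
        Prod.swap ⁻¹' (Fail k lam N \ Fail k lam 100)) ≤ C₀ * nu.real (Fail k lam' N) ^ 2 := by
      have := ENNReal.toReal_mono (by finiteness) hP
      simpa [Measure.real] using this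
    have a2 : nu.real (Prod.swap ⁻¹' Fail k lam 100) ≤ 100 * η := by
      rw [Measure.real, (hinv k _ (mF _ _) (pF _ _)).2.2.1]; exact n100
    have := (measureReal_mono (μ := nu) hsub).trans ((measureReal_union_le _ _).trans
      (add_le_add_left (measureReal_union_le _ _) _))
    linarith
  have nB : nu.real (Bad k η lam N) ≤ C₀ * nu.real (Fail k lam' N) ^ 2 + 201 * η := by
    have := measureReal_union_le (μ := nu) (Zs k lam N) (Crit η)
    rw [Bad]; linarith
  have mB' : MeasurableSet (Bad' k η lam (2 * h₀) N) := by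
    have : Bad' k η lam (2 * h₀) N = ⋃ j : ℕ, ⋃ (_ : 1 ≤ j ∧ j ≤ N + 1),
        {q | j ≤ 2 * h₀ * ((Finset.range j).filter fun i => (Ti k)^[i] q ∈ Bad k η lam N).card} := by
      ext q; simp [Bad', and_assoc]
    rw [this]
    exact MeasurableSet.iUnion fun j => MeasurableSet.iUnion fun _ =>
      measurableSet_le measurable_const ((meas_count mTi mB j).const_mul _)
  have pB' : Per (Bad' k η lam (2 * h₀) N) := by
    rintro p ⟨j, h1, h2, h3⟩ m n
    refine ⟨j, h1, h2, h3.trans (le_of_eq ?_)⟩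
    congr 2
    exact Finset.filter_congr fun i _ => (per_iff (iTi mB pB i).2 p m n).symm
  have nB' : nu.real (Bad' k η lam (2 * h₀) N) ≤
      2 * h₀ * (C₀ * nu.real (Fail k lam' N) ^ 2 + 201 * η) := by
    have := hX.1 nu (Ti k) _ _ (2 * h₀) (N + 1) mTi mB' mB (fun i => (iTi mB' pB' i).1)
      (fun i => (iTi mB pB i).1) (fun x hx => hx)
    have h2 := ENNReal.toReal_mono (by finiteness) this
    simp only [ENNReal.toReal_mul, ENNReal.toReal_natCast, Nat.cast_mul, Nat.cast_ofNat,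
      ENNReal.toReal_ofNat] at h2
    exact h2.trans (mul_le_mul_of_nonneg_left nB (by positivity))
  have mR : ∀ h, MeasurableSet (Res k η h) := fun h => (hres k η h).1.measurableSet
  have mRR : MeasurableSet (⋃ h : ℕ, ⋃ (_ : 2 * h₀ ≤ 2 * h), (Ti k)^[h] ⁻¹' Res k η h) :=
    MeasurableSet.iUnion fun h => MeasurableSet.iUnion fun _ => (mTi.iterate h) (mR h)
  have pRR : Per (⋃ h : ℕ, ⋃ (_ : 2 * h₀ ≤ 2 * h), (Ti k)^[h] ⁻¹' Res k η h) := by
    intro p hp m n
    simp only [Set.mem_iUnion] at hp ⊢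
    obtain ⟨h, hh, hp⟩ := hp
    exact ⟨h, hh, (iTi (mR h) (hres k η h).2 h).2 p hp m n⟩
  have nRR : nu.real (⋃ h : ℕ, ⋃ (_ : 2 * h₀ ≤ 2 * h), (Ti k)^[h] ⁻¹' Res k η h) ≤
      2 * (1 / 2) ^ h₀ := by
    refine ENNReal.toReal_le_of_le_ofReal (by positivity) ?_
    have hsub : (⋃ h : ℕ, ⋃ (_ : 2 * h₀ ≤ 2 * h), (Ti k)^[h] ⁻¹' Res k η h) ⊆
        ⋃ j : ℕ, (Ti k)^[h₀ + j] ⁻¹' Res k η (h₀ + j) := by
      intro p hp
      simp only [Set.mem_iUnion] at hp ⊢
      obtain ⟨h, hh, hp⟩ := hp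
      exact ⟨h - h₀, by rwa [show h₀ + (h - h₀) = h by omega]⟩
    refine (measure_mono hsub).trans ((measure_iUnion_le _).trans ?_)
    rw [← tsum_half]
    exact ENNReal.tsum_le_tsum fun j => by
      rw [(iTi (mR _) (hres k η _).2 _).1]; exact hR _ (by omega)
  have mE : MeasurableSet (Eset k η lam (2 * h₀) N) := ((mT mC).union mB').union mRR
  have pE : Per (Eset k η lam (2 * h₀) N) :=
    per_union (per_union (hinv k _ mC pC).1.2 pB') pRR
  have nE : nu.real (Eset k η lam (2 * h₀) N) ≤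
      η + 2 * h₀ * (C₀ * nu.real (Fail k lam' N) ^ 2 + 201 * η) + 2 * (1 / 2) ^ h₀ := by
    have a1 : nu.real (T k ⁻¹' Crit η) ≤ η := by
      rw [Measure.real, (hinv k _ mC pC).1.1]; exact nC
    have := (measureReal_union_le (μ := nu) (T k ⁻¹' Crit η ∪ Bad' k η lam (2 * h₀) N)
      (⋃ h : ℕ, ⋃ (_ : 2 * h₀ ≤ 2 * h), (Ti k)^[h] ⁻¹' Res k η h)).trans
      (add_le_add_left (measureReal_union_le _ _) _)
    rw [Eset]; linarith
  have := hX.1 nu (T k) _ _ 20000000 (N + 1) mT (mF lam' (N + 1)) mE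
    (fun i => (iT (mF _ _) (pF _ _) i).1) (fun i => (iT mE pE i).1) (fun x hx => by
      obtain ⟨n, h1, h2, h3⟩ := exists_first hx
      exact ⟨n, h1, h2, by convert hS n x h2 h3⟩)
  have h2 := ENNReal.toReal_mono (by finiteness) this
  simp only [ENNReal.toReal_mul, Nat.cast_ofNat, ENNReal.toReal_ofNat] at h2
  exact h2.trans (mul_le_mul_of_nonneg_left nE (by positivity))

theorem main (hM : MeasStmt) (hX : MaxStmt) (hP : ProdStmt) (hS : StructStmt) (hR : ResStmt) :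
    ∃ k₀ : ℝ, 0 < k₀ ∧ ∀ k : ℝ, k₀ ≤ k → ∃ lam : ℝ, 4 ≤ lam ∧
      nu {p | ∀ s, lam ^ s ≤ nv (ww k p) s} ≠ 0 := by
  obtain ⟨C₀, BP, hP⟩ := hP
  obtain ⟨h₀, hh₀, hsmall⟩ : ∃ h₀ : ℕ, 1000000 ≤ h₀ ∧
      (h₀ : ℝ) * (1 / 2) ^ h₀ ≤ 1 / (64 * 20000000 ^ 2 * (C₀ + 1)) := by
    have h1 := tendsto_self_mul_const_pow_of_lt_one (r := (1 / 2 : ℝ)) (by norm_num) (by norm_num)
    have h2 := h1.eventually (ge_mem_nhds
      (show (0 : ℝ) < 1 / (64 * 20000000 ^ 2 * (C₀ + 1)) by positivity))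
    exact ((eventually_ge_atTop 1000000).and h2).exists
  have hh : (1 : ℝ) ≤ h₀ := by exact_mod_cast (by omega : 1 ≤ h₀)
  set μ : ℝ := 1 / (8 * 20000000 * h₀ * (C₀ + 1)) with hμ
  have hμ0 : 0 < μ := by positivity
  set η : ℝ := μ / (4 * 20000000 * (1 + 402 * h₀)) with hη
  have hη0 : 0 < η := by positivity
  obtain ⟨bS, hS⟩ := hS η hη0
  obtain ⟨BR, hR⟩ := hR η hη0
  set b₀ : ℝ := max (max 4 (12 / η)) (max bS (max BP BR)) with hb₀
  have hb4 : 4 ≤ b₀ := le_max_of_le_left (le_max_left _ _)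
  refine ⟨b₀ ^ 10000000, by positivity, fun k hk => ?_⟩
  have hk0 : 0 ≤ k := le_trans (by positivity) hk
  have hK0 : 0 ≤ 2 * π * k + 3 := by positivity
  obtain ⟨b, hb, hbK⟩ : ∃ b : ℝ, b₀ ≤ b ∧ 2 * π * k + 3 = b ^ 10000000 := by
    have e : ((2 * π * k + 3) ^ ((10000000 : ℕ) : ℝ)⁻¹) ^ 10000000 = 2 * π * k + 3 :=
      Real.rpow_inv_natCast_pow hK0 (by norm_num)
    refine ⟨_, ?_, e.symm⟩
    refine le_of_pow_le_pow_left₀ (n := 10000000) (by norm_num) (by positivity) ?_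
    rw [e]
    nlinarith [pi_gt_three]
  have h4 : 4 ≤ b := hb4.trans hb
  have h1 : 1 ≤ b := by linarith
  have hηb : 12 ≤ η * b := by
    have : 12 / η ≤ b := (le_max_of_le_left (le_max_right _ _)).trans hb
    rwa [div_le_iff₀ hη0, mul_comm] at this
  have hbB : b ≤ b ^ 10000 := le_self_pow₀ h1 (by norm_num)
  have hSc : Sc k (b ^ 10000) := by rw [Sc, hbK, ← pow_mul]
  have hshort : Fail k (b ^ 9999997) 100 ⊆ ⋃ i ∈ Finset.Icc 1 100, (T k)^[i] ⁻¹' Crit η := by
    refine short_fail hk0 hbK ?_ ?_ (one_le_pow₀ h1) 100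
    · exact hηb.trans (mul_le_mul_of_nonneg_left (le_self_pow₀ h1 (by norm_num)) hη0.le)
    · have e : b ^ 10000000 = b * b ^ 9999999 := by rw [← pow_succ']
      have e2 : b ^ 9999997 ≤ b ^ 9999999 := pow_le_pow_right₀ h1 (by norm_num)
      have e3 : 0 ≤ b ^ 9999999 := by positivity
      rw [e]
      generalize b ^ 9999999 = x at *
      generalize b ^ 9999997 = y at *
      nlinarith
  have hlam : (b ^ 10000) ^ 999 ≤ b ^ 9999997 := by
    rw [← pow_mul]; exact pow_le_pow_right₀ h1 (by norm_num)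
  have hlam' : 4 * b ^ 9999997 ≤ b ^ 9999998 := by
    rw [show b ^ 9999998 = b * b ^ 9999997 by rw [← pow_succ']]
    exact mul_le_mul_of_nonneg_right h4 (by positivity)
  have hind : ∀ N, nu.real (Fail k (b ^ 9999998) N) ≤ μ := by
    intro N
    induction N with
    | zero =>
      have : Fail k (b ^ 9999998) 0 = ∅ := by
        ext p
        simp [Fail, ww]
      rw [this]; simpa using hμ0.le
    | succ N ih =>
      have hs := step hM hX (C₀ := C₀) (h₀ := h₀) (N := N) hη0.le hshort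
        (hP k _ _ _ ((le_max_of_le_right (le_max_of_le_right (le_max_left _ _))).trans
          (hb.trans hbB)) hSc hlam hlam' N)
        (fun h hh => hR k _ ((le_max_of_le_right (le_max_of_le_right (le_max_right _ _))).trans
          (hb.trans hbB)) hSc h (by omega))
        (fun n p hn hp => by
          convert hS k b ((le_max_of_le_right (le_max_left _ _)).trans hb) hbK (2 * h₀) N n p
            (by omega) hn hp)
      refine hs.trans ?_
      have hx0 : 0 ≤ nu.real (Fail k (b ^ 9999998) N) := measureReal_nonneg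
      generalize nu.real (Fail k (b ^ 9999998) N) = x at *
      have a1 : 20000000 * (η + 2 * h₀ * (201 * η)) = μ / 4 := by
        rw [hη]; field_simp; ring
      have a2 : 20000000 * (2 * h₀ * (C₀ * x ^ 2)) ≤ μ / 4 := by
        have b1 : x ^ 2 ≤ μ ^ 2 := pow_le_pow_left₀ hx0 ih 2
        have b2 : 20000000 * (2 * h₀ * ((C₀ + 1) * μ ^ 2)) = μ / 4 := by
          rw [hμ]; field_simp; ring
        rw [← b2]
        gcongr
        linarith
      have a3 : 20000000 * (2 * (1 / 2 : ℝ) ^ h₀) ≤ μ / 4 := by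
        have b2 : μ / 4 = 20000000 * (2 * (1 / (64 * 20000000 ^ 2 * (C₀ + 1)) / h₀)) := by
          rw [hμ]; field_simp; ring
        rw [b2]
        gcongr
        rw [le_div_iff₀ (by positivity), mul_comm]; exact hsmall
      nlinarith
  refine ⟨b ^ 9999998, h4.trans (le_self_pow₀ h1 (by norm_num)), fun h0 => ?_⟩
  have hμ1 : μ ≤ 1 / 2 := by
    rw [hμ]
    refine one_div_le_one_div_of_le (by norm_num) ?_
    have : (0 : ℝ) ≤ C₀ := Nat.cast_nonneg _
    nlinarith
  have hU : nu (⋃ N, Fail k (b ^ 9999998) N) ≤ ENNReal.ofReal (1 / 2) := by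
    have hmono : Monotone fun N => Fail k (b ^ 9999998) N := by
      rintro N N' h p ⟨s, hs, hp⟩
      exact ⟨s, hs.trans h, hp⟩
    rw [hmono.measure_iUnion]
    refine iSup_le fun N => ?_
    rw [← ofReal_measureReal]
    exact ENNReal.ofReal_le_ofReal ((hind N).trans hμ1)
  have hcov : (Set.univ : Set (ℝ × ℝ)) ⊆ {p | ∀ s, (b ^ 9999998) ^ s ≤ nv (ww k p) s} ∪
      ⋃ N, Fail k (b ^ 9999998) N := by
    intro p _
    by_cases hp : ∀ s, (b ^ 9999998) ^ s ≤ nv (ww k p) s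
    · exact Or.inl hp
    · push Not at hp
      obtain ⟨s, hs⟩ := hp
      exact Or.inr (Set.mem_iUnion.2 ⟨s, s, le_rfl, hs⟩)
  have := (measure_mono (μ := nu) hcov).trans (measure_union_le _ _)
  rw [measure_univ, h0, zero_add] at this
  have h5 := this.trans hU
  rw [ENNReal.one_le_ofReal] at h5
  norm_num at h5

/-! ### The link with the statement -/

open Crest.AnalysisR.StandardFamily

theorem iter_lift (k : ℝ) (p : ℝ × ℝ) (n : ℕ) :
    (standardMapLift k)^[n] p = (orb k (p.1 - p.2, p.1) (n + 1),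
      orb k (p.1 - p.2, p.1) (n + 1) - orb k (p.1 - p.2, p.1) n) := by
  induction n with
  | zero => simp
  | succ n ih =>
    rw [Function.iterate_succ_apply', ih, standardMapLift, orb_succ_succ, phi]
    ext <;> simp only <;> ring

theorem hasDerivAt_orb (k a b : ℝ) (n : ℕ) :
    HasDerivAt (fun t => orb k (a, b + t) n) (ww k (a, b) n) 0 := by
  induction n using Nat.strong_induction_on with
  | _ n ih =>
    match n with
    | 0 => simpa [ww] using hasDerivAt_const (0 : ℝ) a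
    | 1 => simpa [ww] using (hasDerivAt_id (0 : ℝ)).const_add b
    | n + 2 =>
      have h1 := ih (n + 1) (by omega)
      have h2 := ih n (by omega)
      have h3 := (hasDerivAt_phi k (orb k (a, b + 0) (n + 1))).comp 0 h1
      have h4 := h3.sub h2
      rw [add_zero] at h4
      exact h4

theorem diff_lift (k : ℝ) : Differentiable ℝ (standardMapLift k) := by
  unfold standardMapLift
  fun_prop

theorem norm_fderiv_ge (k : ℝ) (p : ℝ × ℝ) (n : ℕ) :
    nv (ww k (p.1 - p.2, p.1)) n / 2 ≤ ‖fderiv ℝ (standardMapLift k)^[n] p‖ := by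
  have hd : HasFDerivAt (standardMapLift k)^[n] (fderiv ℝ (standardMapLift k)^[n] p)
      (p.1 + 0, p.2 + 0) := by
    simpa using (((diff_lift k).iterate n) p).hasFDerivAt
  have hγ : HasDerivAt (fun t : ℝ => (p.1 + t, p.2 + t)) ((1, 1) : ℝ × ℝ) 0 :=
    ((hasDerivAt_id (0 : ℝ)).const_add p.1).prodMk ((hasDerivAt_id (0 : ℝ)).const_add p.2)
  have h1 := hd.comp_hasDerivAt (0 : ℝ) hγ
  have h2 : HasDerivAt ((standardMapLift k)^[n] ∘ fun t : ℝ => (p.1 + t, p.2 + t))
      (ww k (p.1 - p.2, p.1) (n + 1),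
        ww k (p.1 - p.2, p.1) (n + 1) - ww k (p.1 - p.2, p.1) n) 0 := by
    have a1 := hasDerivAt_orb k (p.1 - p.2) p.1 (n + 1)
    have a2 := hasDerivAt_orb k (p.1 - p.2) p.1 n
    have a3 := a1.prodMk (a1.sub a2)
    convert a3 using 1
    funext t
    simp only [Function.comp, iter_lift, Pi.sub_apply, add_sub_add_right_eq_sub]
  have h3 := h1.unique h2
  have h4 := (fderiv ℝ (standardMapLift k)^[n] p).le_opNorm (1, 1)
  rw [h3] at h4
  simp only [Prod.norm_mk, norm_one, max_self, mul_one, Real.norm_eq_abs] at h4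
  have b1 := (le_max_left _ _).trans h4
  have b2 := (le_max_right _ _).trans h4
  have b3 := abs_sub (ww k (p.1 - p.2, p.1) (n + 1))
    (ww k (p.1 - p.2, p.1) (n + 1) - ww k (p.1 - p.2, p.1) n)
  rw [sub_sub_cancel] at b3
  have := nv_le (u := ww k (p.1 - p.2, p.1)) (s := n)
    (c := 2 * ‖fderiv ℝ (standardMapLift k)^[n] p‖) (by linarith)
    (by linarith [norm_nonneg (fderiv ℝ (standardMapLift k)^[n] p)])
  linarith

end Fin128

open Fin128 Crest.AnalysisR.StandardFamily in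
theorem final (hM : MeasStmt) (hX : MaxStmt) (hP : ProdStmt) (hS : StructStmt) (hR : ResStmt) :
    ∃ k₀ : ℝ, 0 < k₀ ∧ ∀ k : ℝ, k₀ ≤ k →
      0 < MeasureTheory.volume ({p : ℝ × ℝ | ∃ c : ℝ, 0 < c ∧
          ∃ᶠ n : ℕ in Filter.atTop, c * n ≤ Real.log ‖fderiv ℝ (standardMapLift k)^[n] p‖} ∩
        Set.Ico (0 : ℝ) 1 ×ˢ Set.Ico (0 : ℝ) 1) := by
  obtain ⟨k₀, hk₀, h⟩ := main hM hX hP hS hR
  refine ⟨k₀, hk₀, fun k hk => ?_⟩
  obtain ⟨lam, hlam, hG⟩ := h k hk
  rw [pos_iff_ne_zero]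
  intro h0
  apply hG
  set G : Set (ℝ × ℝ) := {p | ∀ s, lam ^ s ≤ nv (ww k p) s} with hGdef
  have pG : Per G := by
    intro p hp m n s
    by_contra hs
    have h1 : (p.1 + m, p.2 + n) ∈ Fail k lam s := ⟨s, le_rfl, not_le.1 hs⟩
    obtain ⟨t, -, ht⟩ := (per_iff (hM.2.2.1 k lam s).2 p m n).1 h1
    exact absurd (hp t) (not_le.2 ht)
  set Φ : ℝ × ℝ → ℝ × ℝ := fun p => (p.1 - p.2, p.1) with hΦ
  have pG' : Per (Φ ⁻¹' G) := by
    intro p hp m n
    have := pG _ hp (m - n) m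
    simp only [Set.mem_preimage, hΦ]
    convert this using 2
    push_cast; ring
  have hsub : Φ ⁻¹' G ⊆ {p : ℝ × ℝ | ∃ c : ℝ, 0 < c ∧
      ∃ᶠ n : ℕ in Filter.atTop, c * n ≤ Real.log ‖fderiv ℝ (standardMapLift k)^[n] p‖} := by
    intro p hp
    refine ⟨Real.log 2, Real.log_pos (by norm_num), ?_⟩
    refine Eventually.frequently ?_
    filter_upwards [eventually_ge_atTop 1] with n hn
    have h1 := norm_fderiv_ge k p n
    have h2 : lam ^ n ≤ nv (ww k (p.1 - p.2, p.1)) n := hp n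
    have h3 : (4 : ℝ) ^ n ≤ lam ^ n := pow_le_pow_left₀ (by norm_num) hlam n
    have h4 : (2 : ℝ) ^ 1 ≤ 2 ^ n := pow_le_pow_right₀ (by norm_num) hn
    have h5 : (4 : ℝ) ^ n = 2 ^ n * 2 ^ n := by rw [← mul_pow]; norm_num
    rw [mul_comm, ← Real.log_pow]
    refine Real.log_le_log (by positivity) ?_
    nlinarith
  have h1 : nu (Φ ⁻¹' G) = 0 := by
    rw [nu, Q, Measure.restrict_apply' (measurableSet_Ico.prod measurableSet_Ico)]
    exact measure_mono_null (Set.inter_subset_inter_left _ hsub) h0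
  have h2 := hM.2.2.2.2.2.2 _ pG' h1
  have h3 := addHaar_image_eq_zero_of_differentiableOn_of_addHaar_eq_zero volume
    (f := Φ) (by rw [hΦ]; fun_prop) h2
  have h4 : G ⊆ Φ '' (Φ ⁻¹' G) := fun p hp =>
    ⟨(p.2, p.2 - p.1), by simpa [hΦ] using hp, by simp [hΦ]⟩
  exact nonpos_iff_eq_zero.1 ((Measure.restrict_le_self _).trans
    (le_of_eq (measure_mono_null h4 h3)))

end Crest.Agent.R128
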