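import Crest.Agent.R128.Basic

/-!
Row 128 (S0172): the inner sites contribute a quadratic polynomial (hybrid telescoping).
-/

set_option autoImplicit false
open Real

namespace Crest.Agent.R128

namespace InnerAux

theorem sol_cast (V : ℕ → ℝ) (a b : ℝ) (n : ℕ) :
    sol (fun l => (V l : ℂ)) (a : ℂ) (b : ℂ) n = ((sol V a b n : ℝ) : ℂ) := by
  have : IsSol (fun l => (V l : ℂ)) (fun n => ((sol V a b n : ℝ) : ℂ)) := fun n => by
    simp only [sol_succ_succ]; push_cast; ring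
  simpa using (this.eq_sol n).symm

theorem sol_diff (Vf : ℂ → ℕ → ℂ) (h : ∀ l, Differentiable ℂ fun d => Vf d l) (a b : ℂ) (n : ℕ) :
    Differentiable ℂ fun d => sol (Vf d) a b n := by
  induction n using Nat.strong_induction_on with
  | _ n ih =>
    match n with
    | 0 => simp
    | 1 => simp
    | n + 2 =>
      simp only [sol_succ_succ]
      exact ((h _).mul (ih _ (by omega))).sub (ih _ (by omega))

theorem wr_sum (V V' : ℕ → ℂ) (a b a' b' : ℂ) (n : ℕ) :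
    sol V a b n * sol V' a' b' (n + 1) - sol V a b (n + 1) * sol V' a' b' n =
      a * b' - b * a' + ∑ l ∈ Finset.Ioc 0 n, (V' l - V l) * sol V a b l * sol V' a' b' l := by
  induction n with
  | zero => simp
  | succ n ih =>
    rw [Finset.sum_Ioc_succ_top (Nat.zero_le n), sol_succ_succ, sol_succ_succ]
    linear_combination ih

theorem geom (m : ℕ) : ∑ l ∈ Finset.Ioc 0 m, (1 / 2 : ℝ) ^ (m + 1 - l) ≤ 1 := by
  induction m with
  | zero => simp
  | succ m ih =>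
    rw [Finset.sum_Ioc_succ_top (Nat.zero_le m)]
    have e : ∑ l ∈ Finset.Ioc 0 m, (1 / 2 : ℝ) ^ (m + 1 + 1 - l) =
        1 / 2 * ∑ l ∈ Finset.Ioc 0 m, (1 / 2 : ℝ) ^ (m + 1 - l) := by
      rw [Finset.mul_sum]
      refine Finset.sum_congr rfl fun l hl => ?_
      have := (Finset.mem_Ioc.1 hl).2
      rw [show m + 1 + 1 - l = (m + 1 - l) + 1 by omega, pow_succ]
      ring
    rw [e, show m + 1 + 1 - (m + 1) = 1 by omega]
    linarith

/-- Solutions of a perturbed recursion that vanish at `m + 1` are controlled by their value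
at `0`. -/
theorem green_bound {V V' : ℕ → ℂ} {c : ℂ} {m : ℕ} {W U : ℕ → ℝ} (hU : ∀ s, 0 < U s)
    (hW : ∀ s, 0 ≤ W s)
    (hah : ∀ s ≤ m, ‖sol V 1 c s‖ ≤ U s) (hw : ∀ s ≤ m, ‖sol V 0 1 s‖ ≤ W s)
    (hmono : ∀ s l, s < l → l ≤ m → W s * U l ≤ W l * U s) (h0 : sol V 1 c (m + 1) = 0)
    (hw0 : sol V 0 1 (m + 1) ≠ 0)
    (hsum : ∑ l ∈ Finset.Ioc 0 m, W l * U l * ‖V' l - V l‖ ≤ 1 / 2) {a b : ℂ}
    (hf : sol V' a b (m + 1) = 0) : ∀ s ≤ m, ‖sol V' a b s‖ ≤ 2 * ‖a‖ * U s := by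
  set f := sol V' a b with hfdef
  have hg := green V c (f := f) (g := fun l => (V' l - V l) * f l) (m := m) (e := m + 1)
    (Or.inr rfl) h0 hw0 (fun n _ => by simp only [hfdef, sol_succ_succ]; ring)
  obtain ⟨s₀, hs₀, hmax⟩ := Finset.exists_max_image (Finset.range (m + 1))
    (fun s => ‖f s‖ / U s) ⟨0, by simp⟩
  set M := ‖f s₀‖ / U s₀ with hM
  have hM0 : 0 ≤ M := div_nonneg (norm_nonneg _) (hU _).le
  have hle : ∀ s ≤ m, ‖f s‖ ≤ M * U s := fun s hs =>
    (div_le_iff₀ (hU s)).1 (hmax s (Finset.mem_range.2 (by omega)))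
  have hs : s₀ ≤ m := by have := Finset.mem_range.1 hs₀; omega
  have key : ‖f s₀‖ ≤ (‖a‖ + M / 2) * U s₀ := by
    have e := hg s₀ (by omega)
    rw [hf, zero_div, zero_mul, add_zero, grn, min_eq_left hs] at e
    have hf0 : f 0 = a := rfl
    rw [hf0] at e
    have b1 : ‖a * sol V 1 c s₀‖ ≤ ‖a‖ * U s₀ := by
      rw [norm_mul]; exact mul_le_mul_of_nonneg_left (hah _ hs) (norm_nonneg _)
    have b2 : ‖sol V 1 c s₀ * ∑ l ∈ Finset.Ioc 0 s₀, sol V 0 1 l * ((V' l - V l) * f l)‖ ≤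
        ∑ l ∈ Finset.Ioc 0 s₀, M * U s₀ * (W l * U l * ‖V' l - V l‖) := by
      rw [Finset.mul_sum]
      refine (norm_sum_le _ _).trans (Finset.sum_le_sum fun l hl => ?_)
      have hl' : l ≤ m := (Finset.mem_Ioc.1 hl).2.trans hs
      rw [norm_mul, norm_mul, norm_mul]
      calc ‖sol V 1 c s₀‖ * (‖sol V 0 1 l‖ * (‖V' l - V l‖ * ‖f l‖))
          ≤ U s₀ * (W l * (‖V' l - V l‖ * (M * U l))) := by
            have := hU s₀
            have := hW l
            gcongr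
            · exact hah _ hs
            · exact hw _ hl'
            · exact hle _ hl'
        _ = _ := by ring
    have b3 : ‖sol V 0 1 s₀ * ∑ l ∈ Finset.Ioc s₀ m, sol V 1 c l * ((V' l - V l) * f l)‖ ≤
        ∑ l ∈ Finset.Ioc s₀ m, M * U s₀ * (W l * U l * ‖V' l - V l‖) := by
      rw [Finset.mul_sum]
      refine (norm_sum_le _ _).trans (Finset.sum_le_sum fun l hl => ?_)
      have hl' := Finset.mem_Ioc.1 hl
      rw [norm_mul, norm_mul, norm_mul]
      calc ‖sol V 0 1 s₀‖ * (‖sol V 1 c l‖ * (‖V' l - V l‖ * ‖f l‖))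
          ≤ W s₀ * (U l * (‖V' l - V l‖ * (M * U l))) := by
            have := hU l
            have := hW s₀
            gcongr
            · exact hw _ hs
            · exact hah _ hl'.2
            · exact hle _ hl'.2
        _ = (W s₀ * U l) * (‖V' l - V l‖ * (M * U l)) := by ring
        _ ≤ (W l * U s₀) * (‖V' l - V l‖ * (M * U l)) := by
            have := hU l
            exact mul_le_mul_of_nonneg_right (hmono _ _ hl'.1 hl'.2) (by positivity)
        _ = _ := by ring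
    have b4 : ∑ l ∈ Finset.Ioc 0 s₀, M * U s₀ * (W l * U l * ‖V' l - V l‖) +
        ∑ l ∈ Finset.Ioc s₀ m, M * U s₀ * (W l * U l * ‖V' l - V l‖) ≤ M * U s₀ * (1 / 2) := by
      rw [Finset.sum_Ioc_consecutive _ (Nat.zero_le _) hs, ← Finset.mul_sum]
      exact mul_le_mul_of_nonneg_left hsum (mul_nonneg hM0 (hU _).le)
    rw [e]
    refine (norm_sub_le _ _).trans ?_
    have b5 := norm_add_le
      (sol V 1 c s₀ * ∑ l ∈ Finset.Ioc 0 s₀, sol V 0 1 l * ((V' l - V l) * f l))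
      (sol V 0 1 s₀ * ∑ l ∈ Finset.Ioc s₀ m, sol V 1 c l * ((V' l - V l) * f l))
    linarith
  have hM2 : M ≤ 2 * ‖a‖ := by
    have := (div_le_iff₀ (hU s₀)).2 key
    linarith
  intro s hs'
  exact (hle s hs').trans (mul_le_mul_of_nonneg_right hM2 (hU s).le)

/-- The value of `u_1` for which `u_J = 0`, for a complex potential. -/
noncomputable def RC (V : ℕ → ℂ) (J : ℕ) : ℂ := -sol V 1 0 J / sol V 0 1 J

theorem sol_RC {V : ℕ → ℂ} {J : ℕ} (h : sol V 0 1 J ≠ 0) : sol V 1 (RC V J) J = 0 := by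
  rw [sol_one_eq, RC]; field_simp; ring

/-- The telescoping identity for potentials that differ at one site only. -/
theorem RC_sub {V V' : ℕ → ℂ} {m i : ℕ} (hi : 0 < i) (him : i ≤ m) (h : sol V 0 1 (m + 1) ≠ 0)
    (h' : sol V' 0 1 (m + 1) ≠ 0) (hV : ∀ l, l ≠ i → V' l = V l) :
    RC V (m + 1) - RC V' (m + 1) =
      (V' i - V i) * sol V 1 (RC V (m + 1)) i * sol V' 1 (RC V' (m + 1)) i := by
  have := wr_sum V V' 1 (RC V (m + 1)) 1 (RC V' (m + 1)) m
  rw [sol_RC h, sol_RC h', Finset.sum_eq_single_of_mem i (Finset.mem_Ioc.2 ⟨hi, him⟩)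
    (fun l _ hl => by rw [hV l hl]; ring)] at this
  linear_combination this

/-- The hybrid potential: perturbed at the sites `≤ i`. -/
noncomputable def hyb (k : ℝ) (p : ℝ × ℝ) (i : ℕ) (d : ℂ) : ℕ → ℂ :=
  fun l => if l ≤ i then VpC k p.1 (p.2 + d) l else (Vp k p l : ℂ)

/-- The majorant of the decaying solution. -/
noncomputable def Um (k B : ℝ) (p : ℝ × ℝ) (m l : ℕ) : ℝ :=
  3 * B ^ (1000 * (m - l)) / |ww k p (m + 1)|

theorem pw {B : ℝ} (hB : 2 ≤ B) {a b : ℕ} (h : a ≤ b) : B ^ a ≤ B ^ b :=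
  pow_le_pow_right₀ (by linarith) h

theorem pw2 {B : ℝ} (hB : 2 ≤ B) (a : ℕ) : (2 : ℝ) ^ a ≤ B ^ a :=
  pow_le_pow_left₀ (by norm_num) hB a

section
variable {k B η a : ℝ} {p : ℝ × ℝ} {m : ℕ}

theorem P_pos (hB : 2 ≤ B) (hg : Good k B η p a (m + 1)) : 0 < |ww k p (m + 1)| := by
  have h1 := hg.hW 1 (by have := hg.two_le; omega)
  have h2 : |ww k p 1| = 1 := by simp [ww]
  rw [h2, one_mul] at h1
  exact lt_of_lt_of_le (pow_pos (by linarith) _) h1

theorem w_le (hB : 2 ≤ B) (hg : Good k B η p a (m + 1)) {s : ℕ} (hs : s ≤ m) :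
    |ww k p s| ≤ Wm k B p (m + 1) s := by
  rw [Wm, le_div_iff₀ (pow_pos (by linarith) _)]
  exact hg.hW s (by omega)

theorem ah_le (hB : 2 ≤ B) (hg : Good k B η p a (m + 1))
    (hu : |uu k p a (m + 1)| ≤ |uu k p a m|) {s : ℕ} (hs : s ≤ m) :
    |sol (Vp k p) 1 (RR k p (m + 1)) s| ≤ Um k B p m s := by
  have hP := P_pos hB hg
  have hne : ww k p (m + 1) ≠ 0 := abs_pos.1 hP
  have e : sol (Vp k p) 1 (RR k p (m + 1)) s * ww k p (m + 1) =
      uu k p a s * ww k p (m + 1) - uu k p a (m + 1) * ww k p s := by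
    rw [uu, sol_one_eq _ (RR k p (m + 1)), sol_one_eq _ a s, sol_one_eq _ a (m + 1), RR]
    change (yy k p s + -yy k p (m + 1) / ww k p (m + 1) * ww k p s) * ww k p (m + 1) =
      (yy k p s + a * ww k p s) * ww k p (m + 1) -
        (yy k p (m + 1) + a * ww k p (m + 1)) * ww k p s
    field_simp
    ring
  rw [Um, le_div_iff₀ hP, ← abs_mul, e]
  refine (abs_sub _ _).trans ?_
  rw [abs_mul, abs_mul]
  have h1 := hg.hU s (by omega)
  have h2 := hg.hU m (by omega)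
  have h3 := hg.hW s (by omega)
  rw [Nat.add_sub_cancel] at h1 h2
  rw [Nat.sub_self, Nat.mul_zero, pow_zero] at h2
  have h4 : (2 : ℝ) ≤ B ^ (950 * (m + 1 - s)) :=
    hB.trans (by simpa using pw hB (show 1 ≤ 950 * (m + 1 - s) by omega))
  have h5 : (1 : ℝ) ≤ B ^ (1000 * (m - s)) := one_le_pow₀ (by linarith)
  have h6 : |ww k p s| * 2 ≤ |ww k p (m + 1)| :=
    (mul_le_mul_of_nonneg_left h4 (abs_nonneg _)).trans h3
  have h7 : |uu k p a (m + 1)| * (|ww k p s| * 2) ≤ |uu k p a m| * |ww k p (m + 1)| :=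
    mul_le_mul hu h6 (by positivity) (abs_nonneg _)
  linarith

theorem mono (hB : 2 ≤ B) {s l : ℕ} (hsl : s < l) :
    Wm k B p (m + 1) s * Um k B p m l ≤ Wm k B p (m + 1) l * Um k B p m s := by
  have hB0 : 0 < B := by linarith
  refine mul_le_mul ?_ ?_ (by unfold Um; positivity) (by unfold Wm; positivity)
  · exact div_le_div_of_nonneg_left (abs_nonneg _) (pow_pos hB0 _) (pw hB (by omega))
  · refine div_le_div_of_nonneg_right ?_ (abs_nonneg _)
    exact mul_le_mul_of_nonneg_left (pw hB (by omega)) (by norm_num)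

/-- The perturbation of the potential. -/
theorem dV_le (hB : 2 ≤ B)
    (hp : ∀ (x : ℝ) (z : ℂ), ‖z‖ ≤ 1 → ‖potC k (x + z) - pot k x‖ ≤ B ^ 1002 * ‖z‖)
    (hg : Good k B η p a (m + 1)) {d : ℂ} {l : ℕ} (hl : l ≤ m)
    (ho : ‖d‖ * Wm k B p (m + 1) l ≤ B ^ 900 →
      ‖orbC k p.1 (p.2 + d) l - orb k p l - d * ww k p l‖ ≤
        ‖d‖ ^ 2 * Wm k B p (m + 1) l ^ 2 / B ^ 890)
    (hd : ‖d‖ * |ww k p (m + 1)| ≤ B ^ (850 * (m + 1 - l))) :
    ‖VpC k p.1 (p.2 + d) l - Vp k p l‖ ≤ 2 * B ^ 1002 / B ^ (100 * (m + 1 - l)) := by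
  have hB0 : 0 < B := by linarith
  have hw := w_le hB hg hl
  have hW0 : 0 ≤ Wm k B p (m + 1) l := (abs_nonneg _).trans hw
  have h1 : ‖d‖ * Wm k B p (m + 1) l ≤ 1 / B ^ (100 * (m + 1 - l)) := by
    rw [Wm, ← mul_div_assoc, div_le_div_iff₀ (pow_pos hB0 _) (pow_pos hB0 _), one_mul,
      show 950 * (m + 1 - l) = 850 * (m + 1 - l) + 100 * (m + 1 - l) by omega, pow_add]
    exact mul_le_mul_of_nonneg_right hd (pow_pos hB0 _).le
  have h2 : 1 / B ^ (100 * (m + 1 - l)) ≤ 1 / 2 :=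
    one_div_le_one_div_of_le (by norm_num)
      (hB.trans (by simpa using pw hB (show 1 ≤ 100 * (m + 1 - l) by omega)))
  have h3 : (1 : ℝ) ≤ B ^ 900 := one_le_pow₀ (by linarith)
  have h4 : (1 : ℝ) ≤ B ^ 890 := one_le_pow₀ (by linarith)
  have h5 := ho (by linarith)
  have h0 : 0 ≤ ‖d‖ * Wm k B p (m + 1) l := by positivity
  have h6 : ‖d‖ ^ 2 * Wm k B p (m + 1) l ^ 2 / B ^ 890 ≤ ‖d‖ * Wm k B p (m + 1) l := by
    refine (div_le_self (by positivity) h4).trans ?_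
    rw [← mul_pow]
    nlinarith
  have h7 : ‖d * (ww k p l : ℂ)‖ ≤ ‖d‖ * Wm k B p (m + 1) l := by
    rw [norm_mul, Complex.norm_real, Real.norm_eq_abs]
    exact mul_le_mul_of_nonneg_left hw (norm_nonneg _)
  have h8 : ‖orbC k p.1 (p.2 + d) l - orb k p l‖ ≤ 2 * (1 / B ^ (100 * (m + 1 - l))) := by
    have := norm_add_le (orbC k p.1 (p.2 + d) l - orb k p l - d * ww k p l) (d * (ww k p l : ℂ))
    rw [sub_add_cancel] at this
    linarith
  have h9 := hp (orb k p l) (orbC k p.1 (p.2 + d) l - orb k p l) (by linarith)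
  rw [add_sub_cancel] at h9
  refine h9.trans ((mul_le_mul_of_nonneg_left h8 (pow_pos hB0 _).le).trans (le_of_eq ?_))
  ring

theorem term_le (hB : 2 ≤ B) (hg : Good k B η p a (m + 1)) {l : ℕ} (hl : l ≤ m) :
    Wm k B p (m + 1) l * Um k B p m l * (2 * B ^ 1002 / B ^ (100 * (m + 1 - l))) ≤
      1 / 2 * (1 / 2) ^ (m + 1 - l) := by
  have hB0 : 0 < B := by linarith
  have hP := P_pos hB hg
  obtain ⟨j, rfl⟩ : ∃ j, m = l + j := ⟨m - l, by omega⟩
  rw [Wm, Um, show l + j + 1 - l = j + 1 by omega, show l + j - l = j by omega]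
  generalize |ww k p (l + j + 1)| = P at hP
  have e1 : P / B ^ (950 * (j + 1)) * (3 * B ^ (1000 * j) / P) *
      (2 * B ^ 1002 / B ^ (100 * (j + 1))) = 6 * B ^ (1000 * j + 1002) / B ^ (1050 * (j + 1)) := by
    rw [show 1050 * (j + 1) = 950 * (j + 1) + 100 * (j + 1) by omega, pow_add, pow_add]
    field_simp
    norm_num
  have e2 : (1 / 2 * (1 / 2) ^ (j + 1) : ℝ) = 1 / 2 ^ (j + 2) := by
    rw [pow_succ (2 : ℝ) (j + 1)]; field_simp
    rw [← mul_pow]; norm_num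
  rw [e1, e2, div_le_div_iff₀ (pow_pos hB0 _) (by positivity), one_mul]
  calc 6 * B ^ (1000 * j + 1002) * 2 ^ (j + 2) ≤ B ^ 3 * B ^ (1000 * j + 1002) * B ^ (j + 2) := by
        have h1 := pw2 hB 3
        have h2 := pw2 hB (j + 2)
        gcongr
        linarith
    _ = B ^ (3 + (1000 * j + 1002) + (j + 2)) := by rw [← pow_add, ← pow_add]
    _ ≤ _ := pw hB (by omega)

/-- Control of the hybrid problem. -/
theorem hyb_bound (hB : 2 ≤ B) (hg : Good k B η p a (m + 1))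
    (hu : |uu k p a (m + 1)| ≤ |uu k p a m|) {d : ℂ} {i : ℕ}
    (hV : ∀ l ≤ i, ‖VpC k p.1 (p.2 + d) l - Vp k p l‖ ≤ 2 * B ^ 1002 / B ^ (100 * (m + 1 - l))) :
    sol (hyb k p i d) 0 1 (m + 1) ≠ 0 ∧
      ∀ s ≤ m, ‖sol (hyb k p i d) 1 (RC (hyb k p i d) (m + 1)) s‖ ≤ 2 * Um k B p m s := by
  have hB0 : 0 < B := by linarith
  have hP := P_pos hB hg
  have hne : ww k p (m + 1) ≠ 0 := abs_pos.1 hP
  have hU : ∀ s, 0 < Um k B p m s := fun s => by unfold Um; positivity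
  have hW : ∀ s, 0 ≤ Wm k B p (m + 1) s := fun s => by unfold Wm; positivity
  have c1 : ∀ s, sol (fun l => (Vp k p l : ℂ)) 1 (RR k p (m + 1) : ℝ) s =
      ((sol (Vp k p) 1 (RR k p (m + 1)) s : ℝ) : ℂ) := fun s => by
    simpa using sol_cast (Vp k p) 1 (RR k p (m + 1)) s
  have c2 : ∀ s, sol (fun l => (Vp k p l : ℂ)) 0 1 s = ((ww k p s : ℝ) : ℂ) := fun s => by
    simpa [ww] using sol_cast (Vp k p) 0 1 s
  have key : ∀ a' b' : ℂ, sol (hyb k p i d) a' b' (m + 1) = 0 →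
      ∀ s ≤ m, ‖sol (hyb k p i d) a' b' s‖ ≤ 2 * ‖a'‖ * Um k B p m s := by
    intro a' b' hf
    refine green_bound (V := fun l => (Vp k p l : ℂ)) (c := (RR k p (m + 1) : ℝ))
      (W := Wm k B p (m + 1)) hU hW (fun s hs => ?_) (fun s hs => ?_)
      (fun s l hsl _ => mono hB hsl) ?_ ?_ ?_ hf
    · rw [c1, Complex.norm_real, Real.norm_eq_abs]; exact ah_le hB hg hu hs
    · rw [c2, Complex.norm_real, Real.norm_eq_abs]; exact w_le hB hg hs
    · rw [c1, sol_one_eq, RR]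
      norm_cast
      change yy k p (m + 1) + -yy k p (m + 1) / ww k p (m + 1) * ww k p (m + 1) = 0
      field_simp
      ring
    · rw [c2]; exact_mod_cast hne
    · have h1 := geom m
      calc ∑ l ∈ Finset.Ioc 0 m, Wm k B p (m + 1) l * Um k B p m l * ‖hyb k p i d l - Vp k p l‖
          ≤ ∑ l ∈ Finset.Ioc 0 m, 1 / 2 * (1 / 2 : ℝ) ^ (m + 1 - l) := by
            refine Finset.sum_le_sum fun l hl => ?_
            refine le_trans (mul_le_mul_of_nonneg_left ?_ (mul_nonneg (hW l) (hU l).le))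
              (term_le hB hg (Finset.mem_Ioc.1 hl).2)
            by_cases hli : l ≤ i
            · rw [hyb, if_pos hli]; exact hV l hli
            · rw [hyb, if_neg hli, sub_self, norm_zero]; positivity
        _ ≤ 1 / 2 := by rw [← Finset.mul_sum]; linarith
  have h1 : sol (hyb k p i d) 0 1 (m + 1) ≠ 0 := fun h0 => by
    have := key 0 1 h0 1 (by have := hg.two_le; omega)
    norm_num at this
  refine ⟨h1, fun s hs => ?_⟩
  simpa using key 1 _ (sol_RC h1) s hs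

theorem taylor_le (hB : 2 ≤ B) {P x : ℝ} (hP : 0 < P) (hx : 0 ≤ x) (j : ℕ) :
    27 * (2 * B ^ 1002 / B ^ (100 * (j + 1)) * (2 * (3 * B ^ (1000 * j) / P)) *
      (2 * (3 * B ^ (1000 * j) / P))) * (x / (B ^ (850 * (j + 1)) / P)) ^ 3 ≤
      (1 / 2) ^ (j + 1) * ((P * x) ^ 3 / (B ^ 1500 * P ^ 2)) := by
  have hB0 : 0 < B := by linarith
  have e1 : 27 * (2 * B ^ 1002 / B ^ (100 * (j + 1)) * (2 * (3 * B ^ (1000 * j) / P)) *
      (2 * (3 * B ^ (1000 * j) / P))) * (x / (B ^ (850 * (j + 1)) / P)) ^ 3 =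
      1944 * B ^ (1002 + 1000 * j + 1000 * j) / B ^ (100 * (j + 1) + 850 * (j + 1) * 3) *
        (P * x ^ 3) := by
    rw [pow_add, pow_add, pow_add B (100 * (j + 1)), pow_mul B (850 * (j + 1)) 3]
    field_simp
    ring
  have e2 : (1 / 2) ^ (j + 1) * ((P * x) ^ 3 / (B ^ 1500 * P ^ 2)) =
      1 / (2 ^ (j + 1) * B ^ 1500) * (P * x ^ 3) := by
    rw [one_div_pow]
    field_simp
  rw [e1, e2]
  refine mul_le_mul_of_nonneg_right ?_ (by positivity)
  rw [div_le_div_iff₀ (pow_pos hB0 _) (by positivity), one_mul]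
  calc 1944 * B ^ (1002 + 1000 * j + 1000 * j) * (2 ^ (j + 1) * B ^ 1500)
      ≤ B ^ 11 * B ^ (1002 + 1000 * j + 1000 * j) * (B ^ (j + 1) * B ^ 1500) := by
        have h1 := pw2 hB 11
        have h2 := pw2 hB (j + 1)
        gcongr
        linarith
    _ = B ^ (11 + (1002 + 1000 * j + 1000 * j) + ((j + 1) + 1500)) := by
        rw [← pow_add, ← pow_add, ← pow_add]
    _ ≤ _ := pw hB (by omega)

end

end InnerAux

open InnerAux in
theorem inner (h1 : CplxStmt) (h2 : TaylorStmt) : InnerStmt := by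
  obtain ⟨hc1, hc2, B₀, hc3⟩ := h1
  refine ⟨max B₀ 2, fun k B hB hsc η p a J hg hu => ?_⟩
  have hB2 : 2 ≤ B := (le_max_right _ _).trans hB
  have hB0 : 0 < B := by linarith
  obtain ⟨hp, ho⟩ := hc3 k B ((le_max_left _ _).trans hB) hsc
  obtain ⟨m, rfl⟩ : ∃ m, J = m + 1 := ⟨J - 1, by have := hg.two_le; omega⟩
  rw [Nat.add_sub_cancel] at hu
  have hP := P_pos hB2 hg
  have hdV : ∀ i ≤ m, ∀ d : ℂ, ‖d‖ * |ww k p (m + 1)| ≤ B ^ (850 * (m + 1 - i)) → ∀ l ≤ i,
      ‖VpC k p.1 (p.2 + d) l - Vp k p l‖ ≤ 2 * B ^ 1002 / B ^ (100 * (m + 1 - l)) :=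
    fun i hi d hd l hl => dV_le hB2 hp hg (by omega)
      (fun h => (ho η p a (m + 1) hg d l (by omega) h).1) (hd.trans (pw hB2 (by omega)))
  have hdiff : ∀ i (a' b' : ℂ) n, Differentiable ℂ fun d => sol (hyb k p i d) a' b' n := by
    intro i a' b' n
    refine sol_diff (hyb k p i) (fun l => ?_) a' b' n
    unfold hyb
    split_ifs
    · exact (hc2 k p.1 l).2.comp ((differentiable_const _).add differentiable_id)
    · exact differentiable_const _
  -- one step of the telescoping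
  have hstep : ∀ i, i + 1 ≤ m → ∃ q₀ q₁ q₂ : ℂ, ∀ δ : ℝ, |δ| * |ww k p (m + 1)| ≤ 1 →
      ‖RC (hyb k p (i + 1) δ) (m + 1) - RC (hyb k p i δ) (m + 1) - (q₀ + q₁ * δ + q₂ * δ ^ 2)‖ ≤
        (1 / 2) ^ (m - i) *
          ((|ww k p (m + 1)| * |δ|) ^ 3 / (B ^ 1500 * |ww k p (m + 1)| ^ 2)) := by
    intro i hi
    obtain ⟨j, hj⟩ : ∃ j, m = i + 1 + j := ⟨m - (i + 1), by omega⟩
    have e1 : m + 1 - (i + 1) = j + 1 := by omega
    have e2 : m - (i + 1) = j := by omega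
    have e3 : m - i = j + 1 := by omega
    have hball : ∀ d ∈ Metric.ball (0 : ℂ) (B ^ (850 * (j + 1)) / |ww k p (m + 1)|),
        ∀ l ≤ i + 1,
          ‖VpC k p.1 (p.2 + d) l - Vp k p l‖ ≤ 2 * B ^ 1002 / B ^ (100 * (m + 1 - l)) := by
      intro d hd
      rw [mem_ball_zero_iff, lt_div_iff₀ hP] at hd
      exact hdV (i + 1) hi d (by rw [e1]; exact hd.le)
    obtain ⟨q₀, q₁, q₂, hq⟩ := h2
      (fun d => RC (hyb k p (i + 1) d) (m + 1) - RC (hyb k p i d) (m + 1))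
      (B ^ (850 * (j + 1)) / |ww k p (m + 1)|)
      (2 * B ^ 1002 / B ^ (100 * (j + 1)) * (2 * (3 * B ^ (1000 * j) / |ww k p (m + 1)|)) *
        (2 * (3 * B ^ (1000 * j) / |ww k p (m + 1)|))) (by positivity)
      (by
        refine DifferentiableOn.sub ?_ ?_
        · exact (hdiff _ _ _ _).neg.differentiableOn.div (hdiff _ _ _ _).differentiableOn
            fun d hd => (hyb_bound hB2 hg hu (hball d hd)).1
        · exact (hdiff _ _ _ _).neg.differentiableOn.div (hdiff _ _ _ _).differentiableOn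
            fun d hd => (hyb_bound hB2 hg hu fun l hl => hball d hd l (by omega)).1)
      (by
        intro d hd
        obtain ⟨a1, a2⟩ := hyb_bound hB2 hg hu (hball d hd)
        obtain ⟨b1, b2⟩ := hyb_bound (i := i) hB2 hg hu fun l hl => hball d hd l (by omega)
        rw [RC_sub (i := i + 1) (by omega) hi a1 b1 (fun l hl => by
          by_cases h : l ≤ i
          · simp only [hyb, if_pos h, if_pos (by omega : l ≤ i + 1)]
          · simp only [hyb, if_neg h, if_neg (by omega : ¬ l ≤ i + 1)]), norm_mul, norm_mul]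
        have c1 := a2 (i + 1) hi
        have c2 := b2 (i + 1) hi
        have c3 := hball d hd (i + 1) le_rfl
        rw [Um, e2] at c1 c2
        rw [e1] at c3
        have c4 : ‖hyb k p i d (i + 1) - hyb k p (i + 1) d (i + 1)‖ ≤
            2 * B ^ 1002 / B ^ (100 * (j + 1)) := by
          rw [norm_sub_rev]
          simp only [hyb, if_pos (le_refl (i + 1)), if_neg (by omega : ¬ i + 1 ≤ i)]
          exact c3
        exact mul_le_mul (mul_le_mul c4 c1 (norm_nonneg _) (by positivity)) c2 (norm_nonneg _)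
          (by positivity))
    refine ⟨q₀, q₁, q₂, fun δ hδ => ?_⟩
    have hmem : (δ : ℂ) ∈ Metric.ball (0 : ℂ) (B ^ (850 * (j + 1)) / |ww k p (m + 1)|) := by
      rw [mem_ball_zero_iff, lt_div_iff₀ hP, Complex.norm_real, Real.norm_eq_abs]
      exact lt_of_le_of_lt hδ (one_lt_pow₀ (by linarith) (by omega))
    have := hq δ hmem
    rw [Complex.norm_real, Real.norm_eq_abs] at this
    rw [e3]
    exact this.trans (taylor_le hB2 hP (abs_nonneg δ) j)
  have hall : ∀ i ≤ m, ∃ q₀ q₁ q₂ : ℂ, ∀ δ : ℝ, |δ| * |ww k p (m + 1)| ≤ 1 →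
      ‖RC (hyb k p i δ) (m + 1) - (q₀ + q₁ * δ + q₂ * δ ^ 2)‖ ≤
        (1 / 2) ^ (m - i) *
          ((|ww k p (m + 1)| * |δ|) ^ 3 / (B ^ 1500 * |ww k p (m + 1)| ^ 2)) := by
    intro i
    induction i with
    | zero =>
      intro _
      refine ⟨RC (fun l => (Vp k p l : ℂ)) (m + 1), 0, 0, fun δ _ => ?_⟩
      have hc : ∀ a' b' : ℂ, sol (hyb k p 0 δ) a' b' (m + 1) =
          sol (fun l => (Vp k p l : ℂ)) a' b' (m + 1) := fun a' b' =>
        sol_congr (m := m) (fun l hl _ => by simp only [hyb, if_neg (by omega : ¬ l ≤ 0)]) a' b'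
          (m + 1) le_rfl
      rw [RC, RC, hc, hc]
      simp only [zero_mul, add_zero, sub_self, norm_zero]
      positivity
    | succ i ih =>
      intro hi
      obtain ⟨q₀, q₁, q₂, hq⟩ := ih (by omega)
      obtain ⟨r₀, r₁, r₂, hr⟩ := hstep i hi
      refine ⟨q₀ + r₀, q₁ + r₁, q₂ + r₂, fun δ hδ => ?_⟩
      have a1 := hq δ hδ
      have a2 := hr δ hδ
      have a3 := norm_add_le (RC (hyb k p i δ) (m + 1) - (q₀ + q₁ * δ + q₂ * δ ^ 2))
        (RC (hyb k p (i + 1) δ) (m + 1) - RC (hyb k p i δ) (m + 1) - (r₀ + r₁ * δ + r₂ * δ ^ 2))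
      have e : RC (hyb k p i δ) (m + 1) - (q₀ + q₁ * δ + q₂ * δ ^ 2) +
          (RC (hyb k p (i + 1) δ) (m + 1) - RC (hyb k p i δ) (m + 1) -
            (r₀ + r₁ * δ + r₂ * δ ^ 2)) =
          RC (hyb k p (i + 1) δ) (m + 1) - (q₀ + r₀ + (q₁ + r₁) * δ + (q₂ + r₂) * δ ^ 2) := by
        ring
      rw [e] at a3
      rw [show m - i = m - (i + 1) + 1 by omega, pow_succ (1 / 2 : ℝ)] at a1 a2
      linarith
  obtain ⟨q₀, q₁, q₂, hq⟩ := hall m le_rfl
  refine ⟨q₀.re, q₁.re, q₂.re, fun δ hδ => ?_⟩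
  have h3 := hq δ hδ
  rw [Nat.sub_self, pow_zero, one_mul, sq_abs] at h3
  have hc : ∀ a' b' : ℝ, sol (hyb k p m δ) a' b' (m + 1) =
      ((sol (Vp k (p.1, p.2 + δ)) a' b' (m + 1) : ℝ) : ℂ) := fun a' b' => by
    rw [← sol_cast]
    refine sol_congr (m := m) (fun l _ hl => ?_) _ _ (m + 1) le_rfl
    have := (hc1 k (p.1, p.2 + δ) l).2
    simp only [hyb, if_pos hl]
    rw [← this]
    push_cast
    rfl
  have hR : RC (hyb k p m δ) (m + 1) = (RR k (p.1, p.2 + δ) (m + 1) : ℝ) := by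
    have c1 := hc 1 0
    have c2 := hc 0 1
    rw [Complex.ofReal_one, Complex.ofReal_zero] at c1 c2
    rw [RC, c1, c2, RR, yy, ww]
    push_cast
    rfl
  rw [hR] at h3
  refine le_trans (le_of_eq ?_) ((Complex.abs_re_le_norm _).trans h3)
  congr 1
  simp [← Complex.ofReal_pow]

end Crest.Agent.R128
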