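import Crest.Agent.R128.Basic

/-! Row 128: existence of long finite-time stable leaves (contraction mapping). -/

set_option autoImplicit false
open MeasureTheory Real

namespace Crest.Agent.R128

namespace Leaf

theorem geo {x : ℝ} (h0 : 0 ≤ x) (h1 : x ≤ 1 / 2) (s m : ℕ) :
    ∑ l ∈ Finset.Ioc s m, x ^ l ≤ 2 * x ^ (s + 1) := by
  have key : ∀ j, ∑ l ∈ Finset.Ioc s (s + j), x ^ l ≤ 2 * x ^ (s + 1) - 2 * x ^ (s + j + 1) := by
    intro j
    induction j with
    | zero => simp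
    | succ j ih =>
      rw [← add_assoc, Finset.sum_Ioc_succ_top (Nat.le_add_right s j), pow_succ x (s + j + 1)]
      have : 0 ≤ x ^ (s + j + 1) := pow_nonneg h0 _
      nlinarith
  rcases le_total s m with h | h
  · obtain ⟨j, rfl⟩ := Nat.exists_eq_add_of_le h
    have : 0 ≤ x ^ (s + j + 1) := pow_nonneg h0 _
    linarith [key j]
  · rw [Finset.Ioc_eq_empty_of_le h, Finset.sum_empty]
    positivity

theorem inv_pow_le_half {B : ℝ} (hB : 2 ≤ B) {j : ℕ} (hj : 1 ≤ j) : 1 / B ^ j ≤ 1 / 2 := by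
  have h1 : B ^ 1 ≤ B ^ j := pow_le_pow_right₀ (by linarith) hj
  rw [pow_one] at h1
  exact one_div_le_one_div_of_le (by norm_num) (hB.trans h1)

theorem grn_sub (V : ℕ → ℝ) (c : ℝ) (g g' : ℕ → ℝ) (m s : ℕ) :
    grn V c g m s - grn V c g' m s = grn V c (fun l => g l - g' l) m s := by
  simp only [grn, mul_sub, Finset.sum_sub_distrib]
  ring

section Est

variable {V g : ℕ → ℝ} {B c D : ℝ} {m : ℕ}

theorem first_sum (hB : 2 ≤ B) (hV : ∀ l, |V l| ≤ B ^ 1000 - 1) (hD : 0 ≤ D)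
    (hg : ∀ l, 1 ≤ l → l ≤ m → |g l| ≤ D * B ^ 1000 / B ^ (1800 * l)) {t : ℕ} (ht : t ≤ m) :
    |∑ l ∈ Finset.Ioc 0 t, sol V 0 1 l * g l| ≤ 2 * D / B ^ 800 := by
  have hB0 : 0 < B := by linarith
  refine (Finset.abs_sum_le_sum_abs _ _).trans ?_
  have h1 : ∀ l ∈ Finset.Ioc 0 t, |sol V 0 1 l * g l| ≤ D * (1 / B ^ 800) ^ l := by
    intro l hl
    obtain ⟨hl0, hl1⟩ := Finset.mem_Ioc.1 hl
    obtain ⟨j, rfl⟩ : ∃ j, l = j + 1 := ⟨l - 1, by omega⟩
    rw [abs_mul]
    refine (mul_le_mul (abs_dir_le hV _) (hg _ (by omega) (hl1.trans ht)) (abs_nonneg _)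
      (by positivity)).trans (le_of_eq ?_)
    rw [Nat.add_sub_cancel, one_div, inv_pow, ← pow_mul, ← pow_mul]
    field_simp
    ring
  refine (Finset.sum_le_sum h1).trans ?_
  rw [← Finset.mul_sum]
  refine (mul_le_mul_of_nonneg_left (geo (by positivity) (inv_pow_le_half hB (by norm_num)) 0 t)
    hD).trans (le_of_eq ?_)
  ring

theorem grn_bound (hB : 2 ≤ B) (hV : ∀ l, |V l| ≤ B ^ 1000 - 1) (hD : 0 ≤ D)
    (ha : ∀ s ≤ m, |sol V 1 c s| ≤ 1 / B ^ (990 * s))
    (hg : ∀ l, 1 ≤ l → l ≤ m → |g l| ≤ D * B ^ 1000 / B ^ (1800 * l)) {s : ℕ} (hs : s ≤ m) :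
    B ^ (900 * s) * |grn V c g m s| ≤ 4 * D / B ^ 800 := by
  have hB0 : 0 < B := by linarith
  have hB1 : 1 ≤ B := by linarith
  have e1 : B ^ (900 * s) * |sol V 1 c s * ∑ l ∈ Finset.Ioc 0 (min s m), sol V 0 1 l * g l| ≤
      2 * D / B ^ 800 := by
    rw [abs_mul, ← mul_assoc]
    have h1 : B ^ (900 * s) * |sol V 1 c s| ≤ 1 := by
      refine (mul_le_mul_of_nonneg_left (ha s hs) (by positivity)).trans ?_
      rw [mul_one_div, div_le_one (by positivity)]
      exact pow_le_pow_right₀ hB1 (by omega)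
    refine (mul_le_mul h1 (first_sum hB hV hD hg (min_le_right s m)) (abs_nonneg _)
      zero_le_one).trans (le_of_eq (one_mul _))
  have e2 : B ^ (900 * s) * |sol V 0 1 s * ∑ l ∈ Finset.Ioc s m, sol V 1 c l * g l| ≤
      2 * D / B ^ 800 := by
    have h1 : ∀ l ∈ Finset.Ioc s m, |sol V 1 c l * g l| ≤ D * B ^ 1000 * (1 / B ^ 2790) ^ l := by
      intro l hl
      obtain ⟨hl0, hl1⟩ := Finset.mem_Ioc.1 hl
      rw [abs_mul]
      refine (mul_le_mul (ha l hl1) (hg _ (by omega) hl1) (abs_nonneg _)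
        (by positivity)).trans (le_of_eq ?_)
      rw [one_div (B ^ 2790), inv_pow, ← pow_mul]
      field_simp
      ring
    have h2 : |∑ l ∈ Finset.Ioc s m, sol V 1 c l * g l| ≤
        D * B ^ 1000 * (2 * (1 / B ^ 2790) ^ (s + 1)) := by
      refine (Finset.abs_sum_le_sum_abs _ _).trans ((Finset.sum_le_sum h1).trans ?_)
      rw [← Finset.mul_sum]
      exact mul_le_mul_of_nonneg_left
        (geo (by positivity) (inv_pow_le_half hB (by norm_num)) s m) (by positivity)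
    have h3 : |sol V 0 1 s| ≤ B ^ (1000 * s) := by
      refine (abs_dir_le hV s).trans ?_
      rw [← pow_mul]
      exact pow_le_pow_right₀ hB1 (by omega)
    rw [abs_mul]
    refine (mul_le_mul_of_nonneg_left (mul_le_mul h3 h2 (abs_nonneg _) (by positivity))
      (by positivity)).trans ?_
    have h4 : B ^ (900 * s) * (B ^ (1000 * s) * (D * B ^ 1000 * (2 * (1 / B ^ 2790) ^ (s + 1)))) =
        2 * D / B ^ (890 * s + 1790) := by
      rw [one_div (B ^ 2790), inv_pow, ← pow_mul]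
      field_simp
      ring
    rw [h4]
    exact div_le_div_of_nonneg_left (by positivity) (by positivity)
      (pow_le_pow_right₀ hB1 (by omega))
  unfold grn
  refine (mul_le_mul_of_nonneg_left (abs_add_le _ _) (by positivity)).trans ?_
  rw [mul_add]
  calc _ ≤ 2 * D / B ^ 800 + 2 * D / B ^ 800 := add_le_add e1 e2
    _ = _ := by ring

end Est

/-- Projection onto `[-2, 2]`. -/
noncomputable def clamp (x : ℝ) : ℝ := max (-2) (min 2 x)

theorem abs_clamp_le (x : ℝ) : |clamp x| ≤ 2 := by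
  unfold clamp
  rw [abs_le]
  exact ⟨le_max_left _ _, max_le (by norm_num) (min_le_left _ _)⟩

theorem clamp_eq {x : ℝ} (h : |x| ≤ 2) : clamp x = x := by
  unfold clamp
  rw [abs_le] at h
  rw [min_eq_right h.2, max_eq_right h.1]

theorem clamp_lip (x y : ℝ) : |clamp x - clamp y| ≤ |x - y| := by
  unfold clamp
  refine (abs_max_sub_max_le_max _ _ _ _).trans (max_le (by simp) ?_)
  refine (abs_min_sub_min_le_max _ _ _ _).trans (max_le (by simp) le_rfl)

/-- The displacement attached to a rescaled unknown. -/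
noncomputable def disp (B : ℝ) {n : ℕ} (zh : Fin n → ℝ) (l : ℕ) : ℝ :=
  if h : l < n then clamp (zh ⟨l, h⟩) / B ^ (900 * l) else 0

theorem abs_disp_le {B : ℝ} (hB : 0 < B) {n : ℕ} (zh : Fin n → ℝ) (l : ℕ) :
    |disp B zh l| ≤ 2 / B ^ (900 * l) := by
  unfold disp
  split_ifs with h
  · rw [abs_div, abs_of_pos (pow_pos hB _)]
    exact div_le_div_of_nonneg_right (abs_clamp_le _) (by positivity)
  · rw [abs_zero]; positivity

theorem disp_lip {B : ℝ} (hB : 0 < B) {n : ℕ} (zh zh' : Fin n → ℝ) (l : ℕ) :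
    |disp B zh l - disp B zh' l| ≤ dist zh zh' / B ^ (900 * l) := by
  unfold disp
  split_ifs with h
  · rw [← sub_div, abs_div, abs_of_pos (pow_pos hB _)]
    refine div_le_div_of_nonneg_right ((clamp_lip _ _).trans ?_) (by positivity)
    rw [← Real.dist_eq]
    exact dist_le_pi_dist zh zh' _
  · rw [sub_zero, abs_zero]; positivity

theorem dec_bound {B lam x : ℝ} (hB : 2 ≤ B) (hlam : B ^ 999 ≤ lam) {s : ℕ} (hs : 1 ≤ s)
    (hx : x ≤ 5 * (B ^ 1000) ^ (s + 1) / lam ^ (2 * s + 1)) : x ≤ 1 / B ^ (990 * s) := by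
  have hB0 : 0 < B := by linarith
  have hB1 : 1 ≤ B := by linarith
  refine hx.trans ?_
  have h1 : (B ^ 999) ^ (2 * s + 1) ≤ lam ^ (2 * s + 1) := pow_le_pow_left₀ (by positivity) hlam _
  refine (div_le_div_of_nonneg_left (by positivity) (by positivity) h1).trans ?_
  rw [div_le_div_iff₀ (by positivity) (by positivity), one_mul, ← pow_mul, ← pow_mul]
  have h5 : (5 : ℝ) ≤ B ^ 3 := by
    have : (2 : ℝ) ^ 3 ≤ B ^ 3 := pow_le_pow_left₀ (by norm_num) hB 3
    linarith
  calc 5 * B ^ (1000 * (s + 1)) * B ^ (990 * s) ≤ B ^ 3 * B ^ (1000 * (s + 1)) * B ^ (990 * s) := by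
        gcongr
    _ = B ^ (3 + 1000 * (s + 1) + 990 * s) := by rw [pow_add, pow_add]
    _ ≤ _ := pow_le_pow_right₀ hB1 (by omega)

end Leaf

open Leaf in
theorem leaf : LeafStmt := by
  refine ⟨2, fun k B lam hB hSc hlam p n c hn hF hc => ?_⟩
  have hB0 : 0 < B := by linarith
  have hB1 : 1 ≤ B := by linarith
  have hk : 0 ≤ k := zero_le_one.trans (hSc.one_le hB)
  have hV : ∀ l, |Vp k p l| ≤ B ^ 1000 - 1 := abs_Vp_le hk hSc p
  obtain ⟨m, rfl⟩ : ∃ m, n = m + 1 := ⟨n - 1, by omega⟩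
  have h2 : 2 ≤ lam := by
    have h1 : B ^ 1 ≤ B ^ 999 := pow_le_pow_right₀ hB1 (by norm_num)
    rw [pow_one] at h1
    linarith
  have hK : lam ≤ B ^ 1000 := by
    have h1 := (hF.1 1 (by omega)).trans (nv_dir_le hV 1)
    rwa [pow_one, pow_one] at h1
  obtain ⟨c', -, -, -, -, hdec⟩ := dec_sol hV h2 hK m (fun s hs => hF.1 s (by omega))
  have ha : ∀ s ≤ m, |sol (Vp k p) 1 c' s| ≤ 1 / B ^ (990 * s) := by
    intro s hs
    rcases Nat.eq_zero_or_pos s with rfl | hs0
    · simp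
    · exact dec_bound hB hlam hs0 ((abs_le_nv _ s).trans (hdec s hs))
  have han : |sol (Vp k p) 1 c' (m + 1)| ≤ 1 / B ^ (990 * m) :=
    dec_bound hB hlam (by omega) ((abs_succ_le_nv _ m).trans (hdec m le_rfl))
  have h800 : (112 : ℝ) ≤ B ^ 800 := by
    have h1 : B ^ 7 ≤ B ^ 800 := pow_le_pow_right₀ hB1 (by norm_num)
    have h3 : (2 : ℝ) ^ 7 ≤ B ^ 7 := pow_le_pow_left₀ (by norm_num) hB 7
    linarith
  set τ := c - p.1 with hτ
  let g : (Fin (m + 1) → ℝ) → ℕ → ℝ := fun zh l => NN k (orb k p l) (disp B zh l)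
  let z : (Fin (m + 1) → ℝ) → ℕ → ℝ := fun zh s =>
    τ * sol (Vp k p) 1 c' s - grn (Vp k p) c' (g zh) m s
  let F : (Fin (m + 1) → ℝ) → Fin (m + 1) → ℝ := fun zh s => B ^ (900 * s.val) * z zh s
  have hg : ∀ zh l, |g zh l| ≤ 28 * B ^ 1000 / B ^ (1800 * l) := by
    intro zh l
    refine (abs_NN_le hk hSc _ _).trans ?_
    have h1 : disp B zh l ^ 2 ≤ (2 / B ^ (900 * l)) ^ 2 := by
      rw [← sq_abs]
      exact pow_le_pow_left₀ (abs_nonneg _) (abs_disp_le hB0 zh l) 2
    refine (mul_le_mul_of_nonneg_left h1 (by positivity)).trans (le_of_eq ?_)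
    field_simp
    ring
  have hg' : ∀ zh zh' l, |g zh l - g zh' l| ≤ 14 * dist zh zh' * B ^ 1000 / B ^ (1800 * l) := by
    intro zh zh' l
    refine (NN_lip hk hSc _ (abs_disp_le hB0 zh l) (abs_disp_le hB0 zh' l)).trans ?_
    refine (mul_le_mul_of_nonneg_left (disp_lip hB0 zh zh' l) (by positivity)).trans (le_of_eq ?_)
    field_simp
    ring
  have hz : ∀ zh s, s ≤ m → B ^ (900 * s) * |z zh s| ≤ 2 := by
    intro zh s hs
    have h1 := grn_bound hB hV (by norm_num) ha (fun l _ _ => hg zh l) hs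
    have h3 : B ^ (900 * s) * |τ * sol (Vp k p) 1 c' s| ≤ 1 := by
      rw [abs_mul]
      refine (mul_le_mul_of_nonneg_left (mul_le_mul hc (ha s hs) (abs_nonneg _) zero_le_one)
        (by positivity)).trans ?_
      rw [one_mul, mul_one_div, div_le_one (by positivity)]
      exact pow_le_pow_right₀ hB1 (by omega)
    have h4 : 4 * 28 / B ^ 800 ≤ 1 := by
      rw [div_le_one (by positivity)]; linarith
    refine (mul_le_mul_of_nonneg_left (abs_sub _ _) (by positivity)).trans ?_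
    rw [mul_add]
    linarith
  have hcon : ContractingWith (1 / 2) F := by
    refine ⟨by norm_num, LipschitzWith.of_dist_le_mul fun zh zh' => ?_⟩
    refine (dist_pi_le_iff (by positivity)).2 fun s => ?_
    have h1 := grn_bound hB hV (D := 14 * dist zh' zh) (by positivity) ha
      (fun l _ _ => hg' zh' zh l) (Nat.le_of_lt_succ s.2)
    have h3 : F zh s - F zh' s = B ^ (900 * s.val) *
        grn (Vp k p) c' (fun l => g zh' l - g zh l) m s := by
      rw [← grn_sub]
      simp only [F, z]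
      ring
    rw [Real.dist_eq, h3, abs_mul, abs_of_pos (pow_pos hB0 _)]
    refine h1.trans ?_
    rw [div_le_iff₀ (by positivity), dist_comm zh' zh]
    have h4 : 0 ≤ dist zh zh' := dist_nonneg
    have h5 := mul_le_mul_of_nonneg_left h800 h4
    push_cast
    linarith
  obtain ⟨zh, hzh⟩ : ∃ zh, F zh = zh := ⟨_, hcon.fixedPoint_isFixedPt⟩
  have hdz : ∀ l ≤ m, disp B zh l = z zh l := by
    intro l hl
    have hl' : l < m + 1 := Nat.lt_succ_of_le hl
    have h1 : zh ⟨l, hl'⟩ = B ^ (900 * l) * z zh l := (congrFun hzh ⟨l, hl'⟩).symm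
    have h3 : |zh ⟨l, hl'⟩| ≤ 2 := by
      rw [h1, abs_mul, abs_of_pos (pow_pos hB0 _)]
      exact hz zh l hl
    unfold disp
    rw [dif_pos hl', clamp_eq h3, h1]
    field_simp
  have hrec : ∀ i, i + 1 ≤ m → orb k p (i + 2) + z zh (i + 2) =
      phi k (orb k p (i + 1) + z zh (i + 1)) - (orb k p i + z zh i) := by
    intro i hi
    have h1 : g zh (i + 1) = NN k (orb k p (i + 1)) (z zh (i + 1)) := by
      simp only [g]
      rw [hdz _ hi]
    have h3 : z zh (i + 2) = Vp k p (i + 1) * z zh (i + 1) - z zh i + g zh (i + 1) := by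
      simp only [z]
      rw [grn_rec _ _ _ hi, sol_succ_succ]
      ring
    rw [h3, h1, orb_succ_succ, NN, Vp]
    ring
  have horb := eq_orb_of_rec (x := fun i => orb k p i + z zh i) hrec
  have h0 : orb k p 0 + z zh 0 = c := by
    simp only [z, grn_zero, orb_zero, sol_zero, hτ]
    ring
  refine ⟨orb k p 1 + z zh 1, fun l _ hl => ?_⟩
  have h1 := horb l hl
  simp only [h0] at h1
  rw [← h1, add_sub_cancel_left, Nat.add_sub_cancel]
  rcases Nat.lt_or_eq_of_le hl with hl' | rfl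
  · have hl'' : l ≤ m := Nat.le_of_lt_succ hl'
    rw [min_eq_left hl'', le_div_iff₀' (by positivity)]
    exact hz zh l hl''
  · rw [min_eq_right (Nat.le_succ m)]
    have h3 := first_sum hB hV (by norm_num) (fun l _ _ => hg zh l) (le_refl m)
    have h4 : z zh (m + 1) = sol (Vp k p) 1 c' (m + 1) *
        (τ - ∑ l ∈ Finset.Ioc 0 m, sol (Vp k p) 0 1 l * g zh l) := by
      simp only [z, grn]
      rw [min_eq_right (Nat.le_succ m), Finset.Ioc_eq_empty_of_le (Nat.le_succ m),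
        Finset.sum_empty]
      ring
    have h5 : 2 * 28 / B ^ 800 ≤ 1 := by
      rw [div_le_one (by positivity)]; linarith
    have h6 : |τ - ∑ l ∈ Finset.Ioc 0 m, sol (Vp k p) 0 1 l * g zh l| ≤ 2 :=
      (abs_sub _ _).trans (by linarith)
    rw [h4, abs_mul]
    refine (mul_le_mul han h6 (abs_nonneg _) (by positivity)).trans ?_
    rw [one_div_mul_eq_div]
    exact div_le_div_of_nonneg_left (by norm_num) (by positivity)
      (pow_le_pow_right₀ hB1 (by omega))

end Crest.Agent.R128
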