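import Crest.Agent.R128.Defs

/-! Row 128: after a matched level the next level is rarely matched. -/

set_option autoImplicit false
open MeasureTheory Real

namespace Crest.Agent.R128

namespace Mt

theorem orb_succ (k : ℝ) (p : ℝ × ℝ) {J : ℕ} (hJ : 1 ≤ J) :
    orb k p (J + 1) = phi k (orb k p J) - orb k p (J - 1) := by
  obtain ⟨n, rfl⟩ := Nat.exists_eq_add_of_le' hJ
  rfl

theorem ww_succ (k : ℝ) (p : ℝ × ℝ) {J : ℕ} (hJ : 1 ≤ J) :
    ww k p (J + 1) = pot k (orb k p J) * ww k p J - ww k p (J - 1) := by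
  obtain ⟨n, rfl⟩ := Nat.exists_eq_add_of_le' hJ
  rfl

theorem exists_half {x θ : ℝ} (h : |Real.cos (π * x)| ≤ θ) :
    ∃ M : ℤ, |x - 1 / 2 - M| ≤ θ / 2 := by
  refine ⟨round (x - 1 / 2), ?_⟩
  set e := x - 1 / 2 - round (x - 1 / 2) with he
  have h1 : |e| ≤ 1 / 2 := abs_sub_round _
  have h2 : |Real.cos (π * x)| = |Real.sin (π * e)| := by
    have : π * x = π * e + π / 2 + (round (x - 1 / 2) : ℤ) * π := by rw [he]; ring
    rw [this, Real.cos_add_int_mul_pi, abs_mul, Real.cos_add_pi_div_two, abs_neg, abs_zpow,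
      abs_neg, abs_one, one_zpow, one_mul]
  have h3 : 2 * |e| ≤ |Real.sin (π * e)| := by
    have h4 : |π * e| ≤ π / 2 := by
      rw [abs_mul, abs_of_pos Real.pi_pos]
      nlinarith [Real.pi_pos]
    have := Real.mul_abs_le_abs_sin h4
    rw [abs_mul, abs_of_pos Real.pi_pos] at this
    have h5 : 2 / π * (π * |e|) = 2 * |e| := by field_simp
    linarith
  linarith

theorem phi_add (k s e : ℝ) (M : ℤ) :
    phi k (s + e + 1 / 2 + M) + phi k s =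
      4 * s + 2 * e + 1 + 2 * M - 2 * k * Real.cos (2 * π * s + π * e) * Real.sin (π * e) := by
  have h1 : 2 * π * (s + e + 1 / 2 + M) = (2 * π * s + π * e) + π * e + π + M * (2 * π) := by ring
  have h2 : Real.sin (2 * π * s) = Real.sin ((2 * π * s + π * e) - π * e) := by
    congr 1; ring
  rw [phi, phi, h1, Real.sin_add_int_mul_two_pi, Real.sin_add_pi, h2, Real.sin_add (_ + _),
    Real.sin_sub]
  ring

theorem cos_half (s e : ℝ) (M : ℤ) :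
    |Real.cos (2 * π * s) + Real.cos (2 * π * (s + e + 1 / 2 + M))| ≤ 7 * |e| := by
  have h1 : 2 * π * (s + e + 1 / 2 + M) = (2 * π * s + 2 * π * e) + π + M * (2 * π) := by ring
  rw [h1, Real.cos_add_int_mul_two_pi, Real.cos_add_pi, ← sub_eq_add_neg]
  refine (Real.abs_cos_sub_cos_le _ _).trans ?_
  have : 2 * π * s - (2 * π * s + 2 * π * e) = -(2 * π * e) := by ring
  rw [this, abs_neg, abs_mul, abs_of_pos Real.two_pi_pos]
  nlinarith [Real.pi_lt_d2, abs_nonneg e]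

theorem phi_lip {k K : ℝ} (hk : 0 ≤ k) (hK : 2 * π * k + 3 = K) (x y : ℝ) :
    |phi k x - phi k y| ≤ K * |x - y| := by
  have h1 : phi k x - phi k y = 2 * (x - y) + k * (Real.sin (2 * π * x) - Real.sin (2 * π * y)) := by
    unfold phi; ring
  have h2 := Real.abs_sin_sub_sin_le (2 * π * x) (2 * π * y)
  rw [← mul_sub, abs_mul, abs_of_pos Real.two_pi_pos] at h2
  rw [h1]
  refine (abs_add_le _ _).trans ?_
  rw [abs_mul, abs_mul, abs_of_nonneg hk, abs_two, ← hK]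
  nlinarith [mul_le_mul_of_nonneg_left h2 hk, abs_nonneg (x - y)]

theorem phi_sign (k : ℝ) {σ : ℝ} (hσ : σ = 1 ∨ σ = -1) (x : ℝ) : σ * phi k x = phi k (σ * x) := by
  rcases hσ with rfl | rfl
  · simp
  · simp [phi]; ring

theorem cos_sign {σ : ℝ} (hσ : σ = 1 ∨ σ = -1) (x : ℝ) :
    Real.cos (2 * π * (σ * x)) = Real.cos (2 * π * x) := by
  rcases hσ with rfl | rfl <;> simp

theorem abs_sign {σ : ℝ} (hσ : σ = 1 ∨ σ = -1) (x : ℝ) : |σ * x| = |x| := by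
  rcases hσ with rfl | rfl <;> simp

theorem sign_contra {K K' η P u wR wRm um C C' : ℝ} (hP : 0 < P) (hη : 0 < η) (hK : K' + 3 = K)
    (hK' : 3 ≤ K') (hu : P / 4 ≤ |u|) (h1 : |wR + u| ≤ η / 50 * P) (hC : η ≤ |C|)
    (hCC : |C + C'| ≤ η) (hC' : |C'| ≤ 1) (h2 : |wRm| + |um| ≤ η / 50 * K * P)
    (h3 : |((2 + K' * C') * wR - wRm) + ((2 + K' * C) * u - um)| ≤ η / 50 * K * P) : False := by
  have a1 : η ≤ |C - C'| := by
    have : |2 * C| ≤ |C - C'| + |C + C'| := by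
      have h : 2 * C = (C - C') + (C + C') := by ring
      rw [h]; exact abs_add_le _ _
    rw [abs_mul, abs_two] at this
    linarith
  have a2 : K / 2 * η * (P / 4) ≤ |K' * (C - C') * u| := by
    rw [abs_mul, abs_mul, abs_of_nonneg (by linarith : 0 ≤ K')]
    refine mul_le_mul (mul_le_mul (by linarith) a1 hη.le (by linarith)) hu (by positivity) ?_
    exact mul_nonneg (by linarith) (abs_nonneg _)
  have a3 : |(2 + K' * C') * (wR + u)| ≤ K * (η / 50 * P) := by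
    rw [abs_mul]
    refine mul_le_mul ?_ h1 (abs_nonneg _) (by linarith)
    refine (abs_add_le _ _).trans ?_
    rw [abs_mul, abs_two, abs_of_nonneg (by linarith : 0 ≤ K')]
    nlinarith
  have a4 : K' * (C - C') * u = (((2 + K' * C') * wR - wRm) + ((2 + K' * C) * u - um)) -
      (2 + K' * C') * (wR + u) + wRm + um := by ring
  have a5 : |K' * (C - C') * u| ≤ |((2 + K' * C') * wR - wRm) + ((2 + K' * C) * u - um)| +
      |(2 + K' * C') * (wR + u)| + |wRm| + |um| := by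
    rw [a4]
    refine (abs_add_le _ _).trans (add_le_add_left ?_ _)
    exact (abs_add_le _ _).trans (add_le_add_left (abs_sub _ _) _)
  have a6 : 0 < K * η * P := mul_pos (mul_pos (by linarith) hη) hP
  linarith

theorem quad_shift {a b q ξ ξ' t : ℝ} (h1 : |ξ| ≤ 1 / 2) (h2 : |ξ'| ≤ 1) (h3 : |ξ - ξ'| ≤ t)
    (hb : |b| ≤ 1) (hq : |q| ≤ 1 / 2) :
    |(a + b * ξ + q * ξ ^ 2) - (a + b * ξ' + q * ξ' ^ 2)| ≤ 2 * t := by
  have : (a + b * ξ + q * ξ ^ 2) - (a + b * ξ' + q * ξ' ^ 2) = (b + q * (ξ + ξ')) * (ξ - ξ') := by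
    ring
  rw [this, abs_mul]
  refine mul_le_mul ?_ h3 (abs_nonneg _) (by norm_num)
  refine (abs_add_le _ _).trans ?_
  rw [abs_mul]
  have h4 : |ξ + ξ'| ≤ 2 := (abs_add_le _ _).trans (by linarith)
  nlinarith [abs_nonneg q, abs_nonneg (ξ + ξ')]

theorem quad_bound {a b q ξ ε : ℝ} (h1 : |ξ| ≤ 1) (ha : |a| ≤ ε / 2) (hb : |b| ≤ 2 * ε)
    (hq : |q| ≤ 5 * ε) : |a + b * ξ + q * ξ ^ 2| ≤ 8 * ε := by
  have h2 : |ξ ^ 2| ≤ 1 := by rw [abs_pow]; exact pow_le_one₀ (abs_nonneg _) h1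
  have h3 : |b * ξ| ≤ |b| := by rw [abs_mul]; exact mul_le_of_le_one_right (abs_nonneg _) h1
  have h4 : |q * ξ ^ 2| ≤ |q| := by rw [abs_mul]; exact mul_le_of_le_one_right (abs_nonneg _) h2
  have h5 := abs_add_three a (b * ξ) (q * ξ ^ 2)
  linarith [abs_nonneg a]

/-- the expansions in the rescaled variable -/
theorem expand {σ A₁ A Bq₁ Bq wL wR sL sR δ t m : ℝ} (hσ : σ = 1 ∨ σ = -1) (hw : wL ≠ 0)
    (hL : |A - A₁ - wL * (-δ) - sL * (-δ) ^ 2| ≤ t) (hR : |Bq - Bq₁ - wR * δ - sR * δ ^ 2| ≤ t) :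
    |σ * A - (σ * A₁ + (-σ * wL * δ) + σ * sL / wL ^ 2 * (-σ * wL * δ) ^ 2)| ≤ t ∧
    |(Bq - σ * A - 1 / 2 - m) - ((Bq₁ - σ * A₁ - 1 / 2 - m) +
      (wR + σ * wL) / (-σ * wL) * (-σ * wL * δ) +
      (sR - σ * sL) / wL ^ 2 * (-σ * wL * δ) ^ 2)| ≤ 2 * t := by
  have e1 : σ * A - (σ * A₁ + (-σ * wL * δ) + σ * sL / wL ^ 2 * (-σ * wL * δ) ^ 2) =
      σ * (A - A₁ - wL * (-δ) - sL * (-δ) ^ 2) := by
    rcases hσ with rfl | rfl <;> field_simp <;> ring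
  have e2 : (Bq - σ * A - 1 / 2 - m) - ((Bq₁ - σ * A₁ - 1 / 2 - m) +
      (wR + σ * wL) / (-σ * wL) * (-σ * wL * δ) +
      (sR - σ * sL) / wL ^ 2 * (-σ * wL * δ) ^ 2) =
      (Bq - Bq₁ - wR * δ - sR * δ ^ 2) - σ * (A - A₁ - wL * (-δ) - sL * (-δ) ^ 2) := by
    rcases hσ with rfl | rfl <;> field_simp <;> ring
  rw [e1, e2]
  refine ⟨by rwa [abs_sign hσ], (abs_sub _ _).trans ?_⟩
  rw [abs_sign hσ]
  linarith

/-- comparison of the mismatch with the model -/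
theorem model_close {k K ε t s e s₀ s₂ e₀ e₁ e₂ ξ n n₁ : ℝ} (M : ℤ) (hk : 0 ≤ k)
    (hK : 2 * π * k + 3 = K) (hKt : K * t ≤ ε) (hs : |s - (s₀ + ξ + s₂ * ξ ^ 2)| ≤ 3 * t)
    (he : |e - (e₀ + e₁ * ξ + e₂ * ξ ^ 2)| ≤ 4 * t) (hn : |n - n₁| ≤ 2 * ε) :
    |Real.cos (π * Dm k s₀ s₂ e₀ e₁ e₂ (4 * s₀ + 1 + 2 * M - n₁) ξ)| ≤
      |Real.cos (π * (phi k (s + e + 1 / 2 + M) + phi k s - n))| + 48 * ε := by
  have hK0 : 0 ≤ K := by rw [← hK]; positivity
  set s' := s₀ + ξ + s₂ * ξ ^ 2 with hs'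
  set e' := e₀ + e₁ * ξ + e₂ * ξ ^ 2 with he'
  have h1 : Dm k s₀ s₂ e₀ e₁ e₂ (4 * s₀ + 1 + 2 * M - n₁) ξ =
      phi k (s' + e' + 1 / 2 + M) + phi k s' - n₁ := by
    rw [phi_add, Dm, ← hs', ← he', hs']
    ring
  have h2 : |phi k (s + e + 1 / 2 + M) - phi k (s' + e' + 1 / 2 + M)| ≤ K * (7 * t) := by
    refine (phi_lip hk hK _ _).trans (mul_le_mul_of_nonneg_left ?_ hK0)
    have : s + e + 1 / 2 + M - (s' + e' + 1 / 2 + M) = (s - s') + (e - e') := by ring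
    rw [this]
    exact (abs_add_le _ _).trans (by linarith)
  have h3 : |phi k s - phi k s'| ≤ K * (3 * t) :=
    (phi_lip hk hK _ _).trans (mul_le_mul_of_nonneg_left hs hK0)
  have h4 : |(phi k (s' + e' + 1 / 2 + M) + phi k s' - n₁) -
      (phi k (s + e + 1 / 2 + M) + phi k s - n)| ≤ 12 * ε := by
    rw [abs_le] at *
    constructor <;> linarith [h2.1, h2.2, h3.1, h3.2, hn.1, hn.2]
  rw [h1]
  have h5 := Real.abs_cos_sub_cos_le (π * (phi k (s' + e' + 1 / 2 + M) + phi k s' - n₁))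
    (π * (phi k (s + e + 1 / 2 + M) + phi k s - n))
  rw [← mul_sub, abs_mul, abs_of_pos Real.pi_pos] at h5
  have h6 := abs_sub_abs_le_abs_sub (Real.cos (π * (phi k (s' + e' + 1 / 2 + M) + phi k s' - n₁)))
    (Real.cos (π * (phi k (s + e + 1 / 2 + M) + phi k s - n)))
  have h7 := mul_le_mul Real.pi_le_four h4 (abs_nonneg _) (by norm_num)
  linarith

theorem volume_rescale {c α P v : ℝ} (hP : 0 < P) (hc : P / 2 ≤ |c|) (hv : 0 ≤ v) {E S : Set ℝ}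
    (hE : volume E ≤ ENNReal.ofReal (v / 2)) (hS : ∀ y ∈ S, c * (y - α) ∈ E) :
    volume S ≤ ENNReal.ofReal (v / P) := by
  have hc0 : 0 < |c| := by linarith
  have h1 : S ⊆ (fun y => y + -α) ⁻¹' ((fun x => c * x) ⁻¹' E) := hS
  refine (measure_mono h1).trans ?_
  rw [measure_preimage_add_right, Real.volume_preimage_mul_left (abs_pos.1 hc0)]
  refine (mul_le_mul_right hE _).trans ?_
  rw [← ENNReal.ofReal_mul (abs_nonneg _)]
  refine ENNReal.ofReal_le_ofReal ?_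
  rw [abs_inv, inv_mul_le_iff₀ hc0]
  calc v / 2 = P / 2 * (v / P) := by field_simp
    _ ≤ |c| * (v / P) := mul_le_mul_of_nonneg_right hc (by positivity)

/-- small powers -/
theorem inv_pow_le {B ε : ℝ} (hε : 0 < ε) (hε1 : 10 * ε ≤ 1) (hB : 1 / ε ≤ B) {n : ℕ} (hn : n ≠ 0) :
    1 / B ^ n ≤ ε := by
  have h1 : 10 ≤ 1 / ε := by rw [le_div_iff₀ hε]; exact hε1
  have h2 : B ≤ B ^ n := le_self_pow₀ (by linarith) hn
  rw [one_div_le (by linarith) hε]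
  linarith

/-- the previous slope is smaller -/
theorem prev_le {k B η a : ℝ} {p : ℝ × ℝ} {J : ℕ} (hB : 1 ≤ B) (h : Good k B η p a J) :
    |ww k p (J - 1)| ≤ |ww k p J| := by
  have h2 := h.two_le
  refine le_trans ?_ (h.hW (J - 1) (by omega))
  exact le_mul_of_one_le_right (abs_nonneg _) (one_le_pow₀ hB)

/-- the sign of the match at the next level -/
theorem sign_next {k K η ε P σ s e wL₁ wR₁ wL wR wLm wRm wL' wR' : ℝ} (M : ℤ)
    (hσ : σ = 1 ∨ σ = -1) (hP : 0 < P) (hη : 0 < η) (hε : 0 < ε) (hεη : 1000 * ε ≤ η)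
    (hε1 : 10 * ε ≤ 1) (hK : 2 * π * k + 3 = K) (hKε : 1 ≤ K * ε)
    (hL1 : P / 2 ≤ |wL₁|) (hL2 : |wL₁| ≤ P) (hR2 : |wR₁| ≤ P) (hm : |wR₁ + σ * wL₁| ≤ ε * P)
    (hL : |wL - wL₁| ≤ ε * P) (hR : |wR - wR₁| ≤ ε * P) (hLm : |wLm| ≤ |wL|) (hRm : |wRm| ≤ |wR|)
    (hs : η ≤ |Real.cos (2 * π * s)|) (he : |e| ≤ 10 * ε)
    (eL : wL' = pot k s * wL - wLm) (eR : wR' = pot k (s + e + 1 / 2 + M) * wR - wRm)
    (bL : |wL'| ≤ K * |wL|) (bR : |wR'| ≤ K * |wR|) :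
    ¬ |wR' + σ * wL'| ≤ ε * max |wL'| |wR'| := by
  intro h
  have hK10 : 10 ≤ K := by
    have hK0 : 0 ≤ K := (mul_nonneg_iff_of_pos_right hε).1 (zero_le_one.trans hKε)
    have := mul_le_mul_of_nonneg_left hε1 hK0
    linarith
  have hεP : ε * P ≤ P / 10 := by
    have := mul_le_mul_of_nonneg_right hε1 hP.le
    linarith
  have a1 : |wL| ≤ 2 * P := by
    have := abs_sub_abs_le_abs_sub wL wL₁
    linarith
  have a2 : |wR| ≤ 2 * P := by
    have := abs_sub_abs_le_abs_sub wR wR₁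
    linarith
  have a3 : P / 4 ≤ |σ * wL| := by
    have := abs_sub_abs_le_abs_sub wL₁ wL
    rw [abs_sub_comm] at this
    rw [abs_sign hσ]
    linarith
  have hηP : 1000 * (ε * P) ≤ η * P := by
    have := mul_le_mul_of_nonneg_right hεη hP.le
    linarith
  have a4 : |wR + σ * wL| ≤ η / 50 * P := by
    have e1 : wR + σ * wL = (wR₁ + σ * wL₁) + (wR - wR₁) + σ * (wL - wL₁) := by ring
    have h5 := abs_add_three (wR₁ + σ * wL₁) (wR - wR₁) (σ * (wL - wL₁))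
    rw [abs_sign hσ, ← e1] at h5
    have : 0 < ε * P := mul_pos hε hP
    linarith
  have hKP : 0 < K * P := mul_pos (by linarith) hP
  have hεKP : 1000 * (ε * (K * P)) ≤ η * (K * P) := by
    have := mul_le_mul_of_nonneg_right hεη hKP.le
    linarith
  have hP' : P ≤ ε * (K * P) := by
    have := mul_le_mul_of_nonneg_right hKε hP.le
    linarith
  have a5 : max |wL'| |wR'| ≤ 2 * (K * P) := by
    have hK0 : 0 ≤ K := by linarith
    refine max_le (bL.trans ?_) (bR.trans ?_)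
    · linarith [mul_le_mul_of_nonneg_left a1 hK0]
    · linarith [mul_le_mul_of_nonneg_left a2 hK0]
  refine sign_contra (K := K) (K' := 2 * π * k) (u := σ * wL) (wR := wR) (wRm := wRm)
    (um := σ * wLm) (C := Real.cos (2 * π * s)) (C' := Real.cos (2 * π * (s + e + 1 / 2 + M)))
    hP hη hK (by linarith) a3 a4 hs ((cos_half s e M).trans (by linarith))
    (Real.abs_cos_le_one _) ?_ ?_
  · rw [abs_sign hσ]
    have : 0 < ε * (K * P) := mul_pos hε hKP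
    linarith
  · have e1 : (2 + 2 * π * k * Real.cos (2 * π * (s + e + 1 / 2 + M))) * wR - wRm +
        ((2 + 2 * π * k * Real.cos (2 * π * s)) * (σ * wL) - σ * wLm) = wR' + σ * wL' := by
      rw [eL, eR, pot, pot]; ring
    rw [e1]
    have h6 := mul_le_mul_of_nonneg_left a5 hε.le
    have : 0 < ε * (K * P) := mul_pos hε hKP
    linarith

end Mt

open Mt in
theorem mtch (h1 : SideStmt) (h2 : PtStmt) (h3 : ModelBStmt) : MatchStmt := by
  intro η κ hη hκ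
  obtain ⟨BS, hS⟩ := h1
  obtain ⟨BP, hPt⟩ := h2 η hη
  obtain ⟨r₀, hr₀, hM⟩ := h3
  obtain ⟨r, hr, hr1, hr2⟩ : ∃ r : ℝ, 0 < r ∧ 2 * r ≤ r₀ ∧ 2 * r ≤ 1 :=
    ⟨min (r₀ / 2) (1 / 2), by positivity, by linarith [min_le_left (r₀ / 2) (1 / 2)],
      by linarith [min_le_right (r₀ / 2) (1 / 2)]⟩
  obtain ⟨θB, θ0, hθB, hθ0, hM⟩ := hM (2 * r) (κ / 4) (by positivity) hr1 (by positivity)
  obtain ⟨ε, hε, ε1, ε2, ε3, ε4, ε5⟩ : ∃ ε : ℝ, 0 < ε ∧ ε ≤ r ∧ 5 * ε ≤ θB ∧ 100 * ε ≤ θ0 ∧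
      1000 * ε ≤ η ∧ 10 * ε ≤ 1 := by
    refine ⟨min r (min (θB / 5) (min (θ0 / 100) (min (η / 1000) (1 / 10)))), by positivity,
      min_le_left _ _, ?_⟩
    have := min_le_right r (min (θB / 5) (min (θ0 / 100) (min (η / 1000) (1 / 10))))
    simp only [le_min_iff] at this
    obtain ⟨a, b, c, d⟩ := this
    exact ⟨by linarith, by linarith, by linarith, by linarith⟩
  refine ⟨r, ε, ε, max (max BS BP) (1 / ε), hr, by linarith, hε, hε, ?_⟩
  intro k B hB hSc x₀ α₁ J J' hLev hMat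
  simp only [max_le_iff] at hB
  obtain ⟨⟨hBS, hBP⟩, hBε⟩ := hB
  have hB10 : 10 ≤ B := le_trans (by rw [le_div_iff₀ hε]; exact ε5) hBε
  have hB1 : 1 ≤ B := by linarith
  have hB0 : 0 < B := by linarith
  have p800 : 1 / B ^ 800 ≤ ε := inv_pow_le hε ε5 hBε (by norm_num)
  have p900 : 1 / B ^ 900 ≤ ε := inv_pow_le hε ε5 hBε (by norm_num)
  have p1500 : 1 / B ^ 1500 ≤ ε := inv_pow_le hε ε5 hBε (by norm_num)
  have pKt : B ^ 1000 * (1 / B ^ 1500) ≤ ε := by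
    have : B ^ 1000 * (1 / B ^ 1500) = 1 / B ^ 500 := by field_simp
    rw [this]
    exact inv_pow_le hε ε5 hBε (by norm_num)
  have pK : 1 ≤ B ^ 1000 * ε := by
    have := inv_pow_le hε ε5 hBε (n := 1000) (by norm_num)
    rwa [div_le_iff₀' (by positivity)] at this
  have hk : 0 ≤ k := by
    have h4 : B ≤ B ^ 1000 := le_self_pow₀ hB1 (by norm_num)
    have h5 : 0 ≤ 2 * π * k := by unfold Sc at hSc; linarith
    exact (mul_nonneg_iff_of_pos_left Real.two_pi_pos).1 h5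
  obtain ⟨a₁, gR₁, gL₁, -, -⟩ := hLev
  obtain ⟨σ, hσ, m1, m2⟩ := hMat
  obtain ⟨sR, hsR, hR⟩ := hS k B hBS hSc η _ _ _ gR₁
  obtain ⟨sL, hsL, hL⟩ := hS k B hBS hSc η _ _ _ gL₁
  obtain ⟨M, he₀⟩ := exists_half m2
  have hw0 : 0 < |ww k (Lf k (x₀, α₁)) J| :=
    lt_of_lt_of_le (by positivity) (hPt k B hBP hSc _ _ _ gL₁).1
  have hL2 : |ww k (Lf k (x₀, α₁)) J| ≤ PP k (x₀, α₁) J J' := le_max_left _ _
  have hR2 : |ww k (x₀, α₁) J'| ≤ PP k (x₀, α₁) J J' := le_max_right _ _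
  have hP0 : 0 < PP k (x₀, α₁) J J' := hw0.trans_le hL2
  have hL1 : PP k (x₀, α₁) J J' / 2 ≤ |ww k (Lf k (x₀, α₁)) J| := by
    have h4 := abs_sub_abs_le_abs_add (ww k (x₀, α₁) J') (σ * ww k (Lf k (x₀, α₁)) J)
    rw [abs_sign hσ] at h4
    have h5 := mul_le_mul_of_nonneg_right ε5 hP0.le
    rcases max_choice |ww k (Lf k (x₀, α₁)) J| |ww k (x₀, α₁) J'| with h6 | h6
    · have h7 : PP k (x₀, α₁) J J' = |ww k (Lf k (x₀, α₁)) J| := h6
      linarith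
    · have h7 : PP k (x₀, α₁) J J' = |ww k (x₀, α₁) J'| := h6
      linarith
  have hJ : 1 ≤ J := by have := gL₁.two_le; omega
  have hJ' : 1 ≤ J' := by have := gR₁.two_le; omega
  have hLf : ∀ α, ((Lf k (x₀, α₁)).1, (Lf k (x₀, α₁)).2 + -(α - α₁)) = Lf k (x₀, α) := by
    intro α
    simp only [Lf, Prod.mk.injEq, true_and]
    ring
  have hRf : ∀ α, (((x₀, α₁) : ℝ × ℝ).1, ((x₀, α₁) : ℝ × ℝ).2 + (α - α₁)) = (x₀, α) := by
    intro α
    simp
  generalize hP : PP k (x₀, α₁) J J' = P at *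
  generalize hwL : ww k (Lf k (x₀, α₁)) J = wL₁ at *
  generalize hwR : ww k (x₀, α₁) J' = wR₁ at *
  generalize hA : orb k (Lf k (x₀, α₁)) J = A₁ at *
  generalize hBq : orb k (x₀, α₁) J' = Bq₁ at *
  generalize hnL : orb k (Lf k (x₀, α₁)) (J - 1) = nL₁ at *
  generalize hnR : orb k (x₀, α₁) (J' - 1) = nR₁ at *
  have hσ' : -σ = 1 ∨ -σ = -1 := by rcases hσ with rfl | rfl <;> simp
  have hc : |-σ * wL₁| = |wL₁| := abs_sign hσ' _
  have hw2 : 0 < wL₁ ^ 2 := by rw [← sq_abs]; positivity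
  have hsL' : |sL| ≤ ε * wL₁ ^ 2 := by
    refine hsL.trans ?_
    rw [div_eq_mul_one_div, mul_comm]
    exact mul_le_mul_of_nonneg_right p800 hw2.le
  have hsR' : |sR| ≤ 4 * ε * wL₁ ^ 2 := by
    refine hsR.trans ?_
    have h4 : wR₁ ^ 2 ≤ 4 * wL₁ ^ 2 := by
      have h5 : |wR₁| ≤ 2 * |wL₁| := by linarith
      have h6 := pow_le_pow_left₀ (abs_nonneg _) h5 2
      rw [mul_pow, sq_abs, sq_abs] at h6
      linarith
    rw [div_eq_mul_one_div]
    calc wR₁ ^ 2 * (1 / B ^ 800) ≤ 4 * wL₁ ^ 2 * ε :=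
          mul_le_mul h4 p800 (by positivity) (by positivity)
      _ = _ := by ring
  have c1 : |σ * sL / wL₁ ^ 2| ≤ ε := by
    rw [abs_div, abs_sign hσ, abs_of_pos hw2, div_le_iff₀ hw2]
    exact hsL'
  have c2 : |(wR₁ + σ * wL₁) / (-σ * wL₁)| ≤ 2 * ε := by
    rw [abs_div, hc, div_le_iff₀ hw0]
    have := mul_le_mul_of_nonneg_left hL1 hε.le
    linarith
  have c3 : |(sR - σ * sL) / wL₁ ^ 2| ≤ 5 * ε := by
    rw [abs_div, abs_of_pos hw2, div_le_iff₀ hw2]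
    have := abs_sub sR (σ * sL)
    rw [abs_sign hσ] at this
    linarith
  have hE := hM k (σ * A₁) (σ * sL / wL₁ ^ 2) (Bq₁ - σ * A₁ - 1 / 2 - M)
    ((wR₁ + σ * wL₁) / (-σ * wL₁)) ((sR - σ * sL) / wL₁ ^ 2)
    (4 * (σ * A₁) + 1 + 2 * M - (nR₁ + σ * nL₁)) hk (by linarith) (by linarith) (by linarith)
    (by linarith)
  have e1 : κ / 4 * (2 * r) = κ * r / 2 := by ring
  rw [e1] at hE
  refine volume_rescale (c := -σ * wL₁) (α := α₁) hP0 (by rwa [hc]) (by positivity) hE ?_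
  rintro y ⟨α, hα, ⟨a, gR, gL, -, -⟩, ⟨σ', hσ'', n1, n2⟩, hy⟩
  obtain ⟨R1, R2, R3⟩ := hR (α - α₁)
    ((mul_le_mul_of_nonneg_left hR2 (abs_nonneg _)).trans (by linarith))
  obtain ⟨L1, L2, L3⟩ := hL (-(α - α₁))
    (by rw [abs_neg]; exact (mul_le_mul_of_nonneg_left hL2 (abs_nonneg _)).trans (by linarith))
  rw [hRf] at R1 R2 R3
  rw [hLf] at L1 L2 L3
  obtain ⟨x1, x2⟩ := expand (m := M) hσ (abs_pos.1 hw0) L3 R3
  have ξ1 : |-σ * wL₁ * (α - α₁)| ≤ r := by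
    rw [abs_mul, hc, mul_comm]
    exact (mul_le_mul_of_nonneg_left hL2 (abs_nonneg _)).trans hα
  have ξ2 : |-σ * wL₁ * (α - α₁) - -σ * wL₁ * (y - α₁)| ≤ 1 / B ^ 1500 := by
    have : -σ * wL₁ * (α - α₁) - -σ * wL₁ * (y - α₁) = -σ * wL₁ * -(y - α) := by ring
    rw [this, abs_mul, hc, abs_neg, mul_comm]
    exact (mul_le_mul_of_nonneg_left hL2 (abs_nonneg _)).trans hy
  have ξ3 : |-σ * wL₁ * (y - α₁)| ≤ 2 * r := by
    have := abs_sub_abs_le_abs_sub (-σ * wL₁ * (y - α₁)) (-σ * wL₁ * (α - α₁))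
    rw [abs_sub_comm] at this
    linarith
  have ξ4 : |-σ * wL₁ * (α - α₁)| ≤ 1 / 2 := by linarith
  have q1 := quad_shift (a := σ * A₁) (b := 1) (q := σ * sL / wL₁ ^ 2) ξ4
    (ξ3.trans hr2) ξ2 (by simp) (by linarith)
  have q2 := quad_shift (a := Bq₁ - σ * A₁ - 1 / 2 - M) (b := (wR₁ + σ * wL₁) / (-σ * wL₁))
    (q := (sR - σ * sL) / wL₁ ^ 2) ξ4 (ξ3.trans hr2) ξ2 (by linarith)
    (by linarith)
  have q3 := quad_bound (ξ1.trans (by linarith)) he₀ c2 c3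
  rw [one_mul, one_mul] at q1
  have bL := (hPt k B hBP hSc _ _ _ gL).2.2.2
  have bR := (hPt k B hBP hSc _ _ _ gR).2.2.2
  have pL := prev_le hB1 gL
  have pR := prev_le hB1 gR
  have cL := gL.c0
  have eL := ww_succ k (Lf k (x₀, α)) hJ
  have eR := ww_succ k (x₀, α) hJ'
  have oL := orb_succ k (Lf k (x₀, α)) hJ
  have oR := orb_succ k (x₀, α) hJ'
  unfold PP at n1
  generalize orb k (Lf k (x₀, α)) J = A at *
  generalize orb k (x₀, α) J' = Bq at *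
  have hBq' : Bq = σ * A + (Bq - σ * A - 1 / 2 - M) + 1 / 2 + M := by ring
  generalize Bq - σ * A - 1 / 2 - M = e at *
  have he : |e| ≤ 10 * ε := by
    have := abs_sub_abs_le_abs_sub e (Bq₁ - σ * A₁ - 1 / 2 - M +
      (wR₁ + σ * wL₁) / (-σ * wL₁) * (-σ * wL₁ * (α - α₁)) +
      (sR - σ * sL) / wL₁ ^ 2 * (-σ * wL₁ * (α - α₁)) ^ 2)
    linarith
  have hsign : σ' = -σ := by
    by_contra hne
    have hs : σ' = σ := by
      rcases hσ with h | h <;> rcases hσ'' with h' | h'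
      · rw [h, h']
      · exact absurd (by rw [h, h']) hne
      · exact absurd (by rw [h, h', neg_neg]) hne
      · rw [h, h']
    rw [hs] at n1
    have hd : ∀ w : ℝ, |w| ≤ P → |w| / B ^ 800 ≤ ε * P := by
      intro w hw
      rw [div_eq_mul_one_div, mul_comm]
      exact mul_le_mul p800 hw (abs_nonneg _) hε.le
    refine sign_next (s := σ * A) (e := e) M hσ hP0 hη hε ε4 ε5 hSc pK hL1 hL2 hR2 m1
      (L1.trans (hd _ hL2)) (R1.trans (hd _ hR2)) pL pR (by rwa [cos_sign hσ]) he ?_ ?_ bL bR n1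
    · rw [eL, pot, pot, cos_sign hσ]
    · rw [eR, ← hBq']
  refine ⟨ξ3, ?_⟩
  have n3 : orb k (x₀, α) (J' + 1) - σ' * orb k (Lf k (x₀, α)) (J + 1) =
      phi k (σ * A + e + 1 / 2 + M) + phi k (σ * A) -
        (orb k (x₀, α) (J' - 1) + σ * orb k (Lf k (x₀, α)) (J - 1)) := by
    rw [hsign, oL, oR, ← phi_sign k hσ, ← hBq']
    ring
  rw [n3] at n2
  refine (model_close (ε := ε) (t := 1 / B ^ 1500) (s := σ * A) (e := e)
    (n := orb k (x₀, α) (J' - 1) + σ * orb k (Lf k (x₀, α)) (J - 1)) M hk hSc pKt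
    ((abs_sub_le _ _ _).trans ((add_le_add x1 q1).trans (by linarith)))
    ((abs_sub_le _ _ _).trans ((add_le_add x2 q2).trans (by linarith))) ?_).trans (by linarith)
  have : orb k (x₀, α) (J' - 1) + σ * orb k (Lf k (x₀, α)) (J - 1) - (nR₁ + σ * nL₁) =
      (orb k (x₀, α) (J' - 1) - nR₁) + σ * (orb k (Lf k (x₀, α)) (J - 1) - nL₁) := by ring
  rw [this]
  refine (abs_add_le _ _).trans ?_
  rw [abs_sign hσ]
  linarith

end Crest.Agent.R128
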