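import Crest.Agent.R128.Defs

/-!
Row 128: three generic lemmas (maximal inequality, Taylor remainder, sublevel sets).
-/

set_option autoImplicit false
open MeasureTheory Real

namespace Crest.Agent.R128

namespace MaxAux

theorem cover_down (C : ℕ) (G : Finset ℕ) : ∀ D : Finset ℕ,
    (∀ e ∈ G, ∃ j, 1 ≤ j ∧ j ≤ C * (D.filter fun d => d ≤ e ∧ e < d + j).card) →
      G.card ≤ C * D.card := by
  induction G using Finset.strongInduction with
  | H G ih =>
    intro D h
    rcases G.eq_empty_or_nonempty with rfl | hG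
    · simp
    obtain ⟨j, hj1, hj⟩ := h _ (G.max'_mem hG)
    set e := G.max' hG with he
    have hle : ∀ g ∈ G, g ≤ e := fun g hg => G.le_max' g hg
    have hsub : G.filter (fun g => g + j ≤ e) ⊂ G := by
      refine Finset.filter_ssubset.mpr ⟨e, G.max'_mem hG, by omega⟩
    have h1 := ih _ hsub (D.filter fun d => d + j ≤ e) (by
      intro g hg
      obtain ⟨hgG, hge⟩ := Finset.mem_filter.mp hg
      obtain ⟨j', hj1', hj'⟩ := h g hgG
      refine ⟨j', hj1', hj'.trans (Nat.mul_le_mul_left _ (Finset.card_le_card ?_))⟩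
      intro d hd
      simp only [Finset.mem_filter] at hd ⊢
      exact ⟨⟨hd.1, by omega⟩, hd.2⟩)
    have h2 : G.card ≤ (G.filter fun g => g + j ≤ e).card + j := by
      rw [← Finset.card_filter_add_card_filter_not (s := G) (fun g => g + j ≤ e)]
      refine Nat.add_le_add_left ?_ _
      have : (G.filter fun g => ¬ (g + j ≤ e)) ⊆ Finset.Ico (e + 1 - j) (e + 1) := by
        intro g hg
        obtain ⟨hgG, hge⟩ := Finset.mem_filter.mp hg
        have := hle g hgG
        rw [Finset.mem_Ico]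
        omega
      refine (Finset.card_le_card this).trans ?_
      rw [Nat.card_Ico]
      omega
    have h3 : (D.filter fun d => d + j ≤ e).card + (D.filter fun d => d ≤ e ∧ e < d + j).card
        ≤ D.card := by
      rw [← Finset.card_filter_add_card_filter_not (s := D) (fun g => g + j ≤ e)]
      refine Nat.add_le_add_left (Finset.card_le_card fun d hd => ?_) _
      simp only [Finset.mem_filter] at hd ⊢
      exact ⟨hd.1, by omega⟩
    calc G.card ≤ C * (D.filter fun d => d + j ≤ e).card +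
          C * (D.filter fun d => d ≤ e ∧ e < d + j).card := by omega
      _ ≤ C * D.card := by rw [← Nat.mul_add]; exact Nat.mul_le_mul_left _ h3

theorem cover_up (C N L : ℕ) (p q : ℕ → Prop) [DecidablePred p] [DecidablePred q]
    (h : ∀ i, p i → ∃ j, 1 ≤ j ∧ j ≤ N ∧
      j ≤ C * ((Finset.range j).filter fun t => q (t + i)).card) :
    ((Finset.range L).filter p).card ≤ C * ((Finset.range (L + N)).filter q).card := by
  have key := cover_down C (((Finset.range L).filter p).image fun i => L + N - i)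
    (((Finset.range (L + N)).filter q).image fun i => L + N - i) (by
      intro e he
      obtain ⟨i, hi, rfl⟩ := Finset.mem_image.mp he
      obtain ⟨hiL, hpi⟩ := Finset.mem_filter.mp hi
      rw [Finset.mem_range] at hiL
      obtain ⟨j, hj1, hjN, hj⟩ := h i hpi
      refine ⟨j, hj1, hj.trans (Nat.mul_le_mul_left _ ?_)⟩
      refine Finset.card_le_card_of_injOn (fun t => L + N - (t + i)) ?_ ?_
      · intro t ht
        simp only [Finset.coe_filter, Finset.mem_range, Set.mem_ofPred_eq, Finset.mem_image,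
          Finset.mem_filter] at ht ⊢
        exact ⟨⟨t + i, ⟨by omega, ht.2⟩, rfl⟩, by omega, by omega⟩
      · intro t ht t' ht' htt
        simp only [Finset.coe_filter, Finset.mem_range, Set.mem_ofPred_eq] at ht ht' htt
        omega)
  rw [Finset.card_image_of_injOn, Finset.card_image_of_injOn] at key
  · exact key
  · intro t ht t' ht' htt
    simp only [Finset.coe_filter, Finset.mem_range, Set.mem_ofPred_eq] at ht ht' htt
    omega
  · intro t ht t' ht' htt
    simp only [Finset.coe_filter, Finset.mem_range, Set.mem_ofPred_eq] at ht ht' htt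
    omega

open Classical in
theorem lintegral_count {X : Type} [MeasurableSpace X] (μ : Measure X) (F : X → X)
    (hF : Measurable F) (M : Set X) (hM : MeasurableSet M) (h : ∀ i, μ (F^[i] ⁻¹' M) = μ M)
    (L : ℕ) :
    ∫⁻ x, (((Finset.range L).filter fun i => F^[i] x ∈ M).card : ENNReal) ∂μ = L * μ M := by
  have e : ∀ x, (((Finset.range L).filter fun i => F^[i] x ∈ M).card : ENNReal) =
      ∑ i ∈ Finset.range L, (F^[i] ⁻¹' M).indicator (fun _ => (1 : ENNReal)) x := by
    intro x
    rw [Finset.card_filter]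
    push_cast
    refine Finset.sum_congr rfl fun i _ => ?_
    simp [Set.indicator_apply]
  simp only [e]
  rw [lintegral_finsetSum _ fun i _ => measurable_const.indicator (hF.iterate i hM)]
  have : ∀ i, ∫⁻ x, (F^[i] ⁻¹' M).indicator (fun _ => (1 : ENNReal)) x ∂μ = μ M := fun i => by
    rw [lintegral_indicator_const (hF.iterate i hM), one_mul, h]
  simp [this]

theorem limit_ineq (m e : ENNReal) (N : ℕ) (he : e ≠ ⊤)
    (h : ∀ L : ℕ, (L : ENNReal) * m ≤ ((L + N : ℕ) : ENNReal) * e) : m ≤ e := by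
  have hm : m ≠ ⊤ := by
    have := h 1
    rw [Nat.cast_one, one_mul] at this
    exact ne_top_of_le_ne_top (ENNReal.mul_ne_top (ENNReal.natCast_ne_top _) he) this
  lift m to NNReal using hm
  lift e to NNReal using he
  have h' : ∀ L : ℕ, (L : ℝ) * m ≤ ((L : ℝ) + N) * e := fun L => by
    have := h L
    exact_mod_cast this
  rw [ENNReal.coe_le_coe, ← NNReal.coe_le_coe]
  by_contra hlt
  push Not at hlt
  obtain ⟨L, hL⟩ := exists_nat_gt ((N : ℝ) * e / ((m : ℝ) - e))
  rw [div_lt_iff₀ (by linarith)] at hL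
  have := h' L
  nlinarith

theorem schwarz {f : ℂ → ℂ} {ρ M : ℝ} (hρ : 0 < ρ) (hd : DifferentiableOn ℂ f (Metric.ball 0 ρ))
    (hM : ∀ z ∈ Metric.ball (0 : ℂ) ρ, ‖f z‖ ≤ M) :
    DifferentiableOn ℂ (dslope f 0) (Metric.ball 0 ρ) ∧
      ∀ z ∈ Metric.ball (0 : ℂ) ρ, ‖dslope f 0 z‖ ≤ 2 * M / ρ := by
  refine ⟨(Complex.differentiableOn_dslope (Metric.ball_mem_nhds 0 hρ)).mpr hd, fun z hz => ?_⟩
  refine Complex.norm_dslope_le_div_of_mapsTo_ball hd (fun w hw => ?_) hz
  rw [Metric.mem_closedBall, dist_eq_norm]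
  have h0 := hM 0 (Metric.mem_ball_self hρ)
  have h1 := hM w hw
  have := norm_sub_le (f w) (f 0)
  linarith

theorem space_aux (a b c s : ℝ) (hs : 0 < s) (l : ℕ) : ∀ (f : ℕ → ℝ → ℝ) (δ : ℝ) (x : ℕ → ℝ),
    (∀ i < l, ∀ x ∈ Set.Icc a b, HasDerivAt (f i) (f (i + 1) x) x) →
    (∀ x ∈ Set.Icc a b, c ≤ |f l x|) → (∀ i < 2 ^ l, x i ∈ Set.Icc a b ∧ |f 0 (x i)| ≤ δ) →
    (∀ i, i + 1 < 2 ^ l → x i + s ≤ x (i + 1)) → c ≤ δ * (2 / s) ^ l := by
  induction l with
  | zero =>
    intro f δ x _ hc hx _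
    have := hx 0 (by simp)
    simpa using (hc _ this.1).trans this.2
  | succ l ih =>
    intro f δ x hd hc hx hg
    have key : ∀ i, ∃ y, i < 2 ^ l → y ∈ Set.Ioo (x (2 * i)) (x (2 * i + 1)) ∧
        |f 1 y| ≤ δ * (2 / s) := by
      intro i
      by_cases hi : i < 2 ^ l
      · have h0 := hx (2 * i) (by rw [pow_succ]; omega)
        have h1 := hx (2 * i + 1) (by rw [pow_succ]; omega)
        have h2 := hg (2 * i) (by rw [pow_succ]; omega)
        have hsub : Set.Icc (x (2 * i)) (x (2 * i + 1)) ⊆ Set.Icc a b :=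
          Set.Icc_subset_Icc h0.1.1 h1.1.2
        obtain ⟨y, hy, hy'⟩ := exists_hasDerivAt_eq_slope (f 0) (f 1) (a := x (2 * i))
          (b := x (2 * i + 1)) (by linarith)
          (fun t ht => (hd 0 (by omega) t (hsub ht)).continuousAt.continuousWithinAt)
          (fun t ht => hd 0 (by omega) t (hsub (Set.Ioo_subset_Icc_self ht)))
        refine ⟨y, fun _ => ⟨hy, ?_⟩⟩
        have hδ : 0 ≤ δ := (abs_nonneg _).trans h0.2
        rw [hy', abs_div, abs_of_pos (show 0 < x (2 * i + 1) - x (2 * i) by linarith),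
          show δ * (2 / s) = (δ + δ) / s by ring]
        refine div_le_div₀ (by linarith) ((abs_sub _ _).trans (add_le_add h1.2 h0.2)) hs ?_
        linarith
      · exact ⟨0, fun h => absurd h hi⟩
    choose y hy using key
    have := ih (fun i => f (i + 1)) (δ * (2 / s)) y (fun i hi t ht => hd (i + 1) (by omega) t ht)
      hc (fun i hi => ?_) (fun i hi => ?_)
    · rw [pow_succ]
      linarith
    · have h0 := hx (2 * i) (by rw [pow_succ]; omega)
      have h1 := hx (2 * i + 1) (by rw [pow_succ]; omega)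
      obtain ⟨⟨h2, h3⟩, h4⟩ := hy i hi
      exact ⟨⟨by linarith [h0.1.1], by linarith [h1.1.2]⟩, h4⟩
    · have h2 := hg (2 * i + 1) (by rw [pow_succ]; omega)
      obtain ⟨⟨-, h3⟩, -⟩ := hy i (by omega)
      obtain ⟨⟨h4, -⟩, -⟩ := hy (i + 1) hi
      rw [show 2 * (i + 1) = 2 * i + 1 + 1 by ring] at h4
      linarith

end MaxAux

open MaxAux

theorem maxi : MaxStmt := by
  classical
  refine ⟨fun μ F M E C N hF hM hE hμM hμE h => ?_, fun D G C h => cover_down C G D h⟩
  by_cases hC : C = 0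
  · have : M = ∅ := by
      refine Set.eq_empty_of_forall_notMem fun x hx => ?_
      obtain ⟨j, hj1, -, hj⟩ := h x hx
      rw [hC] at hj
      omega
    simp [this]
  by_cases hT : μ E = ⊤
  · rw [hT, ENNReal.mul_top (by exact_mod_cast hC)]
    exact le_top
  refine limit_ineq _ _ N (ENNReal.mul_ne_top (ENNReal.natCast_ne_top _) hT) fun L => ?_
  rw [← lintegral_count μ F hF M hM hμM L, mul_left_comm, ← lintegral_count μ F hF E hE hμE (L + N),
    ← lintegral_const_mul' _ _ (ENNReal.natCast_ne_top _)]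
  refine lintegral_mono fun x => ?_
  have := cover_up C N L (fun i => F^[i] x ∈ M) (fun i => F^[i] x ∈ E) (fun i hi => by
    obtain ⟨j, hj1, hjN, hj⟩ := h _ hi
    refine ⟨j, hj1, hjN, ?_⟩
    simp only [Function.iterate_add_apply]
    convert hj)
  have h2 : ∀ a b : ℕ, a ≤ C * b → (a : ENNReal) ≤ C * (b : ENNReal) := fun a b hab => by
    exact_mod_cast hab
  exact h2 _ _ (by convert this)

theorem taylor : TaylorStmt := by
  intro f ρ M hρ hd hM
  obtain ⟨d1, b1⟩ := schwarz hρ hd hM
  obtain ⟨d2, b2⟩ := schwarz hρ d1 b1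
  obtain ⟨-, b3⟩ := schwarz hρ d2 b2
  refine ⟨f 0, dslope f 0 0, dslope (dslope f 0) 0 0, fun z hz => ?_⟩
  have e1 := sub_smul_dslope f 0 z
  have e2 := sub_smul_dslope (dslope f 0) 0 z
  have e3 := sub_smul_dslope (dslope (dslope f 0) 0) 0 z
  simp only [sub_zero, smul_eq_mul] at e1 e2 e3
  have e : f z - (f 0 + dslope f 0 0 * z + dslope (dslope f 0) 0 0 * z ^ 2) =
      z ^ 3 * dslope (dslope (dslope f 0) 0) 0 z := by
    linear_combination - e1 - z * e2 - z ^ 2 * e3
  have hM0 : 0 ≤ M := (norm_nonneg _).trans (hM 0 (Metric.mem_ball_self hρ))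
  rw [e, norm_mul, norm_pow]
  calc ‖z‖ ^ 3 * ‖dslope (dslope (dslope f 0) 0) 0 z‖
      ≤ ‖z‖ ^ 3 * (2 * (2 * (2 * M / ρ) / ρ) / ρ) :=
        mul_le_mul_of_nonneg_left (b3 z hz) (by positivity)
    _ = 8 * M * (‖z‖ / ρ) ^ 3 := by field_simp; ring
    _ ≤ 27 * M * (‖z‖ / ρ) ^ 3 := by gcongr; norm_num

theorem space : SpaceStmt := by
  classical
  intro f l a b c δ s hs hδ hd hc hlt
  by_contra H
  push Not at H
  have key : ∀ n ≤ 2 ^ l, ∃ F : Finset ℝ, F.card = n ∧ (∀ x ∈ F, x ∈ Set.Icc a b ∧ |f 0 x| ≤ δ) ∧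
      ∀ x ∈ F, ∀ y ∈ F, x ≠ y → s < |x - y| := by
    intro n
    induction n with
    | zero => exact fun _ => ⟨∅, rfl, by simp, by simp⟩
    | succ n ih =>
      intro hn
      obtain ⟨F, hF, hF1, hF2⟩ := ih (by omega)
      obtain ⟨x, hx, hx1, hx2⟩ := H F (by omega)
      have hxF : x ∉ F := fun h => by
        have := hx2 x h
        simp at this
        linarith
      refine ⟨insert x F, by rw [Finset.card_insert_of_notMem hxF, hF], ?_, ?_⟩
      · intro y hy
        rcases Finset.mem_insert.mp hy with rfl | hy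
        exacts [⟨hx, hx1⟩, hF1 y hy]
      · intro y hy z hz hyz
        rcases Finset.mem_insert.mp hy with rfl | hy' <;>
          rcases Finset.mem_insert.mp hz with rfl | hz'
        · exact absurd rfl hyz
        · exact hx2 z hz'
        · rw [abs_sub_comm]
          exact hx2 y hy'
        · exact hF2 y hy' z hz' hyz
  obtain ⟨F, hF, hF1, hF2⟩ := key _ le_rfl
  let e := F.orderEmbOfFin hF
  have := space_aux a b c s hs l f δ (fun i => if h : i < 2 ^ l then e ⟨i, h⟩ else 0) hd hc
    (fun i hi => by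
      rw [dif_pos hi]
      exact hF1 _ (F.orderEmbOfFin_mem hF _))
    (fun i hi => by
      have hi' : i < 2 ^ l := by omega
      rw [dif_pos hi, dif_pos hi']
      have h1 : e ⟨i, hi'⟩ < e ⟨i + 1, hi⟩ := e.strictMono (by simp [Fin.lt_def])
      have h2 := hF2 _ (F.orderEmbOfFin_mem hF ⟨i + 1, hi⟩) _ (F.orderEmbOfFin_mem hF ⟨i, hi'⟩)
        h1.ne'
      rw [abs_of_pos (by linarith)] at h2
      linarith)
  linarith

end Crest.Agent.R128
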