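import Crest.Agent.R128.Defs

/-! Row 128: periodic sets, invariance of area. -/

set_option autoImplicit false
open MeasureTheory Real

namespace Crest.Agent.R128

namespace MeasAux

/-! ### One-dimensional periodic sets -/

lemma vol_Ioc {S : Set ℝ} (hS : MeasurableSet S) (hp : ∀ x ∈ S, ∀ n : ℤ, x + n ∈ S) (a b : ℝ) :
    volume (S ∩ Set.Ioc a (a + 1)) = volume (S ∩ Set.Ioc b (b + 1)) := by
  refine (isAddFundamentalDomain_Ioc one_pos a).measure_set_eq
    (isAddFundamentalDomain_Ioc one_pos b) hS fun g => ?_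
  obtain ⟨g, n, rfl⟩ := g
  ext x
  have e : (⟨n • (1 : ℝ), n, rfl⟩ : AddSubgroup.zmultiples (1 : ℝ)) +ᵥ x = x + n := by
    show n • (1 : ℝ) + x = x + n
    rw [zsmul_eq_mul, mul_one, add_comm]
  simp only [Set.mem_preimage, e]
  refine ⟨fun h => ?_, fun h => hp x h n⟩
  simpa using hp _ h (-n)

lemma vol_Ico_Ioc (S : Set ℝ) (a b : ℝ) : volume (S ∩ Set.Ico a b) = volume (S ∩ Set.Ioc a b) :=
  measure_congr (ae_eq_set_inter (ae_eq_refl _) Ico_ae_eq_Ioc)

lemma vol_Ioc' {S : Set ℝ} (hS : MeasurableSet S) (hp : ∀ x ∈ S, ∀ n : ℤ, x + n ∈ S) (a : ℝ) :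
    volume (S ∩ Set.Ioc a (a + 1)) = volume (S ∩ Set.Ico 0 1) := by
  rw [vol_Ico_Ioc, vol_Ioc hS hp a 0, zero_add]

lemma vol_refl {S : Set ℝ} (hS : MeasurableSet S) (hp : ∀ x ∈ S, ∀ n : ℤ, x + n ∈ S) (c : ℝ) :
    volume ((fun y => c - y) ⁻¹' S ∩ Set.Ico 0 1) = volume (S ∩ Set.Ico 0 1) := by
  have e : (fun y => c - y) ⁻¹' S ∩ Set.Ico 0 1 =
      (fun y => c - y) ⁻¹' (S ∩ Set.Ioc (c - 1) (c - 1 + 1)) := by
    ext y
    simp only [Set.mem_inter_iff, Set.mem_preimage, Set.mem_Ico, Set.mem_Ioc]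
    refine and_congr_right fun _ => ⟨fun h => ⟨by linarith [h.2], by linarith [h.1]⟩,
      fun h => ⟨by linarith [h.2], by linarith [h.1]⟩⟩
  rw [e, (Measure.measurePreserving_sub_left volume c).measure_preimage
    (hS.inter measurableSet_Ioc).nullMeasurableSet, vol_Ioc' hS hp]

lemma vol_Icc_le {S : Set ℝ} (hS : MeasurableSet S) (hp : ∀ x ∈ S, ∀ n : ℤ, x + n ∈ S) (a : ℝ)
    (n : ℕ) : volume (S ∩ Set.Icc a (a + n)) ≤ n * volume (S ∩ Set.Ico 0 1) := by
  induction n with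
  | zero =>
    rw [Nat.cast_zero, Nat.cast_zero, zero_mul, add_zero, Set.Icc_self]
    exact (measure_mono Set.inter_subset_right).trans (by simp)
  | succ n ih =>
    have h : S ∩ Set.Icc a (a + (n + 1 : ℕ)) ⊆
        S ∩ Set.Icc a (a + n) ∪ S ∩ Set.Ioc (a + n) (a + n + 1) := by
      rintro x ⟨h1, h2, h3⟩
      rcases le_or_gt x (a + n) with h4 | h4
      · exact Or.inl ⟨h1, h2, h4⟩
      · refine Or.inr ⟨h1, h4, ?_⟩
        push_cast at h3
        linarith
    refine (measure_mono h).trans ((measure_union_le _ _).trans ?_)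
    rw [vol_Ioc' hS hp, Nat.cast_succ, add_mul, one_mul]
    gcongr

/-! ### The area of the unit square -/

lemma nu_eq : nu = (volume.restrict (Set.Ico (0 : ℝ) 1)).prod (volume.restrict (Set.Ico (0 : ℝ) 1)) := by
  rw [Measure.prod_restrict]
  rfl

lemma nu_apply {A : Set (ℝ × ℝ)} (hA : MeasurableSet A) :
    nu A = ∫⁻ x in Set.Ico (0 : ℝ) 1, volume (Prod.mk x ⁻¹' A ∩ Set.Ico 0 1) := by
  rw [nu_eq, Measure.prod_apply hA]
  exact lintegral_congr fun x => Measure.restrict_apply' measurableSet_Ico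

lemma sec_per {A : Set (ℝ × ℝ)} (hp : Per A) (x : ℝ) :
    ∀ y ∈ Prod.mk x ⁻¹' A, ∀ n : ℤ, y + n ∈ Prod.mk x ⁻¹' A := fun y hy n => by
  simpa using hp (x, y) hy 0 n

lemma phi_add_int (k x : ℝ) (m : ℤ) : phi k (x + m) = phi k x + 2 * m := by
  have e : 2 * π * (x + m) = 2 * π * x + m * (2 * π) := by ring
  rw [phi, phi, e, Real.sin_add_int_mul_two_pi]
  ring

lemma cos_add_int (x : ℝ) (m : ℤ) : Real.cos (2 * π * (x + m)) = Real.cos (2 * π * x) := by
  have e : 2 * π * (x + m) = 2 * π * x + m * (2 * π) := by ring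
  rw [e, Real.cos_add_int_mul_two_pi]

lemma pot_add_int (k x : ℝ) (m : ℤ) : pot k (x + m) = pot k x := by
  rw [pot, pot, cos_add_int]

lemma continuous_phi (k : ℝ) : Continuous (phi k) := by unfold phi; fun_prop

lemma continuous_pot (k : ℝ) : Continuous (pot k) := by unfold pot; fun_prop

lemma continuous_Lf (k : ℝ) : Continuous (Lf k) :=
  continuous_fst.prodMk (((continuous_phi k).comp continuous_fst).sub continuous_snd)

lemma Lf_add_int (k : ℝ) (p : ℝ × ℝ) (m n : ℤ) :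
    Lf k (p.1 + m, p.2 + n) = ((Lf k p).1 + m, (Lf k p).2 + (2 * m - n : ℤ)) := by
  simp only [Lf, phi_add_int]
  push_cast
  congr 1
  ring

lemma nu_Lf (k : ℝ) {A : Set (ℝ × ℝ)} (hA : MeasurableSet A) (hp : Per A) :
    nu (Lf k ⁻¹' A) = nu A := by
  rw [nu_apply hA, nu_apply ((continuous_Lf k).measurable hA)]
  exact lintegral_congr fun x => vol_refl (measurable_prodMk_left hA) (sec_per hp x) (phi k x)

lemma per_Lf (k : ℝ) {A : Set (ℝ × ℝ)} (hp : Per A) : Per (Lf k ⁻¹' A) := fun p h m n => by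
  rw [Set.mem_preimage, Lf_add_int]
  exact hp _ h _ _

lemma nu_swap {A : Set (ℝ × ℝ)} (hA : MeasurableSet A) : nu (Prod.swap ⁻¹' A) = nu A := by
  rw [nu_eq]
  exact Measure.measurePreserving_swap.measure_preimage hA.nullMeasurableSet

lemma per_swap {A : Set (ℝ × ℝ)} (hp : Per A) : Per (Prod.swap ⁻¹' A) := fun p h m n =>
  hp p.swap h n m

lemma T_eq (k : ℝ) (A : Set (ℝ × ℝ)) : T k ⁻¹' A = Prod.swap ⁻¹' (Lf k ⁻¹' A) := rfl

lemma Ti_eq (k : ℝ) (A : Set (ℝ × ℝ)) : Ti k ⁻¹' A = Lf k ⁻¹' (Prod.swap ⁻¹' A) := rfl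

/-! ### Orbits and solutions -/

lemma continuous_orb (k : ℝ) : ∀ n, Continuous fun p => orb k p n
  | 0 => continuous_fst
  | 1 => continuous_snd
  | n + 2 => ((continuous_phi k).comp (continuous_orb k (n + 1))).sub (continuous_orb k n)

lemma continuous_sol {X : Type} [TopologicalSpace X] {V : X → ℕ → ℝ} {a b : X → ℝ}
    (hV : ∀ n, Continuous fun x => V x n) (ha : Continuous a) (hb : Continuous b) :
    ∀ n, Continuous fun x => sol (V x) (a x) (b x) n
  | 0 => ha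
  | 1 => hb
  | n + 2 => ((hV (n + 1)).mul (continuous_sol hV ha hb (n + 1))).sub (continuous_sol hV ha hb n)

lemma continuous_Vp (k : ℝ) (n : ℕ) : Continuous fun p => Vp k p n :=
  (continuous_pot k).comp (continuous_orb k n)

lemma continuous_ww (k : ℝ) (n : ℕ) : Continuous fun p => ww k p n :=
  continuous_sol (continuous_Vp k) continuous_const continuous_const n

lemma orb_add_int (k : ℝ) (p : ℝ × ℝ) (m n : ℤ) :
    ∀ i, ∃ j : ℤ, orb k (p.1 + m, p.2 + n) i = orb k p i + j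
  | 0 => ⟨m, rfl⟩
  | 1 => ⟨n, rfl⟩
  | i + 2 => by
    obtain ⟨j₁, h₁⟩ := orb_add_int k p m n (i + 1)
    obtain ⟨j₀, h₀⟩ := orb_add_int k p m n i
    refine ⟨2 * j₁ - j₀, ?_⟩
    rw [orb, orb, h₁, h₀, phi_add_int]
    push_cast
    ring

lemma cos_orb_add_int (k : ℝ) (p : ℝ × ℝ) (m n : ℤ) (i : ℕ) :
    Real.cos (2 * π * orb k (p.1 + m, p.2 + n) i) = Real.cos (2 * π * orb k p i) := by
  obtain ⟨j, h⟩ := orb_add_int k p m n i
  rw [h, cos_add_int]

lemma Vp_add_int (k : ℝ) (p : ℝ × ℝ) (m n : ℤ) : Vp k (p.1 + m, p.2 + n) = Vp k p := by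
  funext i
  rw [Vp, Vp, pot, pot, cos_orb_add_int]

lemma Dec_add_int {k η : ℝ} {p : ℝ × ℝ} {a : ℝ} {h : ℕ} (hd : Dec k η p a h) (m n : ℤ) :
    Dec k η (p.1 + m, p.2 + n) a h := by
  simpa only [Dec, uu, Vp_add_int, cos_orb_add_int] using hd

open Classical in
lemma isClosed_card {X : Type} [TopologicalSpace X] (s : Finset ℕ) {P : ℕ → X → Prop}
    (hP : ∀ i, IsClosed {x | P i x}) (c h : ℕ) :
    IsClosed {x | c * (s.filter fun i => ¬ P i x).card ≤ h} := by
  refine isOpen_compl_iff.1 (isOpen_iff_mem_nhds.2 fun x hx => ?_)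
  have h1 : ∀ᶠ y in nhds x, ∀ i ∈ s.filter fun i => ¬ P i x, ¬ P i y :=
    (Filter.eventually_all_finset _).2 fun i hi =>
      (hP i).isOpen_compl.mem_nhds (Finset.mem_filter.1 hi).2
  filter_upwards [h1] with y hy hy'
  refine hx (le_trans (Nat.mul_le_mul_left c (Finset.card_le_card fun i hi => ?_)) hy')
  exact Finset.mem_filter.2 ⟨(Finset.mem_filter.1 hi).1, hy i hi⟩

lemma isClosed_Dec (k η : ℝ) {X : Type} [TopologicalSpace X] {p : X → ℝ × ℝ} {a : X → ℝ}
    (hp : Continuous p) (ha : Continuous a) (h : ℕ) : IsClosed {x | Dec k η (p x) (a x) h} := by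
  have hu : ∀ i, Continuous fun x => uu k (p x) (a x) i :=
    continuous_sol (fun n => (continuous_Vp k n).comp hp) continuous_const ha
  have ho : ∀ i, Continuous fun x => orb k (p x) i := fun i => (continuous_orb k i).comp hp
  have h1 := isClosed_card (Finset.Icc 1 h) (P := fun i x =>
    |uu k (p x) (a x) (i + 1)| ≤ |uu k (p x) (a x) i| ∧ η ≤ |Real.cos (2 * π * orb k (p x) i)|)
    (fun i => (isClosed_le (hu (i + 1)).abs (hu i).abs).inter
      (isClosed_le continuous_const (Real.continuous_cos.comp (continuous_const.mul (ho i))).abs))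
    100000 h
  unfold Dec
  convert h1

lemma isClosed_Res (k η : ℝ) (h : ℕ) : IsClosed (Res k η h) := by
  have ha : Continuous fun q : (ℝ × ℝ) × Set.Icc (-1 : ℝ) 1 => (q.2 : ℝ) :=
    continuous_subtype_val.comp continuous_snd
  have hb : Continuous fun q : (ℝ × ℝ) × Set.Icc (-1 : ℝ) 1 => pot k q.1.1 - q.2 :=
    ((continuous_pot k).comp (continuous_fst.comp continuous_fst)).sub ha
  have h1 := isClosedMap_fst_of_compactSpace _
    ((isClosed_le hb.abs (continuous_const (y := (1 : ℝ)))).inter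
      ((isClosed_Dec k η continuous_fst ha h).inter
        (isClosed_Dec k η ((continuous_Lf k).comp continuous_fst) hb h)))
  convert h1 using 1
  ext p
  constructor
  · rintro ⟨a, h1, h2, h3, h4⟩
    exact ⟨(p, ⟨a, abs_le.1 h1⟩), ⟨h2, h3, h4⟩, rfl⟩
  · rintro ⟨⟨q, a⟩, ⟨h2, h3, h4⟩, rfl⟩
    exact ⟨a, abs_le.2 a.2, h2, h3, h4⟩

lemma per_Res (k η : ℝ) (h : ℕ) : Per (Res k η h) := by
  rintro p ⟨a, h1, h2, h3, h4⟩ m n
  refine ⟨a, h1, ?_, Dec_add_int h3 m n, ?_⟩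
  · rwa [pot_add_int]
  · rw [pot_add_int, Lf_add_int]
    exact Dec_add_int h4 _ _

/-! ### Critical sites -/

lemma abs_cos_ge {x c : ℝ} (hc : ∀ y, |Real.cos (2 * π * (c + y))| = |Real.sin (2 * π * y)|)
    (hx : |x - c| ≤ 1 / 4) : 4 * |x - c| ≤ |Real.cos (2 * π * x)| := by
  have h1 := hc (x - c)
  rw [add_sub_cancel] at h1
  have h2 : |2 * π * (x - c)| = 2 * π * |x - c| := by
    rw [abs_mul, abs_of_pos Real.two_pi_pos]
  have h3 := Real.mul_abs_le_abs_sin (x := 2 * π * (x - c)) (by rw [h2]; nlinarith [Real.pi_pos])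
  rw [h1]
  refine le_trans (le_of_eq ?_) h3
  rw [h2]
  field_simp
  ring

lemma nu_Crit (η : ℝ) (hm : MeasurableSet (Crit η)) : nu (Crit η) ≤ ENNReal.ofReal η := by
  have c1 : ∀ y, |Real.cos (2 * π * (1 / 4 + y))| = |Real.sin (2 * π * y)| := fun y => by
    rw [show 2 * π * (1 / 4 + y) = 2 * π * y + π / 2 by ring, Real.cos_add_pi_div_two, abs_neg]
  have c2 : ∀ y, |Real.cos (2 * π * (3 / 4 + y))| = |Real.sin (2 * π * y)| := fun y => by
    rw [show 2 * π * (3 / 4 + y) = 2 * π * y + π / 2 + π by ring, Real.cos_add_pi, abs_neg,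
      Real.cos_add_pi_div_two, abs_neg]
  have h : Crit η ∩ Q ⊆ (Set.Ioo (1 / 4 - η / 4) (1 / 4 + η / 4) ∪
      Set.Ioo (3 / 4 - η / 4) (3 / 4 + η / 4)) ×ˢ Set.Ico (0 : ℝ) 1 := by
    rintro p ⟨h1, ⟨h2, h3⟩, h4⟩
    refine ⟨?_, h4⟩
    have h1' : |Real.cos (2 * π * p.1)| < η := h1
    rcases le_total p.1 (1 / 2) with h5 | h5
    · have h6 := abs_cos_ge c1 (x := p.1) (abs_le.2 ⟨by linarith, by linarith⟩)
      have h7 := abs_lt.1 (show |p.1 - 1 / 4| < η / 4 by linarith)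
      exact Or.inl ⟨by linarith [h7.1], by linarith [h7.2]⟩
    · have h6 := abs_cos_ge c2 (x := p.1) (abs_le.2 ⟨by linarith, by linarith⟩)
      have h7 := abs_lt.1 (show |p.1 - 3 / 4| < η / 4 by linarith)
      exact Or.inr ⟨by linarith [h7.1], by linarith [h7.2]⟩
  rw [nu, Measure.restrict_apply hm]
  refine (measure_mono h).trans ?_
  rw [Measure.volume_eq_prod, Measure.prod_prod, Real.volume_Ico, sub_zero, ENNReal.ofReal_one,
    mul_one]
  refine (measure_union_le _ _).trans ?_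
  rw [Real.volume_Ioo, Real.volume_Ioo, show 1 / 4 + η / 4 - (1 / 4 - η / 4) = η / 2 by ring,
    show 3 / 4 + η / 4 - (3 / 4 - η / 4) = η / 2 by ring]
  rcases le_total 0 η with h0 | h0
  · rw [← ENNReal.ofReal_add (by linarith) (by linarith), add_halves]
  · rw [ENNReal.ofReal_of_nonpos (by linarith), add_zero]
    exact zero_le

lemma exists_sec {A : Set (ℝ × ℝ)} (hA : MeasurableSet A) (hp : Per A) :
    ∃ c ∈ Set.Ico (0 : ℝ) 1, volume ({d : ℝ | (c, d) ∈ A} ∩ Set.Icc (-3) 4) ≤ 7 * nu A := by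
  have hm : Measurable fun x : ℝ => volume (Prod.mk x ⁻¹' A ∩ Set.Ico (0 : ℝ) 1) := by
    have h := measurable_measure_prodMk_left (ν := volume.restrict (Set.Ico (0 : ℝ) 1)) hA
    simpa only [Measure.restrict_apply' measurableSet_Ico] using h
  obtain ⟨c, hc, h⟩ := exists_le_setLAverage (μ := volume) (s := Set.Ico (0 : ℝ) 1) (by simp)
    (by simp) hm.aemeasurable
  rw [setLAverage_eq, ← nu_apply hA, Real.volume_Ico, sub_zero, ENNReal.ofReal_one, div_one] at h
  refine ⟨c, hc, ?_⟩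
  have h1 := vol_Icc_le (measurable_prodMk_left hA) (sec_per hp c) (-3) 7
  rw [show (-3 : ℝ) + (7 : ℕ) = 4 by norm_num, Nat.cast_ofNat] at h1
  exact h1.trans (by gcongr)

lemma vol_zero {A : Set (ℝ × ℝ)} (hp : Per A) (h0 : nu A = 0) : volume A = 0 := by
  have hQ : MeasurableSet Q := measurableSet_Ico.prod measurableSet_Ico
  rw [nu, Measure.restrict_apply' hQ] at h0
  have h : A ⊆ ⋃ v : ℤ × ℤ, (fun p => p + ((v.1 : ℝ), (v.2 : ℝ))) ⁻¹' (A ∩ Q) := fun p h => by
    refine Set.mem_iUnion.2 ⟨(-⌊p.1⌋, -⌊p.2⌋), hp p h _ _, ?_, ?_⟩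
    · simp only [Prod.fst_add, Int.cast_neg, ← sub_eq_add_neg]
      exact ⟨Int.fract_nonneg _, Int.fract_lt_one _⟩
    · simp only [Prod.snd_add, Int.cast_neg, ← sub_eq_add_neg]
      exact ⟨Int.fract_nonneg _, Int.fract_lt_one _⟩
  refine measure_mono_null h (measure_iUnion_null fun v => ?_)
  rw [measure_preimage_add_right, h0]

end MeasAux

open MeasAux

theorem meas : MeasStmt := by
  refine ⟨fun k A hA hp => ⟨⟨?_, ?_⟩, ⟨?_, ?_⟩, nu_swap hA, per_swap hp⟩, fun k => ⟨?_, ?_⟩,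
    fun k lam N => ⟨?_, ?_⟩, fun η => ?_, fun k η h => ⟨isClosed_Res k η h, per_Res k η h⟩,
    fun A hA hp => exists_sec hA hp, fun A hp h0 => vol_zero hp h0⟩
  · rw [T_eq, nu_swap ((continuous_Lf k).measurable hA), nu_Lf k hA hp]
  · exact per_swap (per_Lf k hp)
  · rw [Ti_eq, nu_Lf k (measurable_swap hA) (per_swap hp), nu_swap hA]
  · exact per_Lf k (per_swap hp)
  · exact (continuous_Lf k).comp continuous_swap
  · exact continuous_swap.comp (continuous_Lf k)
  · have e : Fail k lam N = ⋃ s, ⋃ (_ : s ≤ N), {p | nv (ww k p) s < lam ^ s} := by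
      ext p
      simp only [Fail, Set.mem_ofPred_eq, Set.mem_iUnion, exists_prop]
    rw [e]
    exact isOpen_iUnion fun s => isOpen_iUnion fun _ =>
      isOpen_lt ((continuous_ww k s).abs.max (continuous_ww k (s + 1)).abs) continuous_const
  · rintro p ⟨s, hs, h⟩ m n
    refine ⟨s, hs, ?_⟩
    rwa [ww, Vp_add_int]
  · have ho : IsOpen (Crit η) := isOpen_lt (by fun_prop) continuous_const
    refine ⟨ho, fun p h m n => ?_, nu_Crit η ho.measurableSet⟩
    show |Real.cos (2 * π * (p.1 + m))| < η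
    rwa [cos_add_int]

end Crest.Agent.R128
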