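import Crest.Agent.R128.Defs

/-!
Row 128: two secants do not cancel modulo quadratics unless they are matched.
-/

set_option autoImplicit false
open MeasureTheory Real Filter Topology

namespace Crest.Agent.R128

namespace ModelA

/-- The derivatives of the secant in terms of `y = sec`, `z = tan`. -/
def S (l : ℕ) (y z : ℝ) : ℝ :=
  if l = 0 then y else if l = 1 then y * z else if l = 2 then y * z ^ 2 + y ^ 3
  else if l = 3 then y * z ^ 3 + 5 * (y ^ 3 * z)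
  else if l = 4 then y * z ^ 4 + 18 * (y ^ 3 * z ^ 2) + 5 * y ^ 5
  else if l = 5 then y * z ^ 5 + 58 * (y ^ 3 * z ^ 3) + 61 * (y ^ 5 * z)
  else y * z ^ 6 + 179 * (y ^ 3 * z ^ 4) + 479 * (y ^ 5 * z ^ 2) + 61 * y ^ 7

lemma S_deriv {y z : ℝ → ℝ} {a ξ : ℝ} (hy : HasDerivAt y (a * (y ξ * z ξ)) ξ)
    (hz : HasDerivAt z (a * y ξ ^ 2) ξ) {l : ℕ} (hl : l < 6) :
    HasDerivAt (fun ξ => S l (y ξ) (z ξ)) (a * S (l + 1) (y ξ) (z ξ)) ξ := by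
  interval_cases l
  · exact hy
  · refine (hy.fun_mul hz).congr_deriv ?_
    show _ = a * (y ξ * z ξ ^ 2 + y ξ ^ 3)
    ring
  · refine ((hy.fun_mul (hz.fun_pow 2)).fun_add (hy.fun_pow 3)).congr_deriv ?_
    show _ = a * (y ξ * z ξ ^ 3 + 5 * (y ξ ^ 3 * z ξ))
    norm_num; ring
  · refine ((hy.fun_mul (hz.fun_pow 3)).fun_add
      (((hy.fun_pow 3).fun_mul hz).const_mul 5)).congr_deriv ?_
    show _ = a * (y ξ * z ξ ^ 4 + 18 * (y ξ ^ 3 * z ξ ^ 2) + 5 * y ξ ^ 5)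
    norm_num; ring
  · refine (((hy.fun_mul (hz.fun_pow 4)).fun_add
      (((hy.fun_pow 3).fun_mul (hz.fun_pow 2)).const_mul 18)).fun_add
      ((hy.fun_pow 5).const_mul 5)).congr_deriv ?_
    show _ = a * (y ξ * z ξ ^ 5 + 58 * (y ξ ^ 3 * z ξ ^ 3) + 61 * (y ξ ^ 5 * z ξ))
    norm_num; ring
  · refine (((hy.fun_mul (hz.fun_pow 5)).fun_add
      (((hy.fun_pow 3).fun_mul (hz.fun_pow 3)).const_mul 58)).fun_add
      (((hy.fun_pow 5).fun_mul hz).const_mul 61)).congr_deriv ?_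
    show _ = a * (y ξ * z ξ ^ 6 + 179 * (y ξ ^ 3 * z ξ ^ 4) + 479 * (y ξ ^ 5 * z ξ ^ 2) + 61 * y ξ ^ 7)
    norm_num; ring

lemma continuous_S (l : ℕ) : Continuous fun p : ℝ × ℝ => S l p.1 p.2 := by
  unfold S
  split_ifs <;> fun_prop

/-- The `l`-th derivative of the secant at `t`. -/
noncomputable def D (l : ℕ) (t : ℝ) : ℝ := S l (cos t)⁻¹ (sin t * (cos t)⁻¹)

lemma continuousAt_D (l : ℕ) {t : ℝ} (h : cos t ≠ 0) : ContinuousAt (D l) t :=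
  (continuous_S l).continuousAt.comp ((continuous_cos.continuousAt.inv₀ h).prodMk
    (continuous_sin.continuousAt.mul (continuous_cos.continuousAt.inv₀ h)))

lemma D_deriv {l : ℕ} (hl : l < 6) {t : ℝ} (h : cos t ≠ 0) : HasDerivAt (D l) (D (l + 1) t) t := by
  have hy := (hasDerivAt_cos t).fun_inv h
  have hz := (hasDerivAt_sin t).fun_mul hy
  refine (S_deriv (a := 1) (y := fun t => (cos t)⁻¹) (z := fun t => sin t * (cos t)⁻¹)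
    (hy.congr_deriv ?_) (hz.congr_deriv ?_) hl).congr_deriv (one_mul _)
  · field_simp
  · have := sin_sq_add_cos_sq t
    field_simp
    linear_combination this

lemma D_fract (l : ℕ) (x u : ℝ) : D l (2 * π * (x + u)) = D l (2 * π * (Int.fract x + u)) := by
  have : 2 * π * (x + u) = 2 * π * (Int.fract x + u) + (⌊x⌋ : ℤ) * (2 * π) := by
    rw [← Int.self_sub_floor]; ring
  rw [this, D, cos_add_int_mul_two_pi, sin_add_int_mul_two_pi, D]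

lemma mono_aux {A B : ℝ} (hA : 1 ≤ A) (hB : A ≤ B) :
    (720 * B ^ 3 - 840 * B ^ 2 + 182 * B - 1) * (24 * A ^ 2 - 20 * A + 1) ^ 2 ≤
      (720 * A ^ 3 - 840 * A ^ 2 + 182 * A - 1) * (24 * B ^ 2 - 20 * B + 1) ^ 2 := by
  obtain ⟨s, hs, rfl⟩ : ∃ s, 0 ≤ s ∧ A = 1 + s := ⟨A - 1, by linarith, by ring⟩
  obtain ⟨t, ht, rfl⟩ : ∃ t, 0 ≤ t ∧ B = 1 + s + t := ⟨B - (1 + s), by linarith, by ring⟩
  have : 0 ≤ 530 * t + 29464 * t ^ 2 + 63984 * t ^ 3 + 35136 * t ^ 4 + 58928 * s * t +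
      500240 * s * t ^ 2 + 828672 * s * t ^ 3 + 381312 * s * t ^ 4 + 500240 * s ^ 2 * t +
      2275200 * s ^ 2 * t ^ 2 + 2562048 * s ^ 2 * t ^ 3 + 760320 * s ^ 2 * t ^ 4 +
      1516800 * s ^ 3 * t + 4361472 * s ^ 3 * t ^ 2 + 3041280 * s ^ 3 * t ^ 3 +
      414720 * s ^ 3 * t ^ 4 + 2180736 * s ^ 4 * t + 3801600 * s ^ 4 * t ^ 2 +
      1244160 * s ^ 4 * t ^ 3 + 1520640 * s ^ 5 * t + 1244160 * s ^ 5 * t ^ 2 +
      414720 * s ^ 6 * t := by positivity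
  linear_combination this

lemma q4_pos {A : ℝ} (hA : 1 ≤ A) : 0 < 24 * A ^ 2 - 20 * A + 1 := by nlinarith

lemma q6_pos {A : ℝ} (hA : 1 ≤ A) : 0 < 720 * A ^ 3 - 840 * A ^ 2 + 182 * A - 1 := by
  obtain ⟨s, hs, rfl⟩ : ∃ s, 0 ≤ s ∧ A = 1 + s := ⟨A - 1, by linarith, by ring⟩
  have : 0 < 61 + 662 * s + 1320 * s ^ 2 + 720 * s ^ 3 := by positivity
  linear_combination this

lemma not_lt_aux {a b u w : ℝ} (ha : 0 < a) (hb : 0 < b) (hu : 1 ≤ u)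
    (h4 : a * u * (24 * (u ^ 2) ^ 2 - 20 * u ^ 2 + 1) = b * w * (24 * (w ^ 2) ^ 2 - 20 * w ^ 2 + 1))
    (h6 : a ^ 2 * u * (720 * (u ^ 2) ^ 3 - 840 * (u ^ 2) ^ 2 + 182 * u ^ 2 - 1) =
      b ^ 2 * w * (720 * (w ^ 2) ^ 3 - 840 * (w ^ 2) ^ 2 + 182 * w ^ 2 - 1)) : ¬ u < w := by
  intro h
  have hU : 1 ≤ u ^ 2 := one_le_pow₀ hu
  have hW : u ^ 2 ≤ w ^ 2 := pow_le_pow_left₀ (by linarith) h.le 2
  have h1 := mono_aux hU hW
  have h2 := q4_pos hU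
  have h3 := q6_pos (hU.trans hW)
  generalize 24 * (u ^ 2) ^ 2 - 20 * u ^ 2 + 1 = p at *
  generalize 24 * (w ^ 2) ^ 2 - 20 * w ^ 2 + 1 = q at *
  generalize 720 * (u ^ 2) ^ 3 - 840 * (u ^ 2) ^ 2 + 182 * u ^ 2 - 1 = P at *
  generalize 720 * (w ^ 2) ^ 3 - 840 * (w ^ 2) ^ 2 + 182 * w ^ 2 - 1 = Q at *
  have hw : 0 < w := by linarith
  have hu' : 0 < u := by linarith
  have h5 : a ^ 2 * b ^ 2 * u * w * (w * (P * q ^ 2) - u * (Q * p ^ 2)) = 0 := by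
    linear_combination (b ^ 2 * w ^ 2 * q ^ 2) * h6 - b ^ 2 * w * Q * (a * u * p + b * w * q) * h4
  have h7 : u * (Q * p ^ 2) < w * (P * q ^ 2) :=
    (mul_lt_mul_of_pos_right h (by positivity)).trans_le (mul_le_mul_of_nonneg_left h1 hw.le)
  exact (mul_pos (by positivity) (sub_pos.2 h7)).ne' h5

lemma alg {ρ₁ ρ₂ y₁ y₂ z₁ z₂ : ℝ} (hρ : max |ρ₁| |ρ₂| = 1) (e₁ : z₁ ^ 2 + 1 = y₁ ^ 2)
    (e₂ : z₂ ^ 2 + 1 = y₂ ^ 2) (h3 : ρ₁ * S 3 y₁ z₁ + ρ₂ * S 3 y₂ z₂ = 0)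
    (h4 : ρ₁ ^ 2 * S 4 y₁ z₁ + ρ₂ ^ 2 * S 4 y₂ z₂ = 0)
    (h6 : ρ₁ ^ 4 * S 6 y₁ z₁ + ρ₂ ^ 4 * S 6 y₂ z₂ = 0) :
    y₂ = -y₁ ∧ ρ₁ ^ 2 = 1 ∧ ρ₂ ^ 2 = 1 ∧ ρ₁ * z₁ = ρ₂ * z₂ := by
  have s3 : ∀ y z : ℝ, z ^ 2 + 1 = y ^ 2 → S 3 y z = y * z * (6 * y ^ 2 - 1) := fun y z h => by
    show y * z ^ 3 + 5 * (y ^ 3 * z) = _
    linear_combination y * z * h
  have s4 : ∀ y z : ℝ, z ^ 2 + 1 = y ^ 2 →
      S 4 y z = y * (24 * (y ^ 2) ^ 2 - 20 * y ^ 2 + 1) := fun y z h => by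
    show y * z ^ 4 + 18 * (y ^ 3 * z ^ 2) + 5 * y ^ 5 = _
    rw [show z ^ 4 = (z ^ 2) ^ 2 by ring, eq_sub_of_add_eq h]; ring
  have s6 : ∀ y z : ℝ, z ^ 2 + 1 = y ^ 2 → S 6 y z =
      y * (720 * (y ^ 2) ^ 3 - 840 * (y ^ 2) ^ 2 + 182 * y ^ 2 - 1) := fun y z h => by
    show y * z ^ 6 + 179 * (y ^ 3 * z ^ 4) + 479 * (y ^ 5 * z ^ 2) + 61 * y ^ 7 = _
    rw [show z ^ 6 = (z ^ 2) ^ 3 by ring, show z ^ 4 = (z ^ 2) ^ 2 by ring, eq_sub_of_add_eq h]; ring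
  rw [s3 _ _ e₁, s3 _ _ e₂] at h3
  rw [s4 _ _ e₁, s4 _ _ e₂] at h4
  rw [s6 _ _ e₁, s6 _ _ e₂] at h6
  have Y₁ : 1 ≤ y₁ ^ 2 := by nlinarith [sq_nonneg z₁]
  have Y₂ : 1 ≤ y₂ ^ 2 := by nlinarith [sq_nonneg z₂]
  have p₁ := q4_pos Y₁
  have p₂ := q4_pos Y₂
  have n₁ : y₁ ≠ 0 := by rintro rfl; norm_num at Y₁
  have n₂ : y₂ ≠ 0 := by rintro rfl; norm_num at Y₂
  have r₁ : ρ₁ ≠ 0 := by
    rintro rfl
    have : ρ₂ = 0 := by simpa [n₂, p₂.ne'] using h4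
    simp [this] at hρ
  have r₂ : ρ₂ ≠ 0 := by
    rintro rfl
    simp [n₁, p₁.ne', r₁] at h4
  have a₁ : 0 < ρ₁ ^ 2 := by positivity
  have a₂ : 0 < ρ₂ ^ 2 := by positivity
  have key : ∀ u w : ℝ, 0 < u → u ^ 2 = y₁ ^ 2 → w ^ 2 = y₂ ^ 2 →
      ρ₁ ^ 2 * u * (24 * (y₁ ^ 2) ^ 2 - 20 * y₁ ^ 2 + 1) =
        ρ₂ ^ 2 * w * (24 * (y₂ ^ 2) ^ 2 - 20 * y₂ ^ 2 + 1) →
      (ρ₁ ^ 2) ^ 2 * u * (720 * (y₁ ^ 2) ^ 3 - 840 * (y₁ ^ 2) ^ 2 + 182 * y₁ ^ 2 - 1) =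
        (ρ₂ ^ 2) ^ 2 * w * (720 * (y₂ ^ 2) ^ 3 - 840 * (y₂ ^ 2) ^ 2 + 182 * y₂ ^ 2 - 1) →
      u = w := fun u w hu h1 h2 k4 k6 => by
    have hw : 0 < w := pos_of_mul_pos_right
      ((mul_pos_iff_of_pos_right p₂).1 (k4 ▸ mul_pos (mul_pos a₁ hu) p₁)) a₂.le
    rw [← h1, ← h2] at k4 k6
    exact le_antisymm
      (not_lt.1 (not_lt_aux a₂ a₁ (by nlinarith) k4.symm k6.symm))
      (not_lt.1 (not_lt_aux a₁ a₂ (by nlinarith) k4 k6))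
  have hy : y₂ = -y₁ := by
    rcases lt_or_gt_of_ne n₁ with h | h
    · exact (key (-y₁) y₂ (neg_pos.2 h) (neg_sq _) rfl (by linear_combination -h4)
        (by linear_combination -h6)).symm
    · exact neg_eq_iff_eq_neg.1 (key y₁ (-y₂) h rfl (neg_sq _) (by linear_combination h4)
        (by linear_combination h6)).symm
  subst hy
  rw [neg_sq] at h3 h4
  have h7 : ρ₁ ^ 2 = ρ₂ ^ 2 := mul_right_cancel₀ (mul_ne_zero n₁ p₁.ne') (by linear_combination h4)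
  have h8 : |ρ₁| = 1 := by rwa [← (sq_eq_sq_iff_abs_eq_abs _ _).1 h7, max_self] at hρ
  have h9 : ρ₁ ^ 2 = 1 := by rw [← sq_abs, h8, one_pow]
  exact ⟨rfl, h9, h7 ▸ h9, mul_right_cancel₀ (mul_ne_zero n₁ (by linarith : 6 * y₁ ^ 2 - 1 ≠ 0))
    (by linear_combination h3)⟩

/-- The normalised `l`-th derivative. -/
noncomputable def E (l : ℕ) (ρ₁ ρ₂ x₁ x₂ ξ : ℝ) : ℝ :=
  ρ₁ ^ (l - 2) * D l (2 * π * (x₁ + ρ₁ * ξ)) + ρ₂ ^ (l - 2) * D l (2 * π * (x₂ + ρ₂ * ξ))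

lemma exists_ne {θ ρ₁ ρ₂ x₁ x₂ : ℝ} (hθ : 0 < θ) (c₁ : cos (2 * π * x₁) ≠ 0)
    (c₂ : cos (2 * π * x₂) ≠ 0) (hρ : max |ρ₁| |ρ₂| = 1)
    (h : ∀ σ : ℝ, σ = 1 ∨ σ = -1 → θ ≤ max |ρ₁ - σ * ρ₂| |cos (π * (x₁ - σ * x₂))|) :
    ∃ l, (l = 3 ∨ l = 4 ∨ l = 6) ∧ E l ρ₁ ρ₂ x₁ x₂ 0 ≠ 0 := by
  by_contra hc
  have hc' : ∀ l, (l = 3 ∨ l = 4 ∨ l = 6) → ρ₁ ^ (l - 2) * D l (2 * π * x₁) +
      ρ₂ ^ (l - 2) * D l (2 * π * x₂) = 0 := fun l hl => by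
    have := not_not.1 fun h => hc ⟨l, hl, h⟩
    rwa [E, mul_zero, mul_zero, add_zero, add_zero] at this
  have e : ∀ t : ℝ, cos t ≠ 0 → (sin t * (cos t)⁻¹) ^ 2 + 1 = (cos t)⁻¹ ^ 2 := fun t ht => by
    have := sin_sq_add_cos_sq t
    field_simp
    linear_combination this
  have h3 := hc' 3 (by norm_num)
  rw [show 3 - 2 = 1 from rfl, pow_one, pow_one] at h3
  obtain ⟨a1, a2, a3, a4⟩ := alg hρ (e _ c₁) (e _ c₂) h3 (hc' 4 (by norm_num)) (hc' 6 (by norm_num))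
  have hσ : ρ₁ * ρ₂ = 1 ∨ ρ₁ * ρ₂ = -1 := 
    mul_self_eq_one_iff.1 (by rw [← sq, mul_pow, a2, a3, one_mul])
  have h1 : ρ₁ - ρ₁ * ρ₂ * ρ₂ = 0 := by linear_combination -ρ₁ * a3
  have b1 : cos (2 * π * x₂) = -cos (2 * π * x₁) := inv_injective (a1.trans (inv_neg).symm)
  have b2 : sin (2 * π * x₁) = -(ρ₁ * ρ₂) * sin (2 * π * x₂) := by
    rw [a1] at a4
    refine mul_right_cancel₀ (inv_ne_zero c₁) ?_
    linear_combination ρ₁ * a4 - sin (2 * π * x₁) * (cos (2 * π * x₁))⁻¹ * a2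
  have b3 := sin_sq_add_cos_sq (2 * π * x₂)
  have h2 : cos (π * (x₁ - ρ₁ * ρ₂ * x₂)) = 0 := by
    refine pow_eq_zero_iff (two_ne_zero) |>.1 ?_
    rw [cos_sq]
    rcases hσ with hσ | hσ <;> rw [hσ] at b2 ⊢
    · rw [show 2 * (π * (x₁ - 1 * x₂)) = 2 * π * x₁ - 2 * π * x₂ by ring, cos_sub, b2]
      rw [b1] at b3 ⊢
      linear_combination (-1 / 2) * b3
    · rw [show 2 * (π * (x₁ - -1 * x₂)) = 2 * π * x₁ + 2 * π * x₂ by ring, cos_add, b2]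
      rw [b1] at b3 ⊢
      linear_combination (-1 / 2) * b3
  have := h _ hσ
  rw [h1, h2, abs_zero, max_self] at this
  exact hθ.not_ge this

lemma key {η θ : ℝ} (hη : 0 < η) (hθ : 0 < θ) : ∃ r : ℝ, 0 < r ∧ r ≤ η / 100 ∧
    ∀ x₁ x₂ ρ₁ ρ₂ : ℝ, η ≤ |cos (2 * π * x₁)| → η ≤ |cos (2 * π * x₂)| → max |ρ₁| |ρ₂| = 1 →
      (∀ σ : ℝ, σ = 1 ∨ σ = -1 → θ < |ρ₁ - σ * ρ₂| ∨ θ < |cos (π * (x₁ - σ * x₂))|) →
      ∃ l, (l = 3 ∨ l = 4 ∨ l = 6) ∧ ∀ ξ, |ξ| ≤ r → r ≤ |E l ρ₁ ρ₂ x₁ x₂ ξ| := by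
  let K : Set ((ℝ × ℝ) × (ℝ × ℝ)) := Set.Icc ((-1, -1), (0, 0)) ((1, 1), (1, 1)) ∩
    ({P | η ≤ |cos (2 * π * P.2.1)|} ∩ ({P | η ≤ |cos (2 * π * P.2.2)|} ∩
      ({P | max |P.1.1| |P.1.2| = 1} ∩
        ({P | θ ≤ max |P.1.1 - 1 * P.1.2| |cos (π * (P.2.1 - 1 * P.2.2))|} ∩
          {P | θ ≤ max |P.1.1 - -1 * P.1.2| |cos (π * (P.2.1 - -1 * P.2.2))|}))))
  have hK : IsCompact K := isCompact_Icc.inter_right
    ((isClosed_le continuous_const (by fun_prop)).inter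
      ((isClosed_le continuous_const (by fun_prop)).inter
        ((isClosed_eq (by fun_prop) continuous_const).inter
          ((isClosed_le continuous_const (by fun_prop)).inter
            (isClosed_le continuous_const (by fun_prop))))))
  have h1 : ∀ᶠ ε in 𝓝 (0 : ℝ), ∀ P ∈ K, ∃ l, (l = 3 ∨ l = 4 ∨ l = 6) ∧
      ∀ ξ, |ξ| ≤ |ε| → |ε| ≤ |E l P.1.1 P.1.2 P.2.1 P.2.2 ξ| := by
    refine hK.eventually_forall_of_forall_eventually ?_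
    rintro P ⟨-, k1, k2, k3, k4, k5⟩
    have c₁ : cos (2 * π * P.2.1) ≠ 0 := abs_pos.1 (hη.trans_le k1)
    have c₂ : cos (2 * π * P.2.2) ≠ 0 := abs_pos.1 (hη.trans_le k2)
    obtain ⟨l, hl, hE⟩ := exists_ne hθ c₁ c₂ k3 (by rintro σ (rfl | rfl); exacts [k4, k5])
    have hc : ContinuousAt (fun z : ℝ × ((ℝ × ℝ) × (ℝ × ℝ)) =>
        E l z.2.1.1 z.2.1.2 z.2.2.1 z.2.2.2 z.1) (0, P) := by
      refine ContinuousAt.add (ContinuousAt.mul (by fun_prop) ?_) (ContinuousAt.mul (by fun_prop) ?_)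
      · exact (continuousAt_D l c₁).comp_of_eq (f := fun z : ℝ × ((ℝ × ℝ) × (ℝ × ℝ)) =>
          2 * π * (z.2.2.1 + z.2.1.1 * z.1)) (by fun_prop) (by simp)
      · exact (continuousAt_D l c₂).comp_of_eq (f := fun z : ℝ × ((ℝ × ℝ) × (ℝ × ℝ)) =>
          2 * π * (z.2.2.2 + z.2.1.2 * z.1)) (by fun_prop) (by simp)
    have hp := half_pos (abs_pos.2 hE)
    obtain ⟨δ, hδ, h⟩ := Metric.eventually_nhds_iff.1
      (continuousAt_const.eventually_lt hc.abs (half_lt_self (abs_pos.2 hE)))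
    refine Metric.eventually_nhds_iff.2 ⟨_, lt_min hδ hp, fun z hz => ⟨l, hl, fun ξ hξ => ?_⟩⟩
    rw [Prod.dist_eq, max_lt_iff, dist_zero_right, lt_min_iff, lt_min_iff] at hz
    refine hz.1.2.le.trans (h (y := (ξ, z.2)) ?_).le
    rw [Prod.dist_eq, max_lt_iff, dist_zero_right]
    exact ⟨hξ.trans_lt hz.1.1, hz.2.1⟩
  obtain ⟨δ, hδ, h⟩ := Metric.eventually_nhds_iff.1 h1
  have hr : 0 < min (δ / 2) (η / 100) := by positivity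
  refine ⟨_, hr, min_le_right _ _, fun x₁ x₂ ρ₁ ρ₂ k1 k2 k3 k4 => ?_⟩
  have e1 : ∀ x : ℝ, cos (2 * π * Int.fract x) = cos (2 * π * x) := fun x => by
    rw [← cos_add_int_mul_two_pi _ ⌊x⌋, ← Int.self_sub_floor]; congr 1; ring
  have e2 : ∀ σ : ℤ, |cos (π * (Int.fract x₁ - σ * Int.fract x₂))| = |cos (π * (x₁ - σ * x₂))| :=
    fun σ => by
      rw [show π * (x₁ - σ * x₂) = π * (Int.fract x₁ - σ * Int.fract x₂) +
        ((⌊x₁⌋ - σ * ⌊x₂⌋ : ℤ) : ℝ) * π by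
          rw [← Int.self_sub_floor, ← Int.self_sub_floor]; push_cast; ring,
        cos_add_int_mul_pi, abs_mul, abs_neg_one_zpow, one_mul]
  have r1 := abs_le.1 ((le_max_left _ _).trans k3.le)
  have r2 := abs_le.1 ((le_max_right _ _).trans k3.le)
  obtain ⟨l, hl, hE⟩ := h (y := min (δ / 2) (η / 100))
    (by rw [dist_zero_right, Real.norm_of_nonneg hr.le]
        exact (min_le_left _ _).trans_lt (half_lt_self hδ))
    ((ρ₁, ρ₂), (Int.fract x₁, Int.fract x₂))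
    ⟨⟨⟨⟨r1.1, r2.1⟩, Int.fract_nonneg _, Int.fract_nonneg _⟩,
      ⟨r1.2, r2.2⟩, (Int.fract_lt_one _).le, (Int.fract_lt_one _).le⟩,
      k1.trans_eq (congrArg abs (e1 _).symm), k2.trans_eq (congrArg abs (e1 _).symm), k3,
      le_max_iff.2 ((k4 1 (Or.inl rfl)).imp le_of_lt fun h => h.le.trans_eq
        (by simpa only [Int.cast_one] using (e2 1).symm)),
      le_max_iff.2 ((k4 (-1) (Or.inr rfl)).imp le_of_lt fun h => h.le.trans_eq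
        (by simpa only [Int.cast_neg, Int.cast_one] using (e2 (-1)).symm))⟩
  rw [abs_of_pos hr] at hE
  refine ⟨l, hl, fun ξ hξ => (hE ξ hξ).trans_eq (congrArg abs ?_)⟩
  rw [E, E, D_fract l x₁, D_fract l x₂]

/-- The derivatives of the quadratic polynomial. -/
def Qd (q₀ q₁ q₂ : ℝ) (l : ℕ) (ξ : ℝ) : ℝ :=
  if l = 0 then q₀ + q₁ * ξ + q₂ * ξ ^ 2 else if l = 1 then q₁ + 2 * q₂ * ξ
  else if l = 2 then 2 * q₂ else 0

lemma Qd_deriv (q₀ q₁ q₂ : ℝ) {l : ℕ} (hl : l < 6) (ξ : ℝ) :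
    HasDerivAt (Qd q₀ q₁ q₂ l) (Qd q₀ q₁ q₂ (l + 1) ξ) ξ := by
  have h := hasDerivAt_id' ξ
  interval_cases l
  · refine (((h.const_mul q₁).const_add q₀).fun_add ((h.fun_pow 2).const_mul q₂)).congr_deriv ?_
    show _ = q₁ + 2 * q₂ * ξ
    norm_num; ring
  · exact ((h.const_mul (2 * q₂)).const_add q₁).congr_deriv (mul_one _)
  all_goals exact hasDerivAt_const _ _

lemma term_deriv {η x ρ ξ : ℝ} (hη : 0 < η) (hx : η ≤ |cos (2 * π * x)|) (hρ : |ρ| ≤ 1)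
    (hξ : |ξ| ≤ η / 100) {l : ℕ} (hl : l < 6) :
    HasDerivAt (fun ξ => (2 * π * ρ) ^ l / ρ ^ 2 * D l (2 * π * (x + ρ * ξ)))
      ((2 * π * ρ) ^ (l + 1) / ρ ^ 2 * D (l + 1) (2 * π * (x + ρ * ξ))) ξ := by
  have hc : cos (2 * π * (x + ρ * ξ)) ≠ 0 := fun h => by
    have h1 := abs_cos_sub_cos_le (2 * π * x) (2 * π * (x + ρ * ξ))
    rw [h, sub_zero, show 2 * π * x - 2 * π * (x + ρ * ξ) = -(2 * π * (ρ * ξ)) by ring, abs_neg,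
      abs_mul, abs_mul ρ, abs_of_pos two_pi_pos] at h1
    have h2 : |ρ| * |ξ| ≤ η / 100 := (mul_le_of_le_one_left (abs_nonneg _) hρ).trans hξ
    nlinarith [pi_le_four, pi_pos]
  refine (((D_deriv hl hc).comp ξ (((hasDerivAt_id' ξ).const_mul ρ).const_add x |>.const_mul
    (2 * π))).const_mul _).congr_deriv ?_
  ring

end ModelA

open ModelA in
theorem modelA (h : SpaceStmt) : ModelAStmt := by
  intro η θ κ hη hθ hκ
  obtain ⟨r, hr, hrη, hk⟩ := key hη hθ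
  have hs : 0 < κ * r := mul_pos hκ hr
  have hM : 0 < (1 + 2 / (κ * r)) ^ 6 := by positivity
  refine ⟨r, r / 2 / (1 + 2 / (κ * r)) ^ 6, hr, hrη, by positivity,
    fun x₁ x₂ ρ₁ ρ₂ q₀ q₁ q₂ k1 k2 n₁ n₂ k3 k4 => ?_⟩
  obtain ⟨l, hl, hE⟩ := hk x₁ x₂ ρ₁ ρ₂ k1 k2 k3 k4
  have hl6 : l ≤ 6 := by omega
  obtain ⟨F, hF, hF'⟩ := h (fun l ξ => Qd q₀ q₁ q₂ l ξ +
      (2 * π * ρ₁) ^ l / ρ₁ ^ 2 * D l (2 * π * (x₁ + ρ₁ * ξ)) +
      (2 * π * ρ₂) ^ l / ρ₂ ^ 2 * D l (2 * π * (x₂ + ρ₂ * ξ))) l (-r) r r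
      (r / 2 / (1 + 2 / (κ * r)) ^ 6) (κ * r) hs (by positivity)
      (fun i hi ξ hξ => ((Qd_deriv q₀ q₁ q₂ (hi.trans_le hl6) ξ).fun_add
        (term_deriv hη k1 ((le_max_left _ _).trans k3.le) ((abs_le.2 hξ).trans hrη)
          (hi.trans_le hl6))).fun_add
        (term_deriv hη k2 ((le_max_right _ _).trans k3.le) ((abs_le.2 hξ).trans hrη)
          (hi.trans_le hl6)))
      (fun ξ hξ => by
        have e : Qd q₀ q₁ q₂ l ξ + (2 * π * ρ₁) ^ l / ρ₁ ^ 2 * D l (2 * π * (x₁ + ρ₁ * ξ)) +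
            (2 * π * ρ₂) ^ l / ρ₂ ^ 2 * D l (2 * π * (x₂ + ρ₂ * ξ)) =
            (2 * π) ^ l * E l ρ₁ ρ₂ x₁ x₂ ξ := by
          have e0 : Qd q₀ q₁ q₂ l ξ = 0 := by rcases hl with rfl | rfl | rfl <;> rfl
          obtain ⟨m, rfl⟩ : ∃ m, l = m + 2 := ⟨l - 2, by omega⟩
          rw [e0, E, Nat.add_sub_cancel]
          field_simp
          ring
        refine (hE ξ (abs_le.2 hξ)).trans (le_of_le_of_eq ?_ (congrArg abs e).symm)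
        rw [abs_mul]
        exact le_mul_of_one_le_left (abs_nonneg _) ((one_le_pow₀ (by linarith [two_le_pi])).trans
          (le_abs_self _)))
      (by
        have h1 : (2 / (κ * r)) ^ l ≤ (1 + 2 / (κ * r)) ^ 6 :=
          (pow_le_pow_left₀ (by positivity) (by linarith) l).trans
            (pow_le_pow_right₀ (le_add_of_nonneg_right (by positivity)) hl6)
        refine (mul_le_mul_of_nonneg_left h1 (by positivity)).trans_lt ?_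
        rw [div_mul_cancel₀ _ hM.ne']
        exact half_lt_self hr)
  refine (measure_mono (t := ⋃ y ∈ F, Metric.closedBall y (2 * (κ * r))) ?_).trans
    ((measure_biUnion_finset_le _ _).trans ?_)
  · rintro y ⟨ξ, h1, h2, h3⟩
    obtain ⟨w, hw, h4⟩ := hF' ξ (abs_le.1 h1) (le_of_eq_of_le (congrArg abs (by
      show q₀ + q₁ * ξ + q₂ * ξ ^ 2 + _ * (cos _)⁻¹ + _ * (cos _)⁻¹ = _
      rw [pow_zero, pow_zero, ← div_eq_mul_inv, ← div_eq_mul_inv, div_div, div_div])) h2)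
    refine Set.mem_biUnion hw (mem_closedBall_iff_norm.2 ?_)
    have := abs_sub_le y ξ w
    show |y - w| ≤ _
    linarith
  · simp only [Real.volume_closedBall, Finset.sum_const, nsmul_eq_mul]
    rw [← ENNReal.ofReal_natCast, ← ENNReal.ofReal_mul (Nat.cast_nonneg _)]
    refine ENNReal.ofReal_le_ofReal ?_
    have h1 : (F.card : ℝ) ≤ 64 := by
      exact_mod_cast hF.trans (Nat.pow_le_pow_right two_pos hl6)
    nlinarith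

end Crest.Agent.R128
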