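import Crest.Agent.R128.Defs

/-!
Row 128: the model mismatch is rarely close to a half-integer.
-/

set_option autoImplicit false
open MeasureTheory Real

namespace Crest.Agent.R128

namespace MB

/-! ### Measure of the preimage of half-integer neighbourhoods -/

lemma near_half {D θ₀ : ℝ} (h : |cos (π * D)| ≤ θ₀) : ∃ n : ℤ, |D - (n + 1 / 2)| ≤ θ₀ / 2 := by
  refine ⟨⌊D⌋, ?_⟩
  have h1 := Int.floor_le D
  have h2 := Int.lt_floor_add_one D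
  set u := D - ((⌊D⌋ : ℝ) + 1 / 2) with hu
  have h3 : |u| ≤ 1 / 2 := abs_le.2 ⟨by linarith, by linarith⟩
  have e : π * D = (π * u + π / 2) + (⌊D⌋ : ℤ) * π := by rw [hu]; ring
  rw [e, cos_add_int_mul_pi, cos_add_pi_div_two, abs_mul, abs_neg, abs_zpow, abs_neg, abs_one,
    one_zpow, one_mul] at h
  have h4 : |π * u| = π * |u| := by rw [abs_mul, abs_of_pos pi_pos]
  have h5 := mul_abs_le_abs_sin (x := π * u) (by rw [h4]; nlinarith [pi_pos])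
  rw [h4, ← mul_assoc, div_mul_cancel₀ _ pi_pos.ne'] at h5
  linarith

lemma mvt {D D' : ℝ → ℝ} (hD : ∀ x, HasDerivAt D (D' x) x) {a b x y : ℝ} (hx : x ∈ Set.Icc a b)
    (hy : y ∈ Set.Icc a b) : ∃ c ∈ Set.Icc a b, |D y - D x| = |D' c| * |y - x| := by
  wlog hxy : x ≤ y generalizing x y
  · obtain ⟨c, hc, h⟩ := this hy hx (not_le.1 hxy).le
    exact ⟨c, hc, by rw [abs_sub_comm, h, abs_sub_comm]⟩
  rcases hxy.eq_or_lt with rfl | hxy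
  · exact ⟨x, hx, by simp⟩
  obtain ⟨c, hc, h⟩ := exists_hasDerivAt_eq_slope D D' hxy
    (fun z _ => (hD z).continuousAt.continuousWithinAt) fun z _ => hD z
  refine ⟨c, ⟨hx.1.trans hc.1.le, hc.2.le.trans hy.2⟩, ?_⟩
  rw [h, ← abs_mul, div_mul_cancel₀ _ (sub_pos.2 hxy).ne']

lemma cell {D D' : ℝ → ℝ} (hD : ∀ x, HasDerivAt D (D' x) x) {a b m L θ₀ : ℝ} (hm : 0 < m)
    (hθ0 : 0 ≤ θ₀) (hθ1 : θ₀ ≤ 1) (hL : 0 ≤ L) (hw : b - a ≤ 1)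
    (h : ∀ x ∈ Set.Icc a b, m ≤ |D' x| ∧ |D' x| ≤ L) :
    volume ({ξ | |cos (π * D ξ)| ≤ θ₀} ∩ Set.Icc a b) ≤
      ENNReal.ofReal ((2 * L + 2) * (2 * θ₀ / m)) := by
  let S : ℤ → Set ℝ := fun n => {ξ | ξ ∈ Set.Icc a b ∧ |D ξ - (n + 1 / 2)| ≤ θ₀ / 2}
  let I : Finset ℤ := Finset.Icc ⌈D a - L - 1⌉ ⌊D a + L⌋
  have h1 : {ξ | |cos (π * D ξ)| ≤ θ₀} ∩ Set.Icc a b ⊆ ⋃ n ∈ I, S n := by
    rintro ξ ⟨hξ, hξ'⟩
    obtain ⟨n, hn⟩ := near_half hξ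
    obtain ⟨c, hc, e⟩ := mvt hD (Set.left_mem_Icc.2 (hξ'.1.trans hξ'.2)) hξ'
    have h2 : |ξ - a| ≤ 1 := abs_le.2 ⟨by linarith [hξ'.1], by linarith [hξ'.2]⟩
    have h3 : |D ξ - D a| ≤ L := by
      rw [e]
      nlinarith [(h c hc).2, abs_nonneg (D' c), abs_nonneg (ξ - a)]
    have h4 := abs_le.1 h3
    have h5 := abs_le.1 hn
    refine Set.mem_biUnion (x := n) (Finset.mem_coe.2 (Finset.mem_Icc.2 ⟨?_, ?_⟩)) ⟨hξ', hn⟩
    · exact Int.ceil_le.2 (by linarith [h4.1, h5.2])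
    · exact Int.le_floor.2 (by linarith [h4.2, h5.1])
  have h2 : ∀ n, volume (S n) ≤ ENNReal.ofReal (2 * θ₀ / m) := by
    intro n
    rcases (S n).eq_empty_or_nonempty with h0 | ⟨x, hx⟩
    · simp [h0]
    have h3 : S n ⊆ Set.Icc (x - θ₀ / m) (x + θ₀ / m) := by
      intro y hy
      obtain ⟨c, hc, e⟩ := mvt hD hx.1 hy.1
      have h4 : |D y - D x| ≤ θ₀ := by
        have a1 := abs_le.1 hx.2
        have a2 := abs_le.1 hy.2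
        exact abs_le.2 ⟨by linarith [a1.2, a2.1], by linarith [a1.1, a2.2]⟩
      have h5 : |y - x| ≤ θ₀ / m := by
        rw [le_div_iff₀ hm]
        nlinarith [(h c hc).1, abs_nonneg (y - x)]
      have h6 := abs_le.1 h5
      exact ⟨by linarith [h6.1], by linarith [h6.2]⟩
    refine (measure_mono h3).trans (le_of_eq ?_)
    rw [Real.volume_Icc]
    congr 1
    ring
  have h3 : (I.card : ℝ) ≤ 2 * L + 2 := by
    have a1 := Int.le_ceil (D a - L - 1)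
    have a2 := Int.floor_le (D a + L)
    have a3 : ((I.card : ℤ) : ℝ) = ((max (⌊D a + L⌋ + 1 - ⌈D a - L - 1⌉) 0 : ℤ) : ℝ) := by
      rw [Int.card_Icc, Int.ofNat_toNat]
    push_cast at a3
    rw [a3]
    exact max_le (by linarith) (by linarith)
  refine (measure_mono h1).trans ((measure_biUnion_finset_le I S).trans ?_)
  refine (Finset.sum_le_card_nsmul I _ _ fun n _ => h2 n).trans ?_
  rw [nsmul_eq_mul, ← ENNReal.ofReal_natCast, ← ENNReal.ofReal_mul (Nat.cast_nonneg _)]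
  exact ENNReal.ofReal_le_ofReal (mul_le_mul_of_nonneg_right h3 (by positivity))

lemma cells {S : Set ℝ} {P : ℝ → Prop} {r β s : ℝ} (hβ0 : 0 ≤ β) (hs : 0 < s)
    (hβ : ∀ a b, -r ≤ a → b ≤ r → (∀ x ∈ Set.Icc a b, P x) →
      volume (S ∩ Set.Icc a b) ≤ ENNReal.ofReal β) (F : Finset ℝ) :
    ∀ a b, -r ≤ a → b ≤ r → (∀ x ∈ Set.Icc a b, (∀ y ∈ F, s < |x - y|) → P x) →
      volume (S ∩ Set.Icc a b) ≤ ENNReal.ofReal (2 ^ F.card * (β + 4 * s) - 4 * s) := by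
  induction F using Finset.induction_on with
  | empty =>
    intro a b ha hb h
    simpa using hβ a b ha hb fun x hx => h x hx (by simp)
  | insert y F hy ih =>
    intro a b ha hb h
    have h1 := ih a (min b (y - 2 * s)) ha ((min_le_left _ _).trans hb) fun x hx hF => by
      refine h x ⟨hx.1, hx.2.trans (min_le_left _ _)⟩ (Finset.forall_mem_insert _ _ _ |>.2 ⟨?_, hF⟩)
      have := hx.2.trans (min_le_right _ _)
      exact lt_abs.2 (Or.inr (by linarith))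
    have h2 := ih (max a (y + 2 * s)) b (ha.trans (le_max_left _ _)) hb fun x hx hF => by
      refine h x ⟨(le_max_left _ _).trans hx.1, hx.2⟩ (Finset.forall_mem_insert _ _ _ |>.2 ⟨?_, hF⟩)
      have := (le_max_right _ _).trans hx.1
      exact lt_abs.2 (Or.inl (by linarith))
    have h3 : S ∩ Set.Icc a b ⊆ (S ∩ Set.Icc a (min b (y - 2 * s)) ∪
        S ∩ Set.Icc (max a (y + 2 * s)) b) ∪ Set.Icc (y - 2 * s) (y + 2 * s) := by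
      rintro x ⟨hx, hxa, hxb⟩
      rcases le_total x (y - 2 * s) with h4 | h4
      · exact Or.inl (Or.inl ⟨hx, hxa, le_min hxb h4⟩)
      rcases le_total x (y + 2 * s) with h5 | h5
      · exact Or.inr ⟨h4, h5⟩
      · exact Or.inl (Or.inr ⟨hx, max_le hxa h5, hxb⟩)
    have h4 : (0 : ℝ) ≤ 2 ^ F.card * (β + 4 * s) - 4 * s := by
      have : (1 : ℝ) ≤ 2 ^ F.card := one_le_pow₀ one_le_two
      nlinarith
    refine (measure_mono h3).trans ((measure_union_le _ _).trans ?_)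
    refine (add_le_add ((measure_union_le _ _).trans (add_le_add h1 h2)) le_rfl).trans ?_
    rw [Real.volume_Icc, ← ENNReal.ofReal_add h4 h4,
      ← ENNReal.ofReal_add (by linarith) (by linarith), Finset.card_insert_of_notMem hy]
    exact ENNReal.ofReal_le_ofReal (le_of_eq (by ring))

/-! ### The derivatives of `cos (x + ψ) Q(x)` -/

/-- The `t`-th derivative of `cos (x + ψ)`. -/
noncomputable def Cs (ψ t x : ℝ) : ℝ := cos (x + ψ + t * (π / 2))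

/-- The `t`-th derivative of `cos (x + ψ) (Q₀ + Q₁ x + Q₂ x²)`. -/
noncomputable def Ph (ψ Q₀ Q₁ Q₂ t x : ℝ) : ℝ :=
  Cs ψ t x * (Q₀ + Q₁ * x + Q₂ * x ^ 2) + t * Cs ψ (t - 1) x * (Q₁ + 2 * Q₂ * x) +
    t * (t - 1) * Cs ψ (t - 2) x * Q₂

/-- The chain of derivatives of the model derivative. -/
noncomputable def ch (ψ Q₀ Q₁ Q₂ : ℝ) (i : ℕ) (x : ℝ) : ℝ :=
  Ph ψ Q₀ Q₁ Q₂ (i + 1) x - if i = 0 then 1 / π ^ 2 else 0

/-- The derivative of `Dm`. -/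
noncomputable def Dm' (k s₀ s₂ e₀ e₁ e₂ ξ : ℝ) : ℝ :=
  4 + 8 * s₂ * ξ + 2 * (e₁ + 2 * e₂ * ξ) +
    2 * (sin (2 * π * (s₀ + ξ + s₂ * ξ ^ 2) + π * (e₀ + e₁ * ξ + e₂ * ξ ^ 2)) *
      (2 * π * (1 + 2 * s₂ * ξ) + π * (e₁ + 2 * e₂ * ξ)) *
        (k * sin (π * (e₀ + e₁ * ξ + e₂ * ξ ^ 2)))) -
    2 * π * (cos (2 * π * (s₀ + ξ + s₂ * ξ ^ 2) + π * (e₀ + e₁ * ξ + e₂ * ξ ^ 2)) *
      cos (π * (e₀ + e₁ * ξ + e₂ * ξ ^ 2)) * (k * (e₁ + 2 * e₂ * ξ)))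

theorem anchor : True := by
  have := @Cs.eq_1
  have := @Ph.eq_1
  have := @ch.eq_1
  have := @Dm'.eq_1
  trivial

lemma Cs_succ (ψ t x : ℝ) : Cs ψ (t + 1) x = -sin (x + ψ + t * (π / 2)) := by
  rw [Cs, ← cos_add_pi_div_two]
  congr 1
  ring

lemma Cs_add_two (ψ t x : ℝ) : Cs ψ (t + 2) x = -Cs ψ t x := by
  rw [Cs, Cs, ← cos_add_pi]
  congr 1
  ring

lemma abs_Cs_le (ψ t x : ℝ) : |Cs ψ t x| ≤ 1 := abs_cos_le_one _

lemma hasDerivAt_Cs (ψ t x : ℝ) : HasDerivAt (Cs ψ t) (Cs ψ (t + 1) x) x := by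
  rw [Cs_succ]
  have h := (((hasDerivAt_id x).add_const ψ).add_const (t * (π / 2))).cos
  rw [mul_one] at h
  exact h

lemma hasDerivAt_quad (a b c x : ℝ) :
    HasDerivAt (fun x : ℝ => a + b * x + c * x ^ 2) (b + 2 * c * x) x := by
  have h := (((hasDerivAt_id x).const_mul b).const_add a).add ((hasDerivAt_pow 2 x).const_mul c)
  refine HasDerivAt.congr_deriv h ?_
  simp
  ring

lemma hasDerivAt_Ph (ψ Q₀ Q₁ Q₂ t x : ℝ) :
    HasDerivAt (Ph ψ Q₀ Q₁ Q₂ t) (Ph ψ Q₀ Q₁ Q₂ (t + 1) x) x := by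
  have h1 := (hasDerivAt_Cs ψ t x).mul (hasDerivAt_quad Q₀ Q₁ Q₂ x)
  have h2 := ((hasDerivAt_Cs ψ (t - 1) x).const_mul t).mul
    (((hasDerivAt_id x).const_mul (2 * Q₂)).const_add Q₁)
  have h3 := ((hasDerivAt_Cs ψ (t - 2) x).const_mul (t * (t - 1))).mul_const Q₂
  refine HasDerivAt.congr_deriv ((h1.add h2).add h3) ?_
  unfold Ph
  rw [show t + 1 - 1 = t by ring, show t + 1 - 2 = t - 1 by ring, show t - 1 + 1 = t by ring,
    show t - 2 + 1 = t - 1 by ring]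
  simp only [id]
  ring

lemma hasDerivAt_ch (ψ Q₀ Q₁ Q₂ : ℝ) (i : ℕ) (x : ℝ) :
    HasDerivAt (ch ψ Q₀ Q₁ Q₂ i) (ch ψ Q₀ Q₁ Q₂ (i + 1) x) x := by
  have h := (hasDerivAt_Ph ψ Q₀ Q₁ Q₂ (i + 1) x).sub_const (if i = 0 then 1 / π ^ 2 else 0)
  refine HasDerivAt.congr_deriv h ?_
  simp [ch]

lemma abs_quad_le {a b c x M : ℝ} (ha : |a| ≤ M) (hb : |b| ≤ M) (hc : |c| ≤ M) (hx : |x| ≤ 1) :
    |a + b * x + c * x ^ 2| ≤ 3 * M ∧ |b + 2 * c * x| ≤ 3 * M := by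
  have h1 : |b * x| ≤ M := by
    rw [abs_mul]; nlinarith [abs_nonneg b, abs_nonneg x]
  have h2 : |c * x| ≤ M := by
    rw [abs_mul]; nlinarith [abs_nonneg c, abs_nonneg x]
  have h3 : |c * x ^ 2| ≤ M := by
    rw [sq, ← mul_assoc, abs_mul]; nlinarith [abs_nonneg (c * x), abs_nonneg x]
  have a1 := abs_le.1 ha
  have a2 := abs_le.1 hb
  have a3 := abs_le.1 h1
  have a4 := abs_le.1 h2
  have a5 := abs_le.1 h3
  constructor <;> rw [abs_le] <;> constructor <;> linarith [a1.1, a1.2, a2.1, a2.2, a3.1, a3.2,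
    a4.1, a4.2, a5.1, a5.2]

lemma abs_Ph_le (ψ : ℝ) {Q₀ Q₁ Q₂ t x M : ℝ} (h₀ : |Q₀| ≤ M) (h₁ : |Q₁| ≤ M) (h₂ : |Q₂| ≤ M)
    (hx : |x| ≤ 1) (ht1 : 1 ≤ t) (ht : t ≤ 6) : |Ph ψ Q₀ Q₁ Q₂ t x| ≤ 51 * M := by
  obtain ⟨a1, a2⟩ := abs_quad_le h₀ h₁ h₂ hx
  have hM := (abs_nonneg _).trans h₀
  have b1 : |Cs ψ t x * (Q₀ + Q₁ * x + Q₂ * x ^ 2)| ≤ 1 * (3 * M) := by
    rw [abs_mul]; gcongr; exact abs_Cs_le _ _ _
  have b2 : |t * Cs ψ (t - 1) x * (Q₁ + 2 * Q₂ * x)| ≤ 6 * 1 * (3 * M) := by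
    rw [abs_mul, abs_mul, abs_of_nonneg (by linarith : 0 ≤ t)]; gcongr; exact abs_Cs_le _ _ _
  have b3 : |t * (t - 1) * Cs ψ (t - 2) x * Q₂| ≤ 30 * 1 * M := by
    rw [abs_mul, abs_mul, abs_of_nonneg (by nlinarith : 0 ≤ t * (t - 1))]
    gcongr
    · nlinarith
    · exact abs_Cs_le _ _ _
  unfold Ph
  linarith [abs_add_three (Cs ψ t x * (Q₀ + Q₁ * x + Q₂ * x ^ 2))
    (t * Cs ψ (t - 1) x * (Q₁ + 2 * Q₂ * x)) (t * (t - 1) * Cs ψ (t - 2) x * Q₂)]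

lemma comb {c s u v A B : ℝ} (hc : |c| ≤ 1) (hs : |s| ≤ 1) (hu : |u| ≤ A) (hv : |v| ≤ B) :
    |c * u + s * v| ≤ A + B := by
  refine (abs_add_le _ _).trans (add_le_add ?_ ?_) <;> rw [abs_mul]
  · nlinarith [abs_nonneg c, abs_nonneg u]
  · nlinarith [abs_nonneg s, abs_nonneg v]

lemma nondeg_alg {c s Q₀ Q₁ Q₂ ε : ℝ} (h : s ^ 2 + c ^ 2 = 1)
    (h2 : |-c * Q₀ - 2 * s * Q₁ + 2 * c * Q₂| ≤ ε) (h3 : |s * Q₀ - 3 * c * Q₁ - 6 * s * Q₂| ≤ ε)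
    (h4 : |c * Q₀ + 4 * s * Q₁ - 12 * c * Q₂| ≤ ε) (h5 : |-s * Q₀ + 5 * c * Q₁ + 20 * s * Q₂| ≤ ε) :
    |Q₀| ≤ 21 * ε ∧ |Q₁| ≤ 3 * ε ∧ |Q₂| ≤ ε / 2 := by
  have hc : |c| ≤ 1 := abs_le_one_iff_mul_self_le_one.2 (by nlinarith [sq_nonneg s])
  have hs : |s| ≤ 1 := abs_le_one_iff_mul_self_le_one.2 (by nlinarith [sq_nonneg c])
  have hs' : |-s| ≤ 1 := by rwa [abs_neg]
  have hε := (abs_nonneg _).trans h2
  have hu : |2 * s * Q₁ - 10 * c * Q₂| ≤ 2 * ε := by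
    have := abs_add_le (-c * Q₀ - 2 * s * Q₁ + 2 * c * Q₂) (c * Q₀ + 4 * s * Q₁ - 12 * c * Q₂)
    rw [show -c * Q₀ - 2 * s * Q₁ + 2 * c * Q₂ + (c * Q₀ + 4 * s * Q₁ - 12 * c * Q₂) =
      2 * s * Q₁ - 10 * c * Q₂ by ring] at this
    linarith
  have hv : |2 * c * Q₁ + 14 * s * Q₂| ≤ 2 * ε := by
    have := abs_add_le (s * Q₀ - 3 * c * Q₁ - 6 * s * Q₂) (-s * Q₀ + 5 * c * Q₁ + 20 * s * Q₂)
    rw [show s * Q₀ - 3 * c * Q₁ - 6 * s * Q₂ + (-s * Q₀ + 5 * c * Q₁ + 20 * s * Q₂) =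
      2 * c * Q₁ + 14 * s * Q₂ by ring] at this
    linarith
  have k2 : |Q₂| ≤ ε / 2 := by
    have a1 := comb hc hs' hu hv
    rw [show c * (2 * s * Q₁ - 10 * c * Q₂) + -s * (2 * c * Q₁ + 14 * s * Q₂) =
      -((10 + 4 * s ^ 2) * Q₂) by linear_combination (-10 * Q₂) * h, abs_neg, abs_mul,
      abs_of_nonneg (by positivity)] at a1
    nlinarith [mul_nonneg (sq_nonneg s) (abs_nonneg Q₂)]
  have hcQ : ∀ {Q B : ℝ}, |Q| ≤ B → |c * Q| ≤ B := fun {Q B} hQ => by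
    rw [abs_mul]; nlinarith [abs_nonneg c, abs_nonneg Q]
  have hsQ : ∀ {Q B : ℝ}, |Q| ≤ B → |s * Q| ≤ B := fun {Q B} hQ => by
    rw [abs_mul]; nlinarith [abs_nonneg s, abs_nonneg Q]
  have k1 : |Q₁| ≤ 3 * ε := by
    have a1 := comb hs hc hu hv
    rw [show s * (2 * s * Q₁ - 10 * c * Q₂) + c * (2 * c * Q₁ + 14 * s * Q₂) =
      2 * Q₁ + 4 * (s * (c * Q₂)) by linear_combination (2 * Q₁) * h] at a1
    have a2 := abs_le.1 (hsQ (hcQ k2))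
    have a3 := abs_le.1 a1
    exact abs_le.2 ⟨by linarith [a2.2, a3.1], by linarith [a2.1, a3.2]⟩
  refine ⟨?_, k1, k2⟩
  have b1 := abs_le.1 (hcQ k1)
  have b2 := abs_le.1 (hsQ k1)
  have b3 := abs_le.1 (hcQ k2)
  have b4 := abs_le.1 (hsQ k2)
  have b5 := abs_le.1 h2
  have b6 := abs_le.1 h3
  have c1 : |c * Q₀| ≤ 8 * ε :=
    abs_le.2 ⟨by linarith [b2.2, b3.1, b5.2], by linarith [b2.1, b3.2, b5.1]⟩
  have c2 : |s * Q₀| ≤ 13 * ε :=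
    abs_le.2 ⟨by linarith [b1.1, b4.1, b6.1], by linarith [b1.2, b4.2, b6.2]⟩
  have a1 := comb hc hs c1 c2
  rw [show c * (c * Q₀) + s * (s * Q₀) = Q₀ by linear_combination Q₀ * h] at a1
  linarith

lemma nondeg (ψ Q₀ Q₁ Q₂ : ℝ) :
    ∃ l ≤ 4, max 1 (max |Q₀| (max |Q₁| |Q₂|)) / 300 ≤ |ch ψ Q₀ Q₁ Q₂ l 0| := by
  by_contra hcon
  push Not at hcon
  set Λ := max 1 (max |Q₀| (max |Q₁| |Q₂|)) with hΛ
  have hΛ1 : 1 ≤ Λ := le_max_left _ _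
  have c0 : Cs ψ 0 0 = cos ψ := by simp [Cs]
  have c1 : Cs ψ 1 0 = -sin ψ := by simpa using Cs_succ ψ 0 0
  have c2 : Cs ψ 2 0 = -cos ψ := by simpa [c0] using Cs_add_two ψ 0 0
  have c3 : Cs ψ 3 0 = sin ψ := by
    have := Cs_add_two ψ 1 0
    norm_num [c1] at this
    exact this
  have c4 : Cs ψ 4 0 = cos ψ := by
    have := Cs_add_two ψ 2 0
    norm_num [c2] at this
    exact this
  have c5 : Cs ψ 5 0 = -sin ψ := by
    have := Cs_add_two ψ 3 0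
    norm_num [c3] at this
    exact this
  have h0 := (hcon 0 (by norm_num)).le
  have h1 := (hcon 1 (by norm_num)).le
  have h2 := (hcon 2 (by norm_num)).le
  have h3 := (hcon 3 (by norm_num)).le
  have h4 := (hcon 4 (by norm_num)).le
  norm_num [ch, Ph, c0, c1, c2, c3, c4, c5] at h0 h1 h2 h3 h4
  obtain ⟨k0, k1, k2⟩ := nondeg_alg (Q₀ := Q₀) (Q₁ := Q₁) (Q₂ := Q₂) (ε := Λ / 300)
    (sin_sq_add_cos_sq ψ)
    (abs_le.2 ⟨by linarith [(abs_le.1 h1).1], by linarith [(abs_le.1 h1).2]⟩)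
    (abs_le.2 ⟨by linarith [(abs_le.1 h2).1], by linarith [(abs_le.1 h2).2]⟩)
    (abs_le.2 ⟨by linarith [(abs_le.1 h3).1], by linarith [(abs_le.1 h3).2]⟩)
    (abs_le.2 ⟨by linarith [(abs_le.1 h4).1], by linarith [(abs_le.1 h4).2]⟩)
  have hΛ' : Λ ≤ 1 := by
    by_contra hlt
    push Not at hlt
    have : Λ < Λ := by
      conv_lhs => rw [hΛ]
      exact max_lt hlt (max_lt (by linarith) (max_lt (by linarith) (by linarith)))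
    exact lt_irrefl _ this
  have a1 := abs_le.1 (comb (abs_sin_le_one ψ) (abs_cos_le_one ψ) (u := -Q₀)
    ((abs_neg Q₀).trans_le k0) k1)
  have a2 := abs_le.1 h0
  have a3 : (1 : ℝ) / 10 ≤ (π ^ 2)⁻¹ := by
    rw [one_div]
    refine inv_anti₀ (by positivity) ?_
    nlinarith [pi_lt_d2, pi_pos]
  linarith [a1.2, a2.1]

lemma lower (ψ Q₀ Q₁ Q₂ : ℝ) : ∃ l ≤ 4, ∀ x ∈ Set.Icc (-(1 / 30600) : ℝ) (1 / 30600),
    max 1 (max |Q₀| (max |Q₁| |Q₂|)) / 600 ≤ |ch ψ Q₀ Q₁ Q₂ l x| := by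
  obtain ⟨l, hl, h⟩ := nondeg ψ Q₀ Q₁ Q₂
  refine ⟨l, hl, fun x hx => ?_⟩
  set Λ := max 1 (max |Q₀| (max |Q₁| |Q₂|)) with hΛ
  have hΛ1 : 1 ≤ Λ := le_max_left _ _
  obtain ⟨c, hc, e⟩ := mvt (hasDerivAt_ch ψ Q₀ Q₁ Q₂ l) hx
    (y := 0) ⟨by norm_num, by norm_num⟩
  have h1 : |ch ψ Q₀ Q₁ Q₂ (l + 1) c| ≤ 51 * Λ := by
    have hl' : (l : ℝ) ≤ 4 := by exact_mod_cast hl
    have hl0 : (0 : ℝ) ≤ l := Nat.cast_nonneg l
    simp only [ch, Nat.succ_ne_zero, if_false, sub_zero]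
    refine abs_Ph_le ψ ((le_max_left _ _).trans (le_max_right _ _))
      (((le_max_left _ _).trans (le_max_right _ _)).trans (le_max_right _ _))
      (((le_max_right _ _).trans (le_max_right _ _)).trans (le_max_right _ _))
      (abs_le.2 ⟨by linarith [hc.1], by linarith [hc.2]⟩) ?_ ?_ <;> push_cast <;> linarith
  have h2 : |0 - x| ≤ 1 / 30600 := abs_le.2 ⟨by linarith [hx.2], by linarith [hx.1]⟩
  have h3 := mul_le_mul h1 h2 (abs_nonneg _) (by positivity)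
  have h4 := abs_sub_abs_le_abs_sub (ch ψ Q₀ Q₁ Q₂ l 0) (ch ψ Q₀ Q₁ Q₂ l x)
  linarith

/-! ### The derivative of `Dm` -/

lemma hasDerivAt_Dm (k s₀ s₂ e₀ e₁ e₂ d ξ : ℝ) :
    HasDerivAt (Dm k s₀ s₂ e₀ e₁ e₂ d) (Dm' k s₀ s₂ e₀ e₁ e₂ ξ) ξ := by
  have hq := hasDerivAt_quad e₀ e₁ e₂ ξ
  have h1 := hasDerivAt_quad d 4 (4 * s₂) ξ
  have h2 := ((hasDerivAt_quad s₀ 1 s₂ ξ).const_mul (2 * π)).add (hq.const_mul π)
  have h3 := (h1.add (hq.const_mul 2)).sub ((h2.cos.const_mul (2 * k)).mul (hq.const_mul π).sin)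
  refine HasDerivAt.congr_deriv (h3.congr_of_eventuallyEq (Filter.Eventually.of_forall fun x => ?_)) ?_
  · simp [Dm]
  · simp only [Dm', one_mul, Pi.add_apply]
    ring

lemma est {sA sB cA cB A' S P c kq' K θ : ℝ} (hK : 0 ≤ K) (hθ : 0 ≤ θ)
    (h1 : |sA - sB| ≤ 20 * θ) (h2 : |sB| ≤ 1) (h3 : |A' - 2 * π| ≤ 28 * θ) (h4 : |A'| ≤ 40)
    (h5 : |S| ≤ 12 * K) (h6 : |S - P| ≤ 200 * K * θ) (h7 : |cA - cB| ≤ 20 * θ) (h8 : |cA| ≤ 1)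
    (h9 : |c - 1| ≤ 12 * θ) (h10 : |kq'| ≤ 3 * K) :
    |2 * (sA * A' * S) - 2 * π * (cA * c * kq') - (2 * (sB * (2 * π) * P) - 2 * π * (cB * kq'))| ≤
      24000 * K * θ := by
  have hπ : |2 * π| ≤ 8 := by rw [abs_of_pos (by positivity)]; linarith [pi_le_four]
  have a1 : |(sA - sB) * A' * S| ≤ 20 * θ * 40 * (12 * K) := by
    rw [abs_mul, abs_mul]; gcongr
  have a2 : |sB * (A' - 2 * π) * S| ≤ 1 * (28 * θ) * (12 * K) := by
    rw [abs_mul, abs_mul]; gcongr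
  have a3 : |sB * (2 * π) * (S - P)| ≤ 1 * 8 * (200 * K * θ) := by
    rw [abs_mul, abs_mul]; gcongr
  have a4 : |2 * π * (cA * (c - 1) * kq')| ≤ 8 * (1 * (12 * θ) * (3 * K)) := by
    rw [abs_mul, abs_mul (cA * (c - 1)), abs_mul cA]; gcongr
  have a5 : |2 * π * ((cA - cB) * kq')| ≤ 8 * (20 * θ * (3 * K)) := by
    rw [abs_mul, abs_mul (cA - cB)]; gcongr
  have b1 := abs_le.1 a1
  have b2 := abs_le.1 a2
  have b3 := abs_le.1 a3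
  have b4 := abs_le.1 a4
  have b5 := abs_le.1 a5
  have hKθ := mul_nonneg hK hθ
  rw [abs_le]
  constructor <;> nlinarith [b1.1, b1.2, b2.1, b2.2, b3.1, b3.2, b4.1, b4.2, b5.1, b5.2]

lemma Dm'_close {k s₀ s₂ e₀ e₁ e₂ ξ K θ : ℝ} (hk : 0 ≤ k) (hθ1 : θ ≤ 1 / 10) (hs : |s₂| ≤ θ)
    (h₀ : |e₀| ≤ θ) (h₁ : |e₁| ≤ θ) (h₂ : |e₂| ≤ θ) (k₀ : |k * e₀| ≤ K) (k₁ : |k * e₁| ≤ K)
    (k₂ : |k * e₂| ≤ K) (hK : 1 ≤ K) (hξ : |ξ| ≤ 1) :
    |Dm' k s₀ s₂ e₀ e₁ e₂ ξ + (2 * π) ^ 2 *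
      ch (2 * π * s₀) (k * e₀) (k * e₁ / (2 * π)) (k * e₂ / (2 * π) ^ 2) 0 (2 * π * ξ)| ≤
      25000 * K * θ := by
  have hθ := (abs_nonneg _).trans hs
  obtain ⟨q1, q2⟩ := abs_quad_le h₀ h₁ h₂ hξ
  obtain ⟨p1, p2⟩ := abs_quad_le k₀ k₁ k₂ hξ
  set q := e₀ + e₁ * ξ + e₂ * ξ ^ 2 with hq
  set q' := e₁ + 2 * e₂ * ξ with hq'
  rw [show k * e₀ + k * e₁ * ξ + k * e₂ * ξ ^ 2 = k * q by rw [hq]; ring] at p1
  rw [show k * e₁ + 2 * (k * e₂) * ξ = k * q' by rw [hq']; ring] at p2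
  have hπ : |π| ≤ 4 := by rw [abs_of_pos pi_pos]; exact pi_le_four
  have s1 : |s₂ * ξ| ≤ θ := by
    rw [abs_mul]; nlinarith [abs_nonneg s₂, abs_nonneg ξ]
  have s2 : |s₂ * ξ ^ 2| ≤ θ := by
    rw [sq, ← mul_assoc, abs_mul]; nlinarith [abs_nonneg (s₂ * ξ), abs_nonneg ξ]
  have r1 : |π * q| ≤ 12 * θ := by
    rw [abs_mul]; nlinarith [abs_nonneg π, abs_nonneg q]
  have r2 : |π * q'| ≤ 12 * θ := by
    rw [abs_mul]; nlinarith [abs_nonneg π, abs_nonneg q']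
  have r3 : |π * (s₂ * ξ)| ≤ 4 * θ := by
    rw [abs_mul]; nlinarith [abs_nonneg π, abs_nonneg (s₂ * ξ)]
  have r4 : |π * (s₂ * ξ ^ 2)| ≤ 4 * θ := by
    rw [abs_mul]; nlinarith [abs_nonneg π, abs_nonneg (s₂ * ξ ^ 2)]
  have r5 : k * |π * q| ≤ 12 * K := by
    rw [← abs_of_nonneg hk, ← abs_mul, mul_left_comm, abs_mul]
    nlinarith [abs_nonneg π, abs_nonneg (k * q)]
  have dA : |2 * π * (s₀ + ξ + s₂ * ξ ^ 2) + π * q - (2 * π * ξ + 2 * π * s₀)| ≤ 20 * θ := by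
    have b1 := abs_le.1 r1
    have b2 := abs_le.1 r4
    exact abs_le.2 ⟨by linarith [b1.1, b2.1], by linarith [b1.2, b2.2]⟩
  have dA' : |2 * π * (1 + 2 * s₂ * ξ) + π * q' - 2 * π| ≤ 28 * θ := by
    have b1 := abs_le.1 r2
    have b2 := abs_le.1 r3
    exact abs_le.2 ⟨by linarith [b1.1, b2.1], by linarith [b1.2, b2.2]⟩
  have key := est (sA := sin (2 * π * (s₀ + ξ + s₂ * ξ ^ 2) + π * q))
    (sB := sin (2 * π * ξ + 2 * π * s₀)) (cA := cos (2 * π * (s₀ + ξ + s₂ * ξ ^ 2) + π * q))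
    (cB := cos (2 * π * ξ + 2 * π * s₀)) (A' := 2 * π * (1 + 2 * s₂ * ξ) + π * q')
    (S := k * sin (π * q)) (P := k * (π * q)) (c := cos (π * q)) (kq' := k * q') (K := K) (θ := θ)
    (by linarith) hθ ((abs_sin_sub_sin_le _ _).trans dA) (abs_sin_le_one _) dA'
    (by
      have b1 := abs_le.1 dA'
      exact abs_le.2 ⟨by linarith [b1.1, pi_pos], by linarith [b1.2, pi_le_four]⟩)
    (by
      rw [abs_mul, abs_of_nonneg hk]
      exact (mul_le_mul_of_nonneg_left abs_sin_le_abs hk).trans r5)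
    (by
      rw [← mul_sub, abs_mul, abs_of_nonneg hk, abs_sub_comm]
      refine (mul_le_mul_of_nonneg_left (abs_sub_sin_le _) hk).trans ?_
      have b0 := abs_nonneg (π * q)
      have b1 : |π * q| ^ 2 ≤ 15 * θ := by nlinarith
      have b2 := mul_le_mul r5 b1 (by positivity) (by positivity)
      nlinarith [mul_nonneg (zero_le_one.trans hK) hθ])
    ((abs_cos_sub_cos_le _ _).trans dA) (abs_cos_le_one _)
    (by simpa using (abs_cos_sub_cos_le (π * q) 0).trans (by simpa using r1)) p2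
  have e : (2 * π) ^ 2 *
      ch (2 * π * s₀) (k * e₀) (k * e₁ / (2 * π)) (k * e₂ / (2 * π) ^ 2) 0 (2 * π * ξ) =
      -4 - (2 * (sin (2 * π * ξ + 2 * π * s₀) * (2 * π) * (k * (π * q))) -
        2 * π * (cos (2 * π * ξ + 2 * π * s₀) * (k * q'))) := by
    have c1 := Cs_succ (2 * π * s₀) 0 (2 * π * ξ)
    simp only [zero_add, zero_mul, add_zero] at c1
    simp only [ch, Ph, Nat.cast_zero, zero_add, sub_self, c1, if_true, mul_zero, zero_mul, add_zero,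
      one_mul, hq, hq']
    simp only [Cs, zero_mul, add_zero]
    field_simp
    ring
  rw [e]
  unfold Dm'
  rw [← hq, ← hq']
  have b1 := abs_le.1 key
  have b2 := abs_le.1 s1
  have b3 := abs_le.1 q2
  have b4 : θ ≤ K * θ := le_mul_of_one_le_left hθ hK
  exact abs_le.2 ⟨by linarith [b1.1, b2.1, b3.1], by linarith [b1.2, b2.2, b3.2]⟩

end MB

open MB in
theorem modelB (h : SpaceStmt) : ModelBStmt := by
  refine ⟨1 / 250000, by norm_num, fun r κ hr hr0 hκ => ?_⟩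
  obtain ⟨s, hs0, hs1, hs2⟩ : ∃ s : ℝ, 0 < s ∧ s ≤ 1 ∧ s ≤ κ * r / 2 ^ 19 :=
    ⟨min 1 (κ * r / 2 ^ 19), lt_min one_pos (by positivity), min_le_left _ _, min_le_right _ _⟩
  obtain ⟨t, ht0, ht1, ht2⟩ : ∃ t : ℝ, 0 < t ∧ t ≤ 1 ∧ t * (2 / s) ^ 4 = 1 / 1200 := by
    refine ⟨(s / 2) ^ 4 / 1200, by positivity, ?_, by field_simp⟩
    have : (s / 2) ^ 4 ≤ 1 := pow_le_one₀ (by positivity) (by linarith)
    linarith
  obtain ⟨θ₀, hθ0, hθ1, hθ2⟩ : ∃ θ₀ : ℝ, 0 < θ₀ ∧ θ₀ ≤ 1 ∧ θ₀ ≤ κ * r * t / 2 ^ 32 :=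
    ⟨min 1 (κ * r * t / 2 ^ 32), lt_min one_pos (by positivity), min_le_left _ _, min_le_right _ _⟩
  refine ⟨t / 1600000, θ₀, by positivity, hθ0, fun k s₀ s₂ e₀ e₁ e₂ d hk hs h₀ h₁ h₂ => ?_⟩
  have hω1 : 6 ≤ 2 * π := by linarith [pi_gt_three]
  have hω2 : 2 * π ≤ 7 := by linarith [pi_lt_d2]
  obtain ⟨l, hl, hlow⟩ := lower (2 * π * s₀) (k * e₀) (k * e₁ / (2 * π)) (k * e₂ / (2 * π) ^ 2)
  obtain ⟨Λ, hΛ⟩ : ∃ Λ, Λ = max 1 (max |k * e₀| (max |k * e₁ / (2 * π)| |k * e₂ / (2 * π) ^ 2|)) :=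
    ⟨_, rfl⟩
  have hΛ1 : 1 ≤ Λ := hΛ ▸ le_max_left _ _
  have Q0 : |k * e₀| ≤ Λ := hΛ ▸ (le_max_left _ _).trans (le_max_right _ _)
  have Q1 : |k * e₁ / (2 * π)| ≤ Λ :=
    hΛ ▸ ((le_max_left _ _).trans (le_max_right _ _)).trans (le_max_right _ _)
  have Q2 : |k * e₂ / (2 * π) ^ 2| ≤ Λ :=
    hΛ ▸ ((le_max_right _ _).trans (le_max_right _ _)).trans (le_max_right _ _)
  rw [← hΛ] at hlow
  have hω3 : (2 * π) ^ 2 ≤ 49 := by nlinarith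
  have hω4 : 36 ≤ (2 * π) ^ 2 := by nlinarith
  have k1 : |k * e₁| ≤ 49 * Λ := by
    rw [abs_div, abs_of_pos (by positivity : 0 < 2 * π), div_le_iff₀ (by positivity)] at Q1
    nlinarith
  have k2 : |k * e₂| ≤ 49 * Λ := by
    rw [abs_div, abs_of_pos (by positivity : 0 < (2 * π) ^ 2), div_le_iff₀ (by positivity)] at Q2
    nlinarith
  set f := ch (2 * π * s₀) (k * e₀) (k * e₁ / (2 * π)) (k * e₂ / (2 * π) ^ 2) with hf
  obtain ⟨F, hF, hF'⟩ := h f l (-(1 / 30600)) (1 / 30600) (Λ / 600) (t * Λ) s hs0 (by positivity)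
    (fun i _ x _ => hasDerivAt_ch _ _ _ _ i x) hlow (by
      have a1 : (2 / s) ^ l ≤ (2 / s) ^ 4 :=
        pow_le_pow_right₀ ((one_le_div hs0).2 (by linarith)) hl
      have a2 := mul_le_mul_of_nonneg_left a1 (by positivity : 0 ≤ t * Λ)
      rw [mul_right_comm t Λ ((2 / s) ^ 4), ht2] at a2
      linarith)
  have hmem : ∀ ξ ∈ Set.Icc (-r) r, 2 * π * ξ ∈ Set.Icc (-(1 / 30600) : ℝ) (1 / 30600) :=
    fun ξ hξ => ⟨by nlinarith [hξ.1], by nlinarith [hξ.2]⟩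
  have hclose : ∀ ξ ∈ Set.Icc (-r) r,
      |Dm' k s₀ s₂ e₀ e₁ e₂ ξ + (2 * π) ^ 2 * f 0 (2 * π * ξ)| ≤ t * Λ := by
    intro ξ hξ
    refine (Dm'_close hk (by linarith) hs h₀ h₁ h₂ (K := 49 * Λ) (by linarith) k1 k2 (by linarith)
      (abs_le.2 ⟨by linarith [hξ.1], by linarith [hξ.2]⟩)).trans ?_
    nlinarith [mul_pos ht0 (zero_lt_one.trans_le hΛ1)]
  have hup : ∀ ξ ∈ Set.Icc (-r) r, |Dm' k s₀ s₂ e₀ e₁ e₂ ξ| ≤ 2600 * Λ := by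
    intro ξ hξ
    have a0 := hmem ξ hξ
    have a1 := abs_le.1 (abs_Ph_le (2 * π * s₀) Q0 Q1 Q2 (x := 2 * π * ξ) (t := 1)
      (abs_le.2 ⟨by linarith [a0.1], by linarith [a0.2]⟩) le_rfl (by norm_num))
    have a2 : |f 0 (2 * π * ξ)| ≤ 52 * Λ := by
      have b1 : 1 / π ^ 2 ≤ 1 := by
        rw [div_le_one (by positivity)]
        nlinarith
      have b2 : 0 ≤ 1 / π ^ 2 := by positivity
      simp only [hf, ch, Nat.cast_zero, zero_add, if_true]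
      exact abs_le.2 ⟨by linarith [a1.1], by linarith [a1.2]⟩
    have a3 : |(2 * π) ^ 2 * f 0 (2 * π * ξ)| ≤ 49 * (52 * Λ) := by
      rw [abs_mul, abs_of_nonneg (by positivity : 0 ≤ (2 * π) ^ 2)]
      gcongr
    have a4 := abs_le.1 a3
    have a5 := abs_le.1 (hclose ξ hξ)
    have a6 : t * Λ ≤ Λ := mul_le_of_le_one_left (by linarith) ht1
    exact abs_le.2 ⟨by linarith [a4.2, a5.1], by linarith [a4.1, a5.2]⟩
  have htΛ : 0 < t * Λ := by positivity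
  have hβ : (2 * (2600 * Λ) + 2) * (2 * θ₀ / (t * Λ)) ≤ κ * r / 2 ^ 17 := by
    rw [← mul_div_assoc, div_le_div_iff₀ htΛ (by positivity)]
    rw [le_div_iff₀ (by positivity)] at hθ2
    nlinarith [mul_le_mul_of_nonneg_right hθ2 (zero_le_one.trans hΛ1),
      mul_le_mul_of_nonneg_left hΛ1 hθ0.le]
  have main := cells (S := {ξ | |cos (π * Dm k s₀ s₂ e₀ e₁ e₂ d ξ)| ≤ θ₀})
    (P := fun ξ => t * Λ ≤ |Dm' k s₀ s₂ e₀ e₁ e₂ ξ|) (r := r) (β := κ * r / 2 ^ 17) (s := s)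
    (by positivity) hs0 (fun a b ha hb hP => (cell (hasDerivAt_Dm k s₀ s₂ e₀ e₁ e₂ d) htΛ hθ0.le hθ1
      (L := 2600 * Λ) (by positivity) (by linarith) fun x hx =>
        ⟨hP x hx, hup x ⟨ha.trans hx.1, hx.2.trans hb⟩⟩).trans (ENNReal.ofReal_le_ofReal hβ))
    (F.image fun y => y / (2 * π)) (-r) r le_rfl le_rfl fun ξ hξ hfar => by
      have a1 : t * Λ < |f 0 (2 * π * ξ)| := by
        by_contra hle
        obtain ⟨y, hy, hy'⟩ := hF' _ (hmem ξ hξ) (not_lt.1 hle)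
        have b1 := hfar _ (Finset.mem_image_of_mem _ hy)
        rw [show 2 * π * ξ - y = 2 * π * (ξ - y / (2 * π)) by field_simp, abs_mul,
          abs_of_pos (by positivity : 0 < 2 * π)] at hy'
        nlinarith
      have a2 := abs_sub_abs_le_abs_sub ((2 * π) ^ 2 * f 0 (2 * π * ξ))
        (-Dm' k s₀ s₂ e₀ e₁ e₂ ξ)
      rw [abs_neg, sub_neg_eq_add, add_comm, abs_mul,
        abs_of_nonneg (by positivity : 0 ≤ (2 * π) ^ 2)] at a2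
      nlinarith [hclose ξ hξ]
  refine le_trans (measure_mono ?_) (main.trans (ENNReal.ofReal_le_ofReal ?_))
  · exact fun ξ hξ => ⟨hξ.2, abs_le.1 hξ.1⟩
  have c1 : (F.image fun y => y / (2 * π)).card ≤ 16 :=
    Finset.card_image_le.trans (hF.trans (Nat.pow_le_pow_right two_pos hl))
  have c2 : (2 : ℝ) ^ (F.image fun y => y / (2 * π)).card ≤ 2 ^ 16 :=
    pow_le_pow_right₀ one_le_two c1
  have c3 := mul_le_mul_of_nonneg_right c2 (by positivity : 0 ≤ κ * r / 2 ^ 17 + 4 * s)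
  linarith

end Crest.Agent.R128
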