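import Crest.Agent.R128.Defs

/-!
Row 128: the gain in a node, from the gains in cells and after a matched level.
-/

set_option autoImplicit false
open MeasureTheory Real

namespace Crest.Agent.R128

namespace NodeAux

/-- Cutting an interval into cells of length `l`. -/
theorem cells (S : Set ℝ) (Rel : ℝ → ℝ → Prop) (c R l v : ℝ) (hl : 0 < l) (hR : 0 ≤ R)
    (hv : 0 ≤ v) (hS : ∀ α ∈ S, |α - c| ≤ R)
    (h : ∀ β ∈ S, volume {y : ℝ | ∃ α ∈ S, |α - β| ≤ l ∧ Rel y α} ≤ ENNReal.ofReal v) :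
    volume {y : ℝ | ∃ α ∈ S, Rel y α} ≤ ENNReal.ofReal ((2 * R / l + 1) * v) := by
  classical
  set n := ⌊2 * R / l⌋₊ + 1 with hn
  have hsub : {y : ℝ | ∃ α ∈ S, Rel y α} ⊆
      ⋃ i ∈ Finset.range n, {y : ℝ | ∃ α ∈ S, ⌊(α - (c - R)) / l⌋₊ = i ∧ Rel y α} := by
    rintro y ⟨α, hα, hy⟩
    simp only [Set.mem_iUnion, Finset.mem_range]
    refine ⟨⌊(α - (c - R)) / l⌋₊, ?_, α, hα, rfl, hy⟩
    have h1 := (abs_le.1 (hS α hα)).2
    exact Nat.lt_succ_of_le (Nat.floor_le_floor (by gcongr; linarith))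
  have hcell : ∀ i, volume {y : ℝ | ∃ α ∈ S, ⌊(α - (c - R)) / l⌋₊ = i ∧ Rel y α}
      ≤ ENNReal.ofReal v := by
    intro i
    by_cases hex : ∃ β ∈ S, ⌊(β - (c - R)) / l⌋₊ = i
    · obtain ⟨β, hβ, hβi⟩ := hex
      refine (measure_mono ?_).trans (h β hβ)
      rintro y ⟨α, hα, hαi, hy⟩
      refine ⟨α, hα, ?_, hy⟩
      have ha0 : 0 ≤ (α - (c - R)) / l := div_nonneg (by linarith [(abs_le.1 (hS α hα)).1]) hl.le
      have hb0 : 0 ≤ (β - (c - R)) / l := div_nonneg (by linarith [(abs_le.1 (hS β hβ)).1]) hl.le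
      have a1 := Nat.floor_le ha0
      have a2 := Nat.lt_floor_add_one ((α - (c - R)) / l)
      have b1 := Nat.floor_le hb0
      have b2 := Nat.lt_floor_add_one ((β - (c - R)) / l)
      rw [hαi] at a1 a2
      rw [hβi] at b1 b2
      rw [le_div_iff₀ hl] at a1 b1
      rw [div_lt_iff₀ hl] at a2 b2
      rw [abs_le]
      constructor <;> nlinarith
    · have : {y : ℝ | ∃ α ∈ S, ⌊(α - (c - R)) / l⌋₊ = i ∧ Rel y α} = ∅ := by
        ext y
        simp only [Set.mem_ofPred_eq, Set.mem_empty_iff_false, iff_false]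
        rintro ⟨α, hα, hαi, -⟩
        exact hex ⟨α, hα, hαi⟩
      simp [this]
  refine (measure_mono hsub).trans ((measure_biUnion_finset_le _ _).trans ?_)
  refine (Finset.sum_le_sum fun i _ => hcell i).trans ?_
  rw [Finset.sum_const, Finset.card_range, nsmul_eq_mul, ← ENNReal.ofReal_natCast,
    ← ENNReal.ofReal_mul (Nat.cast_nonneg _)]
  refine ENNReal.ofReal_le_ofReal (mul_le_mul_of_nonneg_right ?_ hv)
  have := Nat.floor_le (show 0 ≤ 2 * R / l by positivity)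
  rw [hn]; push_cast; linarith

theorem abs_half {a b e : ℝ} (h : |a - b| ≤ |b| / e) (he : 2 ≤ e) :
    |b| / 2 ≤ |a| ∧ |a| ≤ 2 * |b| := by
  have h1 : |b| / e ≤ |b| / 2 := by gcongr
  have h2 := abs_sub_abs_le_abs_sub a b
  have h3 := abs_sub_abs_le_abs_sub b a
  rw [abs_sub_comm b a] at h3
  have := abs_nonneg b
  constructor <;> linarith

/-- Stability of the larger slope. -/
theorem pp_stab (h3 : SideStmt) : ∃ B₀ : ℝ, ∀ k B : ℝ, B₀ ≤ B → Sc k B →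
    ∀ (η x₀ α₀ α : ℝ) (J J' : ℕ), Lev k B η (x₀, α₀) J J' →
      |α - α₀| * PP k (x₀, α₀) J J' ≤ 1 →
      PP k (x₀, α₀) J J' / 2 ≤ PP k (x₀, α) J J' ∧ PP k (x₀, α) J J' ≤ 2 * PP k (x₀, α₀) J J' := by
  obtain ⟨B₀, h3⟩ := h3
  refine ⟨max B₀ 2, fun k B hB hSc η x₀ α₀ α J J' ⟨a, hg1, hg2, _⟩ hα => ?_⟩
  have hB0 := (le_max_left _ _).trans hB
  have hB2 := (le_max_right _ _).trans hB
  have he : (2 : ℝ) ≤ B ^ 800 := hB2.trans (le_self_pow₀ (by linarith) (by norm_num))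
  obtain ⟨s, -, hs⟩ := h3 k B hB0 hSc η _ a J' hg1
  obtain ⟨s', -, hs'⟩ := h3 k B hB0 hSc η _ _ J hg2
  have e1 := (hs (α - α₀) (le_trans (by gcongr; exact le_max_right _ _) hα)).1
  have e2 := (hs' (-(α - α₀)) (le_trans (by rw [abs_neg]; gcongr; exact le_max_left _ _) hα)).1
  have r1 : (((x₀, α₀) : ℝ × ℝ).1, ((x₀, α₀) : ℝ × ℝ).2 + (α - α₀)) = (x₀, α) := by simp
  have r2 : ((Lf k (x₀, α₀)).1, (Lf k (x₀, α₀)).2 + -(α - α₀)) = Lf k (x₀, α) := by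
    simp only [Lf, Prod.mk.injEq, true_and]; ring
  rw [r1] at e1
  rw [r2] at e2
  obtain ⟨f1, f2⟩ := abs_half e1 he
  obtain ⟨g1, g2⟩ := abs_half e2 he
  unfold PP
  constructor
  · rw [div_le_iff₀ two_pos]
    refine max_le ?_ ?_
    · linarith [le_max_left |ww k (Lf k (x₀, α)) J| |ww k (x₀, α) J'|]
    · linarith [le_max_right |ww k (Lf k (x₀, α)) J| |ww k (x₀, α) J'|]
  · refine max_le ?_ ?_
    · linarith [le_max_left |ww k (Lf k (x₀, α₀)) J| |ww k (x₀, α₀) J'|]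
    · linarith [le_max_right |ww k (Lf k (x₀, α₀)) J| |ww k (x₀, α₀) J'|]

/-- The larger slope is positive, and grows by a factor comparable to `B ^ 1000`. -/
theorem pp_step (h4 : PtStmt) (η : ℝ) (hη : 0 < η) : ∃ B₀ : ℝ, ∀ k B : ℝ, B₀ ≤ B → Sc k B →
    ∀ (p : ℝ × ℝ) (J J' : ℕ), Lev k B η p J J' → 0 < PP k p J J' ∧
      η / 2 * B ^ 1000 * PP k p J J' ≤ PP k p (J + 1) (J' + 1) ∧
      PP k p (J + 1) (J' + 1) ≤ B ^ 1000 * PP k p J J' := by
  obtain ⟨B₀, h4⟩ := h4 η hη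
  refine ⟨max B₀ 1, fun k B hB hSc p J J' ⟨a, hg1, hg2, _⟩ => ?_⟩
  have hB0 := (le_max_left _ _).trans hB
  have hB1 : 0 < B := lt_of_lt_of_le one_pos ((le_max_right _ _).trans hB)
  obtain ⟨a1, -, a2, a3⟩ := h4 k B hB0 hSc _ a J' hg1
  obtain ⟨b1, -, b2, b3⟩ := h4 k B hB0 hSc _ _ J hg2
  have hK : 0 < B ^ 1000 := by positivity
  unfold PP
  refine ⟨lt_of_lt_of_le (by positivity) (a1.trans (le_max_right _ _)), ?_, ?_⟩
  · rw [mul_max_of_nonneg _ _ (by positivity)]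
    exact max_le_max b2 a2
  · rw [mul_max_of_nonneg _ _ hK.le]
    exact max_le_max b3 a3

theorem big {B c : ℝ} (hc : 0 < c) (hB : 2 / c ≤ B) (hB1 : 1 ≤ B) {n : ℕ} (hn : n ≠ 0) :
    2 / B ^ n ≤ c := by
  have h1 : B ≤ B ^ n := le_self_pow₀ hB1 hn
  rw [div_le_iff₀ (by positivity)]
  rw [div_le_iff₀ hc] at hB
  nlinarith

end NodeAux

open NodeAux in
theorem node (h1 : CellStmt) (h2 : MatchStmt) (h3 : SideStmt) (h4 : PtStmt) : NodeStmt := by
  intro η κ hη hκ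
  obtain ⟨r₁, θ, θ₀, B₁, hr₁, hr₁1, hθ, hθ₀, hM⟩ := h2 η (κ / 20) hη (by positivity)
  obtain ⟨r, hrdef⟩ : ∃ r, r = r₁ / 4 := ⟨_, rfl⟩
  have hr : 0 < r := by rw [hrdef]; positivity
  have hr1 : r ≤ 1 := by linarith
  obtain ⟨κ₂, hκ₂def⟩ : ∃ x, x = κ * η / 40000 := ⟨_, rfl⟩
  obtain ⟨κ₃, hκ₃def⟩ : ∃ x, x = κ * r / 3000 := ⟨_, rfl⟩
  have hκ₂ : 0 < κ₂ := by rw [hκ₂def]; positivity
  have hκ₃ : 0 < κ₃ := by rw [hκ₃def]; positivity
  obtain ⟨r₂, B₂, hr₂, hr₂1, hC₂⟩ := h1 η θ₀ κ₂ hη hθ₀ hκ₂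
  obtain ⟨r₃, B₃, hr₃, hr₃1, hC₃⟩ := h1 η θ κ₃ hη hθ hκ₃
  obtain ⟨B₄, hstab⟩ := pp_stab h3
  obtain ⟨B₅, hstep⟩ := pp_step h4 η hη
  refine ⟨r, max (max (max B₁ B₂) (max B₃ B₄)) (max (max B₅ 2)
    (max (2 / (κ₂ * r₂)) (max (2 / (κ₃ * r₃)) (2 / r)))), hr, hr1, ?_⟩
  intro k B hB hSc x₀ α₀ J J' hP
  simp only [max_le_iff] at hB
  obtain ⟨⟨⟨hB₁, hB₂⟩, hB₃, hB₄⟩, ⟨hB₅, hB2⟩, hB₆, hB₇, hB₈⟩ := hB
  have hB1 : 1 ≤ B := by linarith
  have hB0 : 0 < B := by linarith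
  obtain ⟨P, hPdef⟩ : ∃ P, P = PP k (x₀, α₀) J J' := ⟨_, rfl⟩
  have hP0 : 0 < P := hPdef ▸ (hstep k B hB₅ hSc _ J J' hP.1).1
  rw [← hPdef]
  have hst : ∀ α, |α - α₀| * P ≤ r → P / 2 ≤ PP k (x₀, α) J J' ∧ PP k (x₀, α) J J' ≤ 2 * P := by
    intro α hα
    rw [hPdef] at hα ⊢
    exact hstab k B hB₄ hSc η x₀ α₀ α J J' hP.1 (hα.trans hr1)
  obtain ⟨K, hKdef⟩ : ∃ K, K = B ^ 1000 := ⟨_, rfl⟩
  have hK0 : 0 < K := by rw [hKdef]; positivity
  obtain ⟨t, htdef⟩ : ∃ t, t = 1 / B ^ 1600 := ⟨_, rfl⟩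
  rw [← htdef]
  have ht0 : 0 < t := by rw [htdef]; positivity
  have ht1 : 2 * t ≤ 1 / B ^ 1500 := by
    have : 2 / B ^ 100 ≤ 1 := big one_pos (by linarith) hB1 (by norm_num)
    calc 2 * t = 2 / B ^ 100 * (1 / B ^ 1500) := by rw [htdef]; field_simp
      _ ≤ 1 * (1 / B ^ 1500) := by gcongr
      _ = _ := one_mul _
  have ht2 : 2 * K * t ≤ κ₂ * r₂ := by
    have : 2 / B ^ 600 ≤ κ₂ * r₂ := big (by positivity) hB₆ hB1 (by norm_num)
    calc 2 * K * t = 2 / B ^ 600 := by rw [htdef, hKdef]; field_simp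
      _ ≤ _ := this
  have ht3 : 2 * t ≤ κ₃ * r₃ := by
    have : 2 / B ^ 1600 ≤ κ₃ * r₃ := big (by positivity) hB₇ hB1 (by norm_num)
    calc 2 * t = 2 / B ^ 1600 := by rw [htdef]; field_simp
      _ ≤ _ := this
  have hrK : 2 ≤ r * K := by
    have : 2 / B ^ 1000 ≤ r := big hr hB₈ hB1 (by norm_num)
    rwa [← hKdef, div_le_iff₀ hK0] at this
  by_cases hcase : ∃ α₁, |α₁ - α₀| * P ≤ r ∧ Pair k B η (x₀, α₁) J J' ∧ Matched k θ (x₀, α₁) J J'
  · obtain ⟨α₁, hα₁, hp₁, hm₁⟩ := hcase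
    obtain ⟨s1, s2⟩ := hst α₁ hα₁
    have hPP : 0 < PP k (x₀, α₁) J J' := by linarith
    have hA := hM k B hB₁ hSc x₀ α₁ J J' hp₁.1 hm₁
    have hcell := cells {α | |α - α₀| * P ≤ r ∧ Pair k B η (x₀, α) J J' ∧
        ¬ Matched k θ₀ (x₀, α) (J + 1) (J' + 1)} (fun y α => |y - α| * P ≤ t) α₀ (r / P)
      (r₂ / (2 * K * P)) (1200 * κ₂ * r₂ / (η * K * P)) (by positivity) (by positivity)
      (by positivity) (fun α hα => by rw [le_div_iff₀ hP0]; exact hα.1) (by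
        rintro β ⟨hβ, hpβ, hmβ⟩
        obtain ⟨u1, u2⟩ := hst β hβ
        obtain ⟨-, v1, v2⟩ := hstep k B hB₅ hSc _ J J' hpβ.1
        rw [← hKdef] at v1 v2
        have w1 : η * K * P / 4 ≤ PP k (x₀, β) (J + 1) (J' + 1) := by
          refine le_trans ?_ v1
          calc η * K * P / 4 = η / 2 * K * (P / 2) := by ring
            _ ≤ _ := by gcongr
        have w2 : PP k (x₀, β) (J + 1) (J' + 1) ≤ 2 * K * P := by
          refine v2.trans ?_
          calc K * PP k (x₀, β) J J' ≤ K * (2 * P) := by gcongr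
            _ = _ := by ring
        have w0 : 0 < η * K * P / 4 := by positivity
        refine (measure_mono ?_).trans ((hC₂ k B hB₂ hSc x₀ β _ _ hpβ.2 hmβ).trans
          (ENNReal.ofReal_le_ofReal ?_))
        · rintro y ⟨α, ⟨-, hpα, -⟩, hαβ, hy⟩
          refine ⟨α, ?_, hpα.2, ?_⟩
          · rw [le_div_iff₀ (by positivity)] at hαβ
            exact le_trans (by gcongr) hαβ
          · calc |y - α| * PP k (x₀, β) (J + 1) (J' + 1) ≤ |y - α| * (2 * K * P) := by gcongr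
              _ = 2 * K * (|y - α| * P) := by ring
              _ ≤ 2 * K * t := by gcongr
              _ ≤ _ := ht2
        · calc 300 * κ₂ * r₂ / PP k (x₀, β) (J + 1) (J' + 1)
              ≤ 300 * κ₂ * r₂ / (η * K * P / 4) := by gcongr
            _ = _ := by field_simp; ring)
    refine (measure_mono (t := _ ∪ _) ?_).trans ((measure_union_le _ _).trans
      ((add_le_add hA hcell).trans ?_))
    · rintro y ⟨α, hα, hpα, hy⟩
      by_cases hm : Matched k θ₀ (x₀, α) (J + 1) (J' + 1)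
      · refine Or.inl ⟨α, ?_, hpα.1, hm, ?_⟩
        · have : |α - α₁| ≤ |α - α₀| + |α₁ - α₀| := by
            have := abs_sub (α - α₀) (α₁ - α₀)
            rwa [sub_sub_sub_cancel_right] at this
          calc |α - α₁| * PP k (x₀, α₁) J J' ≤ (|α - α₀| + |α₁ - α₀|) * (2 * P) := by gcongr
            _ = 2 * (|α - α₀| * P + |α₁ - α₀| * P) := by ring
            _ ≤ r₁ := by linarith
        · calc |y - α| * PP k (x₀, α₁) J J' ≤ |y - α| * (2 * P) := by gcongr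
            _ = 2 * (|y - α| * P) := by ring
            _ ≤ 2 * t := by gcongr
            _ ≤ _ := ht1
      · exact Or.inr ⟨α, ⟨hα, hpα, hm⟩, hy⟩
    · rw [← ENNReal.ofReal_add (by positivity) (by positivity)]
      refine ENNReal.ofReal_le_ofReal ?_
      have e1 : κ / 20 * r₁ / PP k (x₀, α₁) J J' ≤ 2 / 5 * (κ * r / P) :=
        calc κ / 20 * r₁ / PP k (x₀, α₁) J J' ≤ κ / 20 * r₁ / (P / 2) := by gcongr
          _ = _ := by rw [hrdef]; field_simp; ring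
      have e2 : 2 * (r / P) / (r₂ / (2 * K * P)) + 1 ≤ 8 * r * K / r₂ := by
        have : 2 * (r / P) / (r₂ / (2 * K * P)) = 4 * r * K / r₂ := by field_simp; ring
        rw [this, div_add_one hr₂.ne']
        gcongr
        nlinarith
      have e3 : (2 * (r / P) / (r₂ / (2 * K * P)) + 1) * (1200 * κ₂ * r₂ / (η * K * P))
          ≤ 6 / 25 * (κ * r / P) :=
        calc _ ≤ 8 * r * K / r₂ * (1200 * κ₂ * r₂ / (η * K * P)) := by gcongr
          _ = _ := by rw [hκ₂def]; field_simp; ring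
      have : 0 ≤ κ * r / P := by positivity
      linarith
  · have hcell := cells {α | |α - α₀| * P ≤ r ∧ Pair k B η (x₀, α) J J'}
      (fun y α => |y - α| * P ≤ t) α₀ (r / P)
      (r₃ / (2 * P)) (600 * κ₃ * r₃ / P) (by positivity) (by positivity)
      (by positivity) (fun α hα => by rw [le_div_iff₀ hP0]; exact hα.1) (by
        rintro β ⟨hβ, hpβ⟩
        obtain ⟨u1, u2⟩ := hst β hβ
        have w0 : 0 < P / 2 := by positivity
        refine (measure_mono ?_).trans ((hC₃ k B hB₃ hSc x₀ β _ _ hpβ.1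
          (fun hm => hcase ⟨β, hβ, hpβ, hm⟩)).trans (ENNReal.ofReal_le_ofReal ?_))
        · rintro y ⟨α, ⟨-, hpα⟩, hαβ, hy⟩
          refine ⟨α, ?_, hpα.1, ?_⟩
          · rw [le_div_iff₀ (by positivity)] at hαβ
            exact le_trans (by gcongr) hαβ
          · calc |y - α| * PP k (x₀, β) J J' ≤ |y - α| * (2 * P) := by gcongr
              _ = 2 * (|y - α| * P) := by ring
              _ ≤ 2 * t := by gcongr
              _ ≤ _ := ht3
        · calc 300 * κ₃ * r₃ / PP k (x₀, β) J J' ≤ 300 * κ₃ * r₃ / (P / 2) := by gcongr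
            _ = _ := by field_simp; ring)
    refine (measure_mono ?_).trans (hcell.trans (ENNReal.ofReal_le_ofReal ?_))
    · rintro y ⟨α, hα, hpα, hy⟩
      exact ⟨α, ⟨hα, hpα⟩, hy⟩
    · calc (2 * (r / P) / (r₃ / (2 * P)) + 1) * (600 * κ₃ * r₃ / P)
          = (4 * r + r₃) * (600 * κ₃ / P) := by field_simp; ring
        _ ≤ 5 * (600 * κ₃ / P) := by gcongr; linarith
        _ = κ * r / P := by rw [hκ₃def]; field_simp; ring

end Crest.Agent.R128
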