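import Crest.Agent.R128.Basic

/-! Row 128: the one-sided expansion `OneStmt`. -/

set_option autoImplicit false
open MeasureTheory Real

namespace Crest.Agent.R128

namespace OneA

lemma norm_sin_le {z : ℂ} (h : |z.im| ≤ 1) : ‖Complex.sin z‖ ≤ 2 := by
  have h1 : Real.cosh z.im ≤ Real.cosh 1 := Real.cosh_le_cosh.2 (by simpa using h)
  have h2 : Real.cosh 1 ≤ 2 := by
    rw [Real.cosh_eq]
    have := Real.exp_one_lt_d9
    have h3 : Real.exp (-1) ≤ 1 := Real.exp_le_one_iff.2 (by norm_num)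
    linarith
  have h3 : ‖Complex.sin z‖ ≤ Real.cosh z.im := by
    rw [Complex.sin, norm_div, norm_mul, Complex.norm_I, mul_one, Real.cosh_eq]
    have h4 := norm_sub_le (Complex.exp (-z * Complex.I)) (Complex.exp (z * Complex.I))
    rw [Complex.norm_exp, Complex.norm_exp] at h4
    simp only [Complex.mul_re, Complex.neg_re, Complex.I_re, mul_zero, Complex.neg_im,
      Complex.I_im, mul_one, zero_sub, neg_neg] at h4
    simp only [Complex.norm_ofNat]
    linarith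
  linarith

lemma cos_lip {u v : ℂ} (hu : |u.im| ≤ 1) (hv : |v.im| ≤ 1) :
    ‖Complex.cos u - Complex.cos v‖ ≤ 2 * ‖u - v‖ := by
  have hc : Convex ℝ {z : ℂ | |z.im| ≤ 1} := by
    have : {z : ℂ | |z.im| ≤ 1} = {z : ℂ | -1 ≤ z.im} ∩ {z : ℂ | z.im ≤ 1} := by
      ext z; simp [abs_le]
    rw [this]
    exact (convex_halfSpace_im_ge _).inter (convex_halfSpace_im_le _)
  exact hc.norm_image_sub_le_of_norm_hasDerivWithin_le (f := Complex.cos)
    (f' := fun z => -Complex.sin z) (fun z _ => (Complex.hasDerivAt_cos z).hasDerivWithinAt)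
    (fun z hz => by rw [norm_neg]; exact norm_sin_le hz) hv hu

lemma sol_ofReal (V : ℕ → ℝ) (a b : ℝ) (n : ℕ) :
    sol (fun i => (V i : ℂ)) a b n = (sol V a b n : ℝ) := by
  induction n using Nat.twoStepInduction with
  | zero => rfl
  | one => rfl
  | more n h1 h2 => rw [sol_succ_succ, sol_succ_succ, h1, h2]; push_cast; rfl

lemma diff_sol {V : ℂ → ℕ → ℂ} (hV : ∀ n, Differentiable ℂ fun t => V t n) (a b : ℂ) (n : ℕ) :
    Differentiable ℂ fun t => sol (V t) a b n := by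
  induction n using Nat.twoStepInduction with
  | zero => exact differentiable_const _
  | one => exact differentiable_const _
  | more n h1 h2 => exact ((hV (n + 1)).mul h2).sub h1

/-- The algebraic core. -/
lemma core {A W c c' w : ℂ} {κ P ε η : ℝ} (hP : 0 < P) (hw : ‖w‖ = P) (hη : 0 < η)
    (hε : 0 < ε) (hε1 : ε ≤ 1) (hκ : 1 ≤ κ * ε) (hA : ‖A - w‖ ≤ ε * P) (hW : ‖W‖ ≤ 2 * P)
    (hc : η / 2 ≤ ‖c‖) (hc2 : ‖c‖ ≤ 2) (hcc : ‖c' - c‖ ≤ 13 * ε) (hs : 280 * ε ≤ η) :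
    A * ((2 + κ * c') * A - W) ≠ 0 ∧
      ‖1 / (A * ((2 + κ * c') * A - W)) - 1 / (w ^ 2 * κ * c)‖ ≤ 560 * ε / (κ * η ^ 2 * P ^ 2) := by
  have hκ0 : 0 < κ := (mul_pos_iff_of_pos_right hε).1 (by linarith)
  have hA2 : ‖A‖ ≤ 2 * P := by
    have := norm_le_norm_add_norm_sub' A w
    nlinarith
  have hAw : ‖A + w‖ ≤ 3 * P := (norm_add_le _ _).trans (by linarith)
  have hκn : ‖(κ : ℂ)‖ = κ := by simp [abs_of_pos hκ0]
  set X := A * ((2 + κ * c') * A - W) with hX
  set Y := w ^ 2 * κ * c with hY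
  have hE : ‖X - Y‖ ≤ 70 * (κ * ε) * P ^ 2 := by
    have e : X - Y = κ * c * ((A - w) * (A + w)) + (2 + κ * (c' - c)) * (A * A) - A * W := by
      rw [hX, hY]; ring
    have b1 : ‖κ * c * ((A - w) * (A + w))‖ ≤ κ * 2 * ((ε * P) * (3 * P)) := by
      rw [norm_mul, norm_mul, norm_mul, hκn]
      gcongr
    have b2 : ‖(2 + κ * (c' - c)) * (A * A)‖ ≤ (2 + κ * (13 * ε)) * ((2 * P) * (2 * P)) := by
      rw [norm_mul, norm_mul]
      have : ‖2 + κ * (c' - c)‖ ≤ 2 + κ * (13 * ε) := by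
        refine (norm_add_le _ _).trans ?_
        rw [norm_mul, hκn, Complex.norm_ofNat]
        gcongr
      gcongr
    have b3 : ‖A * W‖ ≤ (2 * P) * (2 * P) := by
      rw [norm_mul]
      gcongr
    rw [e]
    refine (norm_sub_le _ _).trans ((add_le_add (norm_add_le _ _) le_rfl).trans ?_)
    nlinarith [mul_le_mul_of_nonneg_right hκ (sq_nonneg P)]
  have hD : κ * η / 2 * P ^ 2 ≤ ‖Y‖ := by
    rw [hY, norm_mul, norm_mul, norm_pow, hw, hκn]
    nlinarith [mul_le_mul_of_nonneg_left hc (mul_pos (pow_pos hP 2) hκ0).le]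
  have hX2 : κ * η / 4 * P ^ 2 ≤ ‖X‖ := by
    have h1 := norm_le_norm_add_norm_sub' Y X
    rw [norm_sub_rev] at h1
    nlinarith [mul_le_mul_of_nonneg_left hs (mul_pos (pow_pos hP 2) hκ0).le]
  have hX0 : 0 < ‖X‖ := lt_of_lt_of_le (by positivity) hX2
  have hY0 : 0 < ‖Y‖ := lt_of_lt_of_le (by positivity) hD
  refine ⟨norm_pos_iff.1 hX0, ?_⟩
  rw [div_sub_div _ _ (norm_pos_iff.1 hX0) (norm_pos_iff.1 hY0), one_mul, mul_one, norm_div,
    norm_mul, norm_sub_rev]
  calc ‖X - Y‖ / (‖X‖ * ‖Y‖) ≤ 70 * (κ * ε) * P ^ 2 / ((κ * η / 4 * P ^ 2) * (κ * η / 2 * P ^ 2)) := by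
        gcongr
    _ = _ := by field_simp; norm_num

lemma u_le {k B η : ℝ} (hB : 2 ≤ B) (hk : Sc k B) (hη : 12 ≤ η * B ^ 1000) {p : ℝ × ℝ} {a : ℝ}
    {J : ℕ} (hG : Good k B η p a J) : |uu k p a J| ≤ |uu k p a (J - 1)| := by
  have hk0 : 0 ≤ k := by linarith [hk.one_le hB]
  obtain ⟨j, rfl⟩ : ∃ j, J = j + 1 := ⟨J - 1, by have := hG.two_le; omega⟩
  have h1 := abs_down (V := Vp k p) (u := uu k p a) (s := j + 1) rfl hG.dec
    (noncrit hk0 hk hη hG.c1)
  have h2 : |uu k p a (j + 2)| ≤ |uu k p a (j + 1)| := by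
    nlinarith [abs_nonneg (uu k p a (j + 1 + 1))]
  have h3 := abs_down (V := Vp k p) (u := uu k p a) (s := j) rfl h2 (noncrit hk0 hk hη hG.c0)
  rw [Nat.add_sub_cancel]
  nlinarith [abs_nonneg (uu k p a (j + 1))]

lemma RR_succ (k : ℝ) (q : ℝ × ℝ) (J : ℕ) (h : ww k q J * ww k q (J + 1) ≠ 0) :
    RR k q (J + 1) = RR k q J + 1 / (ww k q J * ww k q (J + 1)) := by
  have h1 := wronsk (Vp k q) 1 0 0 1 J
  have h2 := left_ne_zero_of_mul h
  have h3 := right_ne_zero_of_mul h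
  unfold RR
  change yy k q J * ww k q (J + 1) - yy k q (J + 1) * ww k q J = _ at h1
  field_simp
  linarith

end OneA

open OneA in
theorem one (h1 : CplxStmt) (h2 : TaylorStmt) (h3 : InnerStmt) : OneStmt := by
  intro η hη
  obtain ⟨hre, hdiff, B₁, h1⟩ := h1
  obtain ⟨B₃, h3⟩ := h3
  refine ⟨max (max B₁ B₃) (max 2 (2000000000 / η ^ 5)), fun k B hB hk p a J hG => ?_⟩
  simp only [max_le_iff] at hB
  obtain ⟨⟨hB₁, hB₃⟩, hB2, hBη⟩ := hB
  have hη1 : η ≤ 1 := hG.c0.trans (abs_cos_le_one _)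
  have hB1 : 1 ≤ B := by linarith
  have hB0 : 0 < B := by linarith
  have hηB : 2000000000 ≤ η ^ 5 * B := by
    rwa [div_le_iff₀' (by positivity)] at hBη
  have hη5 : η ^ 5 ≤ η := by
    simpa using pow_le_pow_of_le_one hη.le hη1 (show 1 ≤ 5 by norm_num)
  have hηB' : 2000000000 ≤ η * B := by nlinarith
  have hpow : ∀ m : ℕ, m ≠ 0 → B ≤ B ^ m := fun m hm => le_self_pow₀ hB1 hm
  obtain ⟨q₀, q₁, q₂, hq⟩ := h3 k B hB₃ hk η p a J hG
    (u_le hB2 hk (by nlinarith [hpow 1000 (by norm_num)]) hG)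
  obtain ⟨j, rfl⟩ : ∃ j, J = j + 1 := ⟨J - 1, by have := hG.two_le; omega⟩
  have hc := (h1 k B hB₁ hk).2 η p a (j + 1) hG
  set w := ww k p (j + 1) with hw
  set P := |w| with hP
  set x := orb k p (j + 1) with hx
  set κ := 2 * π * k with hκ
  set ε := 1 / B ^ 890 with hε
  have hP0 : 0 < P := by
    have h := hG.hW 1 (by have := hG.two_le; omega)
    have : ww k p 1 = 1 := rfl
    rw [this, abs_one, one_mul] at h
    exact lt_of_lt_of_le (by positivity) h
  have hε0 : 0 < ε := by positivity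
  have hεη : 280 * ε ≤ η := by
    rw [hε, mul_one_div, div_le_iff₀ (by positivity)]
    nlinarith [hpow 890 (by norm_num)]
  have hκ2 : B ^ 1000 / 2 ≤ κ := by
    have : κ + 3 = B ^ 1000 := hk
    nlinarith [hpow 1000 (by norm_num)]
  have hκε : 1 ≤ κ * ε := by
    rw [hε, mul_one_div, le_div_iff₀ (by positivity), one_mul]
    have : B ^ 1000 = B ^ 890 * B ^ 110 := by ring
    nlinarith [hpow 110 (by norm_num), pow_pos hB0 890]
  have hκ0 : 0 < κ := lt_of_lt_of_le (by positivity) hκ2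
  set wC : ℂ → ℕ → ℂ := fun d => sol (VpC k p.1 (p.2 + d)) 0 1 with hwC
  set F : ℂ → ℂ := fun d => 1 / (wC d (j + 1) * wC d (j + 2)) -
    1 / (w ^ 2 * κ * Complex.cos (2 * π * (x + w * d))) with hF
  have hπ := pi_le_four
  have hπ' := pi_lt_d2
  have hπn : ‖(2 * π : ℂ)‖ = 2 * π := by simp [abs_of_pos pi_pos]
  have key : ∀ d ∈ Metric.ball (0 : ℂ) (η / 30 / P), wC d (j + 1) * wC d (j + 2) ≠ 0 ∧
      (w ^ 2 * κ * Complex.cos (2 * π * (x + w * d)) : ℂ) ≠ 0 ∧
      ‖F d‖ ≤ 560 * ε / (κ * η ^ 2 * P ^ 2) := fun d hd => by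
    rw [mem_ball_zero_iff, lt_div_iff₀ hP0] at hd
    have hd1 : ‖d‖ * P ≤ 1 := by linarith
    have hWJ : Wm k B p (j + 1) (j + 1) = P := by simp [Wm, hP, hw]
    have hWj : Wm k B p (j + 1) j = P / B ^ 950 := by simp [Wm, hP, hw]
    have h950 : 1 ≤ B ^ 950 := one_le_pow₀ hB1
    have h900 : 1 ≤ B ^ 900 := one_le_pow₀ hB1
    have h890 : 1 ≤ B ^ 890 := one_le_pow₀ hB1
    have hW1 : P / B ^ 950 ≤ P := div_le_self hP0.le h950
    have hW0 : 0 ≤ P / B ^ 950 := by positivity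
    obtain ⟨e1, e2⟩ := hc d (j + 1) le_rfl (by rw [hWJ]; linarith)
    obtain ⟨-, e3⟩ := hc d j (Nat.le_succ j) (by
      rw [hWj]; nlinarith [norm_nonneg d])
    rw [hWJ] at e1 e2
    rw [hWj] at e3
    have e1' : ‖orbC k p.1 (p.2 + d) (j + 1) - (x + w * d)‖ ≤ ε := by
      have : orbC k p.1 (p.2 + d) (j + 1) - (x + w * d) =
          orbC k p.1 (p.2 + d) (j + 1) - x - d * w := by ring
      rw [this]
      refine e1.trans ?_
      rw [hε, ← mul_pow]
      gcongr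
      exact pow_le_one₀ (by positivity) hd1
    have e2' : ‖wC d (j + 1) - w‖ ≤ ε * P := by
      refine e2.trans ?_
      rw [hε, div_mul_eq_mul_div]
      refine div_le_div_of_nonneg_right ?_ (by positivity)
      nlinarith
    have e3' : ‖wC d j‖ ≤ 2 * P := by
      have h4 := norm_le_norm_add_norm_sub' (wC d j) (ww k p j)
      have h5 : ‖d‖ * (P / B ^ 950) ^ 2 / B ^ 890 ≤ P := by
        refine (div_le_self (by positivity) h890).trans ?_
        have : (P / B ^ 950) ^ 2 ≤ P ^ 2 := by gcongr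
        nlinarith [norm_nonneg d]
      have h6 := hG.hW j (Nat.lt_succ_self j)
      have h7 : |ww k p j| ≤ P :=
        (le_mul_of_one_le_right (abs_nonneg _) (one_le_pow₀ hB1)).trans h6
      rw [Complex.norm_real, Real.norm_eq_abs] at h4
      linarith
    have hwd : ‖(w : ℂ) * d‖ ≤ η / 30 := by
      rw [norm_mul, Complex.norm_real, Real.norm_eq_abs]
      linarith
    have him : ∀ z : ℂ, ‖z‖ ≤ 1 / 8 → |(2 * π * (x + z) : ℂ).im| ≤ 1 := fun z hz => by
      have : (2 * π * (x + z) : ℂ).im = (2 * π * z : ℂ).im := by simp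
      rw [this]
      refine (Complex.abs_im_le_norm _).trans ?_
      rw [norm_mul, hπn]
      nlinarith [pi_pos]
    have i0 := him 0 (by simp)
    have i1 := him (w * d) (by linarith)
    have i2 := him (orbC k p.1 (p.2 + d) (j + 1) - x) (by
      have := norm_le_norm_add_norm_sub' (orbC k p.1 (p.2 + d) (j + 1) - x) (w * d)
      rw [sub_sub] at this
      linarith)
    rw [add_sub_cancel] at i2
    have c1 := cos_lip i1 i0
    have c2 := cos_lip i2 i1
    rw [← mul_sub, norm_mul, hπn] at c1 c2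
    rw [add_sub_add_left_eq_sub, sub_zero, add_zero] at c1
    have c3 : ‖Complex.cos (2 * π * x)‖ = |Real.cos (2 * π * x)| := by
      rw [← Real.norm_eq_abs, ← Complex.norm_real]
      push_cast
      rfl
    have c4 : 2 * (2 * π * ‖(w : ℂ) * d‖) ≤ η / 2 := by nlinarith [pi_pos]
    have c5 := hG.c0
    have c6 : η / 2 ≤ ‖Complex.cos (2 * π * (x + w * d))‖ := by
      have := norm_le_norm_add_norm_sub (Complex.cos (2 * π * (x + w * d))) (Complex.cos (2 * π * x))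
      linarith
    have c7 : ‖Complex.cos (2 * π * (x + w * d))‖ ≤ 2 := by
      have := norm_le_norm_add_norm_sub' (Complex.cos (2 * π * (x + w * d))) (Complex.cos (2 * π * x))
      linarith [abs_cos_le_one (2 * π * x)]
    have hk2 := core (A := wC d (j + 1)) (W := wC d j) (w := w)
      (c' := Complex.cos (2 * π * orbC k p.1 (p.2 + d) (j + 1))) hP0
      (by rw [Complex.norm_real, Real.norm_eq_abs]) hη hε0 (by linarith) hκε e2' e3' c6 c7
      (by nlinarith [norm_nonneg (orbC k p.1 (p.2 + d) (j + 1) - (x + w * d))]) hεη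
    have e5 : wC d (j + 2) = (2 + κ * Complex.cos (2 * π * orbC k p.1 (p.2 + d) (j + 1))) *
        wC d (j + 1) - wC d j := by
      simp only [hwC, sol_succ_succ, VpC, potC, hκ]
      push_cast
      rfl
    refine ⟨e5 ▸ hk2.1, ?_, by simp only [hF]; rw [e5]; exact hk2.2⟩
    refine mul_ne_zero (mul_ne_zero (pow_ne_zero _ ?_) (by exact_mod_cast hκ0.ne'))
      (norm_pos_iff.1 (lt_of_lt_of_le (by positivity) c6))
    exact_mod_cast abs_pos.1 hP0
  have hdw : ∀ n, Differentiable ℂ fun d => wC d n :=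
    diff_sol (V := fun d => VpC k p.1 (p.2 + d))
      (fun n => (hdiff k p.1 n).2.comp ((differentiable_const _).add differentiable_id)) 0 1
  obtain ⟨r₀, r₁, r₂, hr⟩ := h2 F (η / 30 / P) _ (by positivity)
    (((differentiableOn_const _).div ((hdw _).mul (hdw _)).differentiableOn
      fun d hd => (key d hd).1).sub ((differentiableOn_const _).div (by fun_prop)
        fun d hd => (key d hd).2.1)) fun d hd => (key d hd).2.2
  refine ⟨q₀ + r₀.re, q₁ + r₁.re, q₂ + r₂.re, fun δ hδ => ?_⟩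
  have hδb : (δ : ℂ) ∈ Metric.ball (0 : ℂ) (η / 30 / P) := by
    rw [mem_ball_zero_iff, lt_div_iff₀ hP0, Complex.norm_real, Real.norm_eq_abs]
    linarith
  have hwr : ∀ n, wC δ n = (ww k (p.1, p.2 + δ) n : ℝ) := fun n => by
    have : VpC k p.1 (p.2 + δ) = fun i => (Vp k (p.1, p.2 + δ) i : ℂ) := by
      funext i
      have := (hre k (p.1, p.2 + δ) i).2
      simpa using this
    simp only [hwC, this, ww]
    exact_mod_cast sol_ofReal (Vp k (p.1, p.2 + δ)) 0 1 n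
  have hne : ww k (p.1, p.2 + δ) (j + 1) * ww k (p.1, p.2 + δ) (j + 2) ≠ 0 := by
    have := (key δ hδb).1
    rw [hwr, hwr] at this
    exact_mod_cast this
  have hFr : F δ = ((1 / (ww k (p.1, p.2 + δ) (j + 1) * ww k (p.1, p.2 + δ) (j + 2)) -
      1 / (w ^ 2 * κ * Real.cos (2 * π * (x + w * δ))) : ℝ) : ℂ) := by
    simp only [hF, hwr]
    push_cast
    rfl
  have g1 := (Complex.abs_re_le_norm _).trans (hr δ hδb)
  have g2 := hq δ (by linarith)
  rw [hFr] at g1
  have g3 : ((r₀ + r₁ * δ + r₂ * δ ^ 2 : ℂ)).re = r₀.re + r₁.re * δ + r₂.re * δ ^ 2 := by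
    simp [pow_two]
  rw [Complex.sub_re, Complex.ofReal_re, g3, Complex.norm_real, Real.norm_eq_abs] at g1
  rw [RR_succ k _ _ hne]
  have hsq : w ^ 2 = P ^ 2 := (sq_abs w).symm
  have g4 : (P * |δ|) ^ 3 / (B ^ 1500 * w ^ 2) ≤ (P * |δ|) ^ 3 / (B ^ 1100 * w ^ 2) / 2 := by
    rw [div_div, hsq]
    have : B ^ 1500 = B ^ 1100 * B ^ 400 := by ring
    have h400 : 2 ≤ B ^ 400 := hB2.trans (hpow 400 (by norm_num))
    refine div_le_div_of_nonneg_left (by positivity) (by positivity) ?_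
    rw [this]
    nlinarith [mul_pos (pow_pos hB0 1100) (pow_pos hP0 2)]
  have g5 : 27 * (560 * ε / (κ * η ^ 2 * P ^ 2)) * (|δ| / (η / 30 / P)) ^ 3 ≤
      (P * |δ|) ^ 3 / (B ^ 1100 * w ^ 2) / 2 := by
    have e : 27 * (560 * ε / (κ * η ^ 2 * P ^ 2)) * (|δ| / (η / 30 / P)) ^ 3 =
        (P * |δ|) ^ 3 / (κ * η ^ 5 * B ^ 890 / 408240000 * P ^ 2) := by
      rw [hε]
      field_simp
      ring
    rw [e, div_div, hsq]
    refine div_le_div_of_nonneg_left (by positivity) (by positivity) ?_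
    have h790 : η ^ 5 * B ≤ η ^ 5 * B ^ 790 :=
      mul_le_mul_of_nonneg_left (hpow 790 (by norm_num)) (by positivity)
    have h4 : B ^ 1100 * 2 ≤ κ * η ^ 5 * B ^ 890 / 408240000 := by
      calc B ^ 1100 * 2 ≤ B ^ 1100 * (η ^ 5 * B ^ 790) / 2 / 408240000 := by
            nlinarith [pow_pos hB0 1100]
        _ = B ^ 1000 / 2 * η ^ 5 * B ^ 890 / 408240000 := by ring
        _ ≤ _ := by gcongr
    nlinarith [pow_pos hP0 2]
  refine le_trans (le_of_eq ?_) ((abs_add_le _ _).trans (add_le_add g2 g1) |>.trans (by linarith))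
  congr 1
  ring

end Crest.Agent.R128
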