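import Crest.Agent.R128.Basic

/-! Row 128: good (Pliss) indices and the pairing of levels. -/

set_option autoImplicit false
open MeasureTheory Real

namespace Crest.Agent.R128

namespace PairAux

/-- The standing assumptions on the parameters. -/
structure Par (k B η : ℝ) : Prop where
  hB : 10 ≤ B
  hη : 2 ≤ η * B
  hs : Sc k B

variable {k B η : ℝ}

theorem Par.one_le (h : Par k B η) : 1 ≤ B := by linarith [h.hB]
theorem Par.pos (h : Par k B η) : 0 < B := by linarith [h.hB]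
theorem Par.k_nonneg (h : Par k B η) : 0 ≤ k := by
  linarith [h.hs.one_le (by linarith [h.hB])]
theorem Par.η_pos (h : Par k B η) : 0 < η := by
  by_contra hc
  nlinarith [h.hη, h.pos, not_lt.1 hc]

theorem Par.V_le (h : Par k B η) (p : ℝ × ℝ) (l : ℕ) : |Vp k p l| ≤ B ^ 1000 - 1 :=
  abs_Vp_le h.k_nonneg h.hs p l

theorem Par.L_ge (h : Par k B η) : B ^ 999 ≤ η / 2 * B ^ 1000 := by
  have h1 : 0 < B ^ 999 := pow_pos h.pos _
  have h2 := mul_le_mul_of_nonneg_right h.hη h1.le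
  calc B ^ 999 = 2 * B ^ 999 / 2 := by ring
    _ ≤ η * B * B ^ 999 / 2 := by linarith
    _ = _ := by ring

theorem Par.V_ge (h : Par k B η) (p : ℝ × ℝ) {l : ℕ} (hl : η ≤ |Real.cos (2 * π * orb k p l)|) :
    η / 2 * B ^ 1000 + 1 ≤ |Vp k p l| := by
  refine noncrit h.k_nonneg h.hs ?_ hl
  have h1 := h.L_ge
  have h2 : B ^ 1 ≤ B ^ 999 := pow_le_pow_right₀ h.one_le (by norm_num)
  have := h.hB
  rw [pow_one] at h2
  linarith

theorem Par.V_ge' (h : Par k B η) (p : ℝ × ℝ) {l : ℕ} (hl : η ≤ |Real.cos (2 * π * orb k p l)|) :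
    B ^ 999 + 1 ≤ |Vp k p l| := by
  linarith [h.V_ge p hl, h.L_ge]

theorem Par.pow_le (h : Par k B η) {m n : ℕ} (hmn : m ≤ n) : B ^ m ≤ B ^ n :=
  pow_le_pow_right₀ h.one_le hmn

theorem exists_par (hη : 0 < η) : ∃ B₀ : ℝ, ∀ k B : ℝ, B₀ ≤ B → Sc k B → Par k B η := by
  refine ⟨max 10 (2 / η), fun k B hB hs => ⟨(le_max_left _ _).trans hB, ?_, hs⟩⟩
  have := (le_max_right _ _).trans hB
  rw [div_le_iff₀ hη] at this
  linarith

theorem isSol_u (k : ℝ) (p : ℝ × ℝ) (a : ℝ) : IsSol (Vp k p) (uu k p a) := isSol_sol _ _ _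
theorem isSol_w (k : ℝ) (p : ℝ × ℝ) : IsSol (Vp k p) (ww k p) := isSol_sol _ _ _
theorem ww_zero (k : ℝ) (p : ℝ × ℝ) : ww k p 0 = 0 := rfl
theorem ww_one (k : ℝ) (p : ℝ × ℝ) : ww k p 1 = 1 := rfl

theorem good_lower {p : ℝ × ℝ} {a : ℝ} {J : ℕ} (hG : Good k B η p a J) :
    B ^ (950 * (J - 1)) ≤ |ww k p J| := by
  have := hG.hW 1 (by have := hG.two_le; omega)
  rwa [ww_one, abs_one, one_mul] at this

theorem good_mono (h : Par k B η) {p : ℝ × ℝ} {a : ℝ} {J : ℕ} (hG : Good k B η p a J) {l : ℕ}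
    (hl : l < J) : |ww k p l| ≤ |ww k p J| :=
  le_trans (le_mul_of_one_le_right (abs_nonneg _) (one_le_pow₀ h.one_le)) (hG.hW l hl)

theorem pt_aux (h : Par k B η) {p : ℝ × ℝ} {a : ℝ} {J : ℕ} (hG : Good k B η p a J) :
    B ^ 950 ≤ |ww k p J| ∧
      |a - RR k p (J + 1)| ≤ 1 / (B ^ 2900 * ww k p J ^ 2) ∧
      η / 2 * B ^ 1000 * |ww k p J| ≤ |ww k p (J + 1)| ∧
      |ww k p (J + 1)| ≤ B ^ 1000 * |ww k p J| := by
  obtain ⟨j, rfl⟩ : ∃ j, J = j + 1 := ⟨J - 1, by have := hG.two_le; omega⟩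
  have hB := h.pos
  have h1 : B ^ 950 ≤ |ww k p (j + 1)| :=
    (h.pow_le (by have := hG.two_le; omega)).trans (good_lower hG)
  have hm := good_mono h hG (Nat.lt_succ_self j)
  have h3 : η / 2 * B ^ 1000 * |ww k p (j + 1)| ≤ |ww k p (j + 1 + 1)| :=
    abs_up (isSol_w k p j) hm (h.V_ge p hG.c0)
  have h4 : |ww k p (j + 1 + 1)| ≤ B ^ 1000 * |ww k p (j + 1)| := by
    have := nv_succ_le (isSol_w k p j) (h.V_le p _)
    rw [show nv (ww k p) j = |ww k p (j + 1)| from max_eq_right hm] at this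
    exact (abs_succ_le_nv _ _).trans this
  refine ⟨h1, ?_, h3, h4⟩
  have hw0 : 0 < |ww k p (j + 1)| := lt_of_lt_of_le (by positivity) h1
  have h5 : B ^ 999 * |ww k p (j + 1)| ≤ |ww k p (j + 1 + 1)| :=
    (mul_le_mul_of_nonneg_right h.L_ge hw0.le).trans h3
  have hw1 : 0 < |ww k p (j + 1 + 1)| := lt_of_lt_of_le (by positivity) h5
  have e : a - RR k p (j + 1 + 1) = uu k p a (j + 1 + 1) / ww k p (j + 1 + 1) := by
    have hne : ww k p (j + 1 + 1) ≠ 0 := abs_pos.1 hw1
    have := sol_one_eq (Vp k p) a (j + 1 + 1)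
    unfold RR
    change uu k p a (j + 1 + 1) = yy k p (j + 1 + 1) + a * ww k p (j + 1 + 1) at this
    rw [this]
    field_simp
    ring
  have h6 : B ^ 999 * |uu k p a (j + 1 + 1)| ≤ |uu k p a (j + 1)| :=
    abs_down (isSol_u k p a (j + 1)) hG.dec (h.V_ge' p hG.c1)
  have h7 : B ^ 999 * |uu k p a (j + 1)| ≤ |uu k p a j| :=
    abs_down (isSol_u k p a j)
      (le_trans (le_mul_of_one_le_left (abs_nonneg _) (one_le_pow₀ h.one_le)) h6)
      (h.V_ge' p hG.c0)
  have h8 := hG.hU j (Nat.lt_succ_self j)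
  rw [show j + 1 - 1 - j = 0 by omega, mul_zero, pow_zero, mul_one] at h8
  rw [e, abs_div, ← sq_abs (ww k p (j + 1)), div_le_div_iff₀ hw1 (by positivity), one_mul]
  refine le_trans ?_ h5
  have h9 : B ^ 999 * (B ^ 999 * |uu k p a (j + 1 + 1)|) * |ww k p (j + 1)| ≤ 2 :=
    le_trans (mul_le_mul_of_nonneg_right
      ((mul_le_mul_of_nonneg_left h6 (by positivity)).trans h7) hw0.le) h8
  have h10 : 2 * B ^ 902 ≤ B ^ 999 := by
    calc 2 * B ^ 902 ≤ B * B ^ 902 := by gcongr; linarith [h.hB]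
      _ = B ^ 903 := by ring
      _ ≤ _ := h.pow_le (by norm_num)
  calc _ = B ^ 999 * (B ^ 999 * |uu k p a (j + 1 + 1)|) * |ww k p (j + 1)| *
        (B ^ 902 * |ww k p (j + 1)|) := by ring
    _ ≤ 2 * (B ^ 902 * |ww k p (j + 1)|) := by gcongr
    _ = 2 * B ^ 902 * |ww k p (j + 1)| := by ring
    _ ≤ _ := by gcongr

/-- A site at which `u` decays and which is not critical. -/
def Ok (k η : ℝ) (p : ℝ × ℝ) (a : ℝ) (i : ℕ) : Prop :=
  |uu k p a (i + 1)| ≤ |uu k p a i| ∧ η ≤ |Real.cos (2 * π * orb k p i)|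

/-- `D` contains the bad sites of `[1, h]`. -/
def Cov (k η : ℝ) (p : ℝ × ℝ) (a : ℝ) (h : ℕ) (D : Finset ℕ) : Prop :=
  ∀ i, 1 ≤ i → i ≤ h → i ∉ D → Ok k η p a i

theorem exists_cov {p : ℝ × ℝ} {a : ℝ} {h : ℕ} (hd : Dec k η p a h) :
    ∃ D : Finset ℕ, 100000 * D.card ≤ h ∧ Cov k η p a h D := by
  refine ⟨_, hd, fun i h1 h2 h3 => ?_⟩
  by_contra hc
  exact h3 (Finset.mem_filter.2 ⟨Finset.mem_Icc.2 ⟨h1, h2⟩, hc⟩)

/-- All backward windows ending at `e` have a small density of bad sites. -/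
def Win (D : Finset ℕ) (e : ℕ) : Prop :=
  ∀ j, 1 ≤ j → 400 * (D.filter fun d => d ≤ e ∧ e < d + j).card < j

theorem Win.notMem {D : Finset ℕ} {e s : ℕ} (hw : Win D e) (h1 : s ≤ e) (h2 : e < s + 400) :
    s ∉ D := by
  intro hs
  have h3 := hw (e - s + 1) (by omega)
  have h4 : 0 < (D.filter fun d => d ≤ e ∧ e < d + (e - s + 1)).card :=
    Finset.card_pos.2 ⟨s, Finset.mem_filter.2 ⟨hs, h1, by omega⟩⟩
  omega

theorem decay (h : Par k B η) {p : ℝ × ℝ} {a : ℝ} {H : ℕ} {D : Finset ℕ} (hc : Cov k η p a H D)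
    (l n : ℕ) (hn : l + n ≤ H) :
    B ^ (999 * n) * nv (uu k p a) (l + n) ≤
      B ^ (1999 * (D.filter fun d => l < d ∧ d ≤ l + n).card) * nv (uu k p a) l := by
  have hB := h.pos
  induction n with
  | zero =>
    rw [mul_zero, pow_zero, one_mul, add_zero]
    exact le_mul_of_one_le_left (nv_nonneg _ _) (one_le_pow₀ h.one_le)
  | succ n ih =>
    have ih := ih (by omega)
    have hsub : (D.filter fun d => l < d ∧ d ≤ l + n) ⊆ D.filter fun d => l < d ∧ d ≤ l + (n + 1) := by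
      intro d hd
      rw [Finset.mem_filter] at hd ⊢
      exact ⟨hd.1, hd.2.1, by omega⟩
    by_cases hD : l + n + 1 ∈ D
    · have h1 : (D.filter fun d => l < d ∧ d ≤ l + n).card + 1 ≤
          (D.filter fun d => l < d ∧ d ≤ l + (n + 1)).card := by
        refine Finset.card_lt_card ⟨hsub, fun hs => ?_⟩
        have := Finset.mem_filter.1 (hs (Finset.mem_filter.2 ⟨hD, by omega, by omega⟩))
        omega
      have h2 := nv_succ_le (isSol_u k p a (l + n)) (h.V_le p _)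
      calc B ^ (999 * (n + 1)) * nv (uu k p a) (l + n + 1)
          ≤ B ^ (999 * (n + 1)) * (B ^ 1000 * nv (uu k p a) (l + n)) := by gcongr
        _ = B ^ 1999 * (B ^ (999 * n) * nv (uu k p a) (l + n)) := by ring
        _ ≤ B ^ 1999 * (B ^ (1999 * (D.filter fun d => l < d ∧ d ≤ l + n).card) *
            nv (uu k p a) l) := by gcongr
        _ = B ^ (1999 * ((D.filter fun d => l < d ∧ d ≤ l + n).card + 1)) * nv (uu k p a) l := by
            ring
        _ ≤ _ := mul_le_mul_of_nonneg_right (h.pow_le (by omega)) (nv_nonneg _ _)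
    · obtain ⟨h1, h2⟩ := hc (l + n + 1) (by omega) (by omega) hD
      have h3 := nv_down (isSol_u k p a (l + n)) h1 (h.V_ge' p h2)
      have h4 := Finset.card_le_card hsub
      calc B ^ (999 * (n + 1)) * nv (uu k p a) (l + n + 1)
          = B ^ (999 * n) * (B ^ 999 * nv (uu k p a) (l + n + 1)) := by ring
        _ ≤ B ^ (999 * n) * nv (uu k p a) (l + n) := by gcongr
        _ ≤ _ := ih
        _ ≤ _ := mul_le_mul_of_nonneg_right (h.pow_le (by omega)) (nv_nonneg _ _)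

theorem decay_win (h : Par k B η) {p : ℝ × ℝ} {a : ℝ} {H : ℕ} {D : Finset ℕ} (hc : Cov k η p a H D)
    {e : ℕ} (hw : Win D e) (he : e ≤ H) (l n d : ℕ) (h1 : l + n + d < e) (h2 : e ≤ l + n + d + 3) :
    B ^ (999 * n) * nv (uu k p a) (l + n) ≤ B ^ (10 * (n + d)) * nv (uu k p a) l := by
  refine (decay h hc l n (by omega)).trans
    (mul_le_mul_of_nonneg_right (h.pow_le ?_) (nv_nonneg _ _))
  have h3 := hw (e - l) (by omega)
  have h4 : (D.filter fun d => l < d ∧ d ≤ l + n).card ≤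
      (D.filter fun d => d ≤ e ∧ e < d + (e - l)).card := by
    refine Finset.card_le_card fun x hx => ?_
    rw [Finset.mem_filter] at hx ⊢
    exact ⟨hx.1, by omega, by omega⟩
  omega

/-- The Dirichlet solution is small before a Pliss index of `u`. -/
theorem w_bound (h : Par k B η) {p : ℝ × ℝ} {a : ℝ} (ha : |a| ≤ 1) {j0 : ℕ}
    (hH : ∀ l n d, l + n + d = j0 →
      B ^ (999 * n) * nv (uu k p a) (l + n) ≤ B ^ (10 * (n + d)) * nv (uu k p a) l)
    (i d : ℕ) (hi : i + d = j0) :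
    nv (ww k p) i * nv (uu k p a) j0 * B ^ (979 * d) ≤ 5 * B ^ 11 := by
  have hB := h.pos
  have hc : uu k p a 0 * ww k p 1 - uu k p a 1 * ww k p 0 = 1 := by
    rw [ww_zero, ww_one]; simp [uu]
  have hpos := nv_pos_of_wronsk (isSol_u k p a) (isSol_w k p) (by rw [hc]; norm_num)
  obtain ⟨lam, h1, h2, h3, -⟩ := ratio_lemma (isSol_u k p a) (isSol_w k p) (h.V_le p) hc hpos
  have h0 : lam 0 = 0 := by
    have := h3 0 (by simpa [uu] using ha)
    rw [ww_zero] at this
    simpa [uu] using this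
  set N := nv (uu k p a) with hN
  set X := N i * N j0 * B ^ (979 * d) with hX
  have hX0 : 0 < X := by have := hpos i; have := hpos j0; positivity
  have key : ∀ m r, m + r = i → |lam m| * X * 2 ^ r ≤ 4 * B ^ 11 := by
    intro m
    induction m with
    | zero => intro r _; rw [h0]; simp; positivity
    | succ m ih =>
      intro r hr
      have ih := ih (r + 1) (by omega)
      have e1 := hH (m + 1) r d (by omega)
      have e2 := hH m (1 + r + d) 0 (by omega)
      rw [hr] at e1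
      rw [show m + (1 + r + d) = j0 by omega] at e2
      have hm := hpos m
      have hm1 := hpos (m + 1)
      have hi0 := hpos i
      have hj0 := hpos j0
      have e3 := mul_le_mul e1 e2 (by positivity) (by positivity)
      have e4 : B ^ 989 * X * B ^ (1978 * r) ≤ N m * N (m + 1) := by
        have hp : 0 < B ^ (10 * (r + d)) * B ^ (10 * (1 + r + d + 0)) := by positivity
        refine le_of_mul_le_mul_left ?_ hp
        calc _ = B ^ (999 * r) * N i * (B ^ (999 * (1 + r + d)) * N j0) := by rw [hX]; ring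
          _ ≤ _ := e3
          _ = _ := by ring
      have e5 : (2 : ℝ) ^ r ≤ B ^ (1978 * r) :=
        (pow_le_pow_left₀ (by norm_num) (by linarith [h.hB]) r).trans (h.pow_le (by omega))
      have e6 : B ^ 989 * X * 2 ^ r ≤ N m * N (m + 1) := le_trans (by gcongr) e4
      have e7 := h2 m
      rw [abs_one, mul_one, le_div_iff₀ (by positivity)] at e7
      have e8 : |lam (m + 1) - lam m| * X * 2 ^ r ≤ 2 * B ^ 11 := by
        have hp : 0 < B ^ 989 := by positivity
        refine le_of_mul_le_mul_left ?_ hp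
        calc _ = |lam (m + 1) - lam m| * (B ^ 989 * X * 2 ^ r) := by ring
          _ ≤ |lam (m + 1) - lam m| * (N m * N (m + 1)) := by gcongr
          _ ≤ _ := e7
          _ = _ := by ring
      have e9 : |lam (m + 1)| ≤ |lam (m + 1) - lam m| + |lam m| := by
        simpa using abs_add_le (lam (m + 1) - lam m) (lam m)
      have e10 := mul_le_mul_of_nonneg_right e9 (show 0 ≤ X * 2 ^ r by positivity)
      rw [pow_succ] at ih
      nlinarith
  have k1 := key i 0 rfl
  rw [pow_zero, mul_one] at k1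
  have hi0 := hpos i
  have hj0 := hpos j0
  have k2 : nv (ww k p) i ≤ 1 / N i + |lam i| * N i := by
    have e1 := h1 i
    rw [abs_one] at e1
    have e2 := (abs_le_nv _ i).trans e1
    have e3 := (abs_succ_le_nv _ i).trans e1
    have e4 := mul_le_mul_of_nonneg_left (abs_le_nv (uu k p a) i) (abs_nonneg (lam i))
    have e5 := mul_le_mul_of_nonneg_left (abs_succ_le_nv (uu k p a) i) (abs_nonneg (lam i))
    rw [← abs_mul] at e4 e5
    have e6 := abs_add_le (ww k p i - lam i * uu k p a i) (lam i * uu k p a i)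
    have e7 := abs_add_le (ww k p (i + 1) - lam i * uu k p a (i + 1)) (lam i * uu k p a (i + 1))
    rw [sub_add_cancel] at e6 e7
    exact nv_le (by linarith) (by linarith)
  have k3 : N j0 * B ^ (979 * d) ≤ N i := by
    have e1 := hH i d 0 (by omega)
    rw [hi] at e1
    have hp : 0 < B ^ (10 * (d + 0)) := by positivity
    refine le_of_mul_le_mul_left (le_trans ?_ e1) hp
    calc _ = B ^ (989 * d) * N j0 := by ring
      _ ≤ _ := mul_le_mul_of_nonneg_right (h.pow_le (by omega)) hj0.le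
  have k4 : (1 : ℝ) ≤ B ^ 11 := one_le_pow₀ h.one_le
  calc _ = nv (ww k p) i * (N j0 * B ^ (979 * d)) := by ring
    _ ≤ (1 / N i + |lam i| * N i) * (N j0 * B ^ (979 * d)) := by gcongr
    _ = N j0 * B ^ (979 * d) / N i + |lam i| * X := by rw [hX]; ring
    _ ≤ 1 + 4 * B ^ 11 := add_le_add ((div_le_one hi0).2 k3) k1
    _ ≤ _ := by linarith

theorem good_of_decay (h : Par k B η) {p : ℝ × ℝ} {a : ℝ} (ha : |a| ≤ 1) {j0 : ℕ} (hj : 1 ≤ j0)
    (hH : ∀ l n d, l + n + d = j0 →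
      B ^ (999 * n) * nv (uu k p a) (l + n) ≤ B ^ (10 * (n + d)) * nv (uu k p a) l)
    (o0 : Ok k η p a j0) (o1 : Ok k η p a (j0 + 1)) (o2 : Ok k η p a (j0 + 2)) :
    Good k B η p a (j0 + 1) := by
  have hB := h.pos
  have hN : nv (uu k p a) j0 = |uu k p a j0| := max_eq_left o0.1
  have h1 : B ^ 999 * |uu k p a (j0 + 1)| ≤ |uu k p a j0| :=
    abs_down (isSol_u k p a j0) o1.1 (h.V_ge' p o1.2)
  have h2 := w_bound h ha hH j0 0 rfl
  rw [mul_zero, pow_zero, mul_one, hN] at h2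
  have h3 : |uu k p a (j0 + 1) * ww k p j0| ≤ 1 / 2 := by
    have hp : 0 < B ^ 999 := by positivity
    refine le_of_mul_le_mul_left ?_ hp
    have e1 : 10 * B ^ 11 ≤ B ^ 999 := by
      calc 10 * B ^ 11 ≤ B * B ^ 11 := by gcongr; exact h.hB
        _ = B ^ 12 := by ring
        _ ≤ _ := h.pow_le (by norm_num)
    calc _ = |ww k p j0| * (B ^ 999 * |uu k p a (j0 + 1)|) := by rw [abs_mul]; ring
      _ ≤ nv (ww k p) j0 * |uu k p a j0| :=
          mul_le_mul (abs_le_nv _ _) h1 (mul_nonneg hp.le (abs_nonneg _)) (nv_nonneg _ _)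
      _ ≤ _ := by linarith
  have hW : uu k p a j0 * ww k p (j0 + 1) - uu k p a (j0 + 1) * ww k p j0 = 1 :=
    wronsk_one _ _ _
  obtain ⟨h4, h5⟩ := abs_le.1 h3
  have h6 : 1 / 2 ≤ |uu k p a j0| * |ww k p (j0 + 1)| := by
    rw [← abs_mul]
    exact le_trans (by linarith) (le_abs_self _)
  have h7 : |uu k p a j0| * |ww k p (j0 + 1)| ≤ 2 := by
    rw [← abs_mul, abs_le]
    constructor <;> linarith
  have hu0 : 0 < |uu k p a j0| := by
    by_contra hc
    rw [le_antisymm (not_lt.1 hc) (abs_nonneg _), zero_mul] at h6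
    norm_num at h6
  refine ⟨by omega, fun l hl => ?_, fun l hl => ?_, o1.2, o2.2, o2.1⟩
  · rcases l with _ | l
    · rw [ww_zero, abs_zero, zero_mul]
      exact abs_nonneg _
    · obtain ⟨d, hd⟩ : ∃ d, l + (d + 1) = j0 := ⟨j0 - l - 1, by omega⟩
      have e1 := w_bound h ha hH l (d + 1) hd
      rw [hN] at e1
      rw [show j0 + 1 - (l + 1) = d + 1 by omega]
      have hp : 0 < |uu k p a j0| * B ^ (29 * (d + 1)) := by positivity
      refine le_of_mul_le_mul_left ?_ hp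
      have e2 : 10 * B ^ 11 ≤ B ^ (29 * (d + 1)) := by
        calc 10 * B ^ 11 ≤ B * B ^ 11 := by gcongr; exact h.hB
          _ = B ^ 12 := by ring
          _ ≤ _ := h.pow_le (by omega)
      calc _ = |ww k p (l + 1)| * |uu k p a j0| * B ^ (979 * (d + 1)) := by ring
        _ ≤ nv (ww k p) l * |uu k p a j0| * B ^ (979 * (d + 1)) := by
            gcongr; exact abs_succ_le_nv _ _
        _ ≤ 5 * B ^ 11 := e1
        _ ≤ B ^ (29 * (d + 1)) * (1 / 2) := by linarith
        _ ≤ B ^ (29 * (d + 1)) * (|uu k p a j0| * |ww k p (j0 + 1)|) := by gcongr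
        _ = _ := by ring
  · obtain ⟨d, rfl⟩ : ∃ d, j0 = l + d := ⟨j0 - l, by omega⟩
    have e1 := (isSol_u k p a).nv_le_add (h.V_le p) l d
    rw [hN] at e1
    rw [show l + d + 1 - 1 - l = d by omega, pow_mul]
    calc _ ≤ (B ^ 1000) ^ d * |uu k p a (l + d)| * |ww k p (l + d + 1)| :=
          mul_le_mul_of_nonneg_right ((abs_le_nv _ _).trans e1) (abs_nonneg _)
      _ = (B ^ 1000) ^ d * (|uu k p a (l + d)| * |ww k p (l + d + 1)|) := by ring
      _ ≤ (B ^ 1000) ^ d * 2 := by gcongr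
      _ = _ := by ring

theorem good_of_win (h : Par k B η) {p : ℝ × ℝ} {a : ℝ} (ha : |a| ≤ 1) {H : ℕ} {D : Finset ℕ}
    (hc : Cov k η p a H D) {J : ℕ} (h2 : 2 ≤ J) (hJ : J + 2 ≤ H) (hw : Win D (J + 2)) :
    Good k B η p a J ∧ Good k B η p a (J + 1) := by
  have ok : ∀ s, 1 ≤ s → J ≤ s + 1 → s ≤ J + 2 → Ok k η p a s := fun s h1 h2 h3 =>
    hc s h1 (by omega) (hw.notMem h3 (by omega))
  constructor
  · obtain ⟨j, rfl⟩ : ∃ j, J = j + 1 := ⟨J - 1, by omega⟩
    exact good_of_decay h ha (by omega)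
      (fun l n d e => decay_win h hc hw hJ l n d (by omega) (by omega))
      (ok _ (by omega) (by omega) (by omega)) (ok _ (by omega) (by omega) (by omega))
      (ok _ (by omega) (by omega) (by omega))
  · exact good_of_decay h ha (by omega)
      (fun l n d e => decay_win h hc hw hJ l n d (by omega) (by omega))
      (ok _ (by omega) (by omega) (by omega)) (ok _ (by omega) (by omega) (by omega))
      (ok _ (by omega) (by omega) (by omega))

open Classical in
/-- Few endpoints fail the window condition. -/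
theorem card_not_win (hM : MaxStmt) (D G : Finset ℕ) (hG : ∀ e ∈ G, ¬ Win D e) :
    G.card ≤ 400 * D.card := by
  refine hM.2 D G 400 fun e he => ?_
  have := hG e he
  unfold Win at this
  push Not at this
  obtain ⟨j, h1, h2⟩ := this
  exact ⟨j, h1, by convert h2⟩

theorem exists_enum (G : Finset ℕ) : ∃ f : ℕ → ℕ, (∀ i < G.card, f i ∈ G) ∧
    ∀ i, i + 1 < G.card → f i < f (i + 1) := by
  refine ⟨fun i => if h : i < G.card then G.orderEmbOfFin rfl ⟨i, h⟩ else 0, fun i hi => ?_,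
    fun i hi => ?_⟩
  · simp only [dif_pos hi]
    exact G.orderEmbOfFin_mem rfl _
  · simp only [dif_pos hi, dif_pos (Nat.lt_of_succ_lt hi)]
    exact (G.orderEmbOfFin rfl).strictMono (by simp [Fin.lt_def])

open Classical in
/-- The first bond at which `nv w` exceeds `c`. -/
noncomputable def fst (w : ℕ → ℝ) (c : ℝ) : ℕ := if h : ∃ i, c < nv w i then Nat.find h else 0

theorem fst_spec {w : ℕ → ℝ} {c : ℝ} {m : ℕ} (hm : c < nv w m) :
    fst w c ≤ m ∧ c < nv w (fst w c) ∧ ∀ i < fst w c, nv w i ≤ c := by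
  classical
  have h : ∃ i, c < nv w i := ⟨m, hm⟩
  rw [fst, dif_pos h]
  exact ⟨Nat.find_le hm, Nat.find_spec h, fun i hi => not_lt.1 (Nat.find_min h hi)⟩

theorem nv_w_le (h : Par k B η) (p : ℝ × ℝ) (s : ℕ) : nv (ww k p) s ≤ B ^ (1000 * s) := by
  rw [pow_mul]
  exact nv_dir_le (h.V_le p) s

theorem abs_w_le (h : Par k B η) (p : ℝ × ℝ) (s : ℕ) : |ww k p s| ≤ B ^ (1000 * (s - 1)) := by
  rw [pow_mul]
  exact abs_dir_le (h.V_le p) s

/-- Properties of the partner index. -/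
theorem partner (h : Par k B η) (p : ℝ × ℝ) {c : ℝ} {m : ℕ} (hc : B ^ 1000 ≤ c)
    (hm : c < nv (ww k p) m) :
    2 ≤ fst (ww k p) c ∧ fst (ww k p) c ≤ m ∧ (∀ i < fst (ww k p) c, nv (ww k p) i ≤ c) ∧
      c < B ^ 1000 * nv (ww k p) (fst (ww k p) c - 1) ∧
      nv (ww k p) (fst (ww k p) c) ≤ B ^ 1000 * c := by
  obtain ⟨h1, h2, h3⟩ := fst_spec hm
  have h4 : 2 ≤ fst (ww k p) c := by
    by_contra hlt
    have := (nv_w_le h p (fst (ww k p) c)).trans (h.pow_le (n := 1000) (by omega))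
    linarith
  obtain ⟨j, hj⟩ : ∃ j, fst (ww k p) c = j + 1 := ⟨fst (ww k p) c - 1, by omega⟩
  rw [hj] at h1 h2 h3 h4 ⊢
  have h5 := nv_succ_le (isSol_w k p j) (h.V_le p _)
  refine ⟨h4, h1, h3, h2.trans_le h5, h5.trans ?_⟩
  exact mul_le_mul_of_nonneg_left (h3 j (Nat.lt_succ_self j)) (pow_pos h.pos _).le

theorem step_cmp (h : Par k B η) {x x' y y' : ℝ} (hx : 0 ≤ x) (h1 : y ≤ B ^ 520 * x)
    (h2 : y' ≤ B ^ 1000 * y) (h3 : η / 2 * B ^ 1000 * x ≤ x') : y' ≤ B ^ 600 * x' := by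
  have hB := h.pos
  have h4 : B ^ 999 * x ≤ x' := (mul_le_mul_of_nonneg_right h.L_ge hx).trans h3
  calc y' ≤ B ^ 1000 * (B ^ 520 * x) := h2.trans (by gcongr)
    _ = B ^ 521 * (B ^ 999 * x) := by ring
    _ ≤ B ^ 600 * x' :=
        mul_le_mul (h.pow_le (by norm_num)) h4 (mul_nonneg (pow_pos hB _).le hx) (pow_pos hB _).le

theorem pair_of (h : Par k B η) {p : ℝ × ℝ} {a : ℝ} {J J' : ℕ}
    (hL : Good k B η (Lf k p) (pot k p.1 - a) J) (hL' : Good k B η (Lf k p) (pot k p.1 - a) (J + 1))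
    (hR : Good k B η p a J') (hR' : Good k B η p a (J' + 1))
    (h1 : |ww k (Lf k p) J| ≤ B ^ 520 * |ww k p J'|)
    (h2 : |ww k p J'| ≤ B ^ 520 * |ww k (Lf k p) J|) : Pair k B η p J J' := by
  obtain ⟨-, -, l1, l2⟩ := pt_aux h hL
  obtain ⟨-, -, r1, r2⟩ := pt_aux h hR
  have e : B ^ 520 ≤ B ^ 600 := h.pow_le (by norm_num)
  exact ⟨⟨a, hR, hL, h1.trans (mul_le_mul_of_nonneg_right e (abs_nonneg _)),
      h2.trans (mul_le_mul_of_nonneg_right e (abs_nonneg _))⟩,
    ⟨a, hR', hL', step_cmp h (abs_nonneg _) h1 l2 r1, step_cmp h (abs_nonneg _) h2 r2 l1⟩⟩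

theorem pairs_aux (hM : MaxStmt) (h : Par k B η) {H : ℕ} {p : ℝ × ℝ} (hH : 1000 ≤ H)
    (hp : p ∈ Res k η H) :
    ∃ f g : ℕ → ℕ, (∀ i, i + 1 < H / 10 → f i + 3 ≤ f (i + 1) ∧ g i < g (i + 1)) ∧
      ∀ i < H / 10, f i ≤ H ∧ g i ≤ H ∧ Pair k B η p (f i) (g i) := by
  classical
  have hB := h.pos
  obtain ⟨a, ha, ha', dR, dL⟩ := hp
  obtain ⟨DR, cR, hR⟩ := exists_cov dR
  obtain ⟨DL, cL, hL⟩ := exists_cov dL
  -- a far good index on the right
  obtain ⟨m, hm1, hm2, hm3⟩ : ∃ m, 3 * H ≤ 4 * (m + 3) ∧ m + 3 ≤ H ∧ Win DR (m + 3) := by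
    by_contra hc
    push Not at hc
    have h1 := card_not_win hM DR (Finset.Icc (H - H / 4) H) fun e he => by
      rw [Finset.mem_Icc] at he
      obtain ⟨m, rfl⟩ : ∃ m, e = m + 3 := ⟨e - 3, by omega⟩
      exact hc m (by omega) he.2
    rw [Nat.card_Icc] at h1
    omega
  have hm4 : B ^ (950 * m) ≤ nv (ww k p) m :=
    (good_lower (good_of_win h ha hR (J := m + 1) (by omega) hm2 hm3).1).trans (abs_succ_le_nv _ _)
  -- thresholds and partners
  set c : ℕ → ℝ := fun i => B ^ 520 * |ww k (Lf k p) (3 * i)| with hc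
  set g : ℕ → ℕ := fun i => fst (ww k p) (c i) with hg
  set S := (Finset.Icc 1 (H / 6)).filter fun i => Win DL (3 * i + 2) with hS
  have hSg : ∀ i ∈ S, 1 ≤ i ∧ i ≤ H / 6 ∧ Good k B η (Lf k p) (pot k p.1 - a) (3 * i) ∧
      Good k B η (Lf k p) (pot k p.1 - a) (3 * i + 1) := by
    intro i hi
    rw [hS, Finset.mem_filter, Finset.mem_Icc] at hi
    exact ⟨hi.1.1, hi.1.2, good_of_win h ha' hL (by omega) (by omega) hi.2⟩
  have hpar : ∀ i ∈ S, 2 ≤ g i ∧ g i ≤ m ∧ (∀ j < g i, nv (ww k p) j ≤ c i) ∧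
      c i < B ^ 1000 * nv (ww k p) (g i - 1) ∧ nv (ww k p) (g i) ≤ B ^ 1000 * c i := by
    intro i hi
    obtain ⟨h1, h2, h3, -⟩ := hSg i hi
    refine partner h p ?_ (lt_of_lt_of_le ?_ hm4)
    · calc B ^ 1000 ≤ B ^ (520 + 950 * (3 * i - 1)) := h.pow_le (by omega)
        _ = B ^ 520 * B ^ (950 * (3 * i - 1)) := pow_add _ _ _
        _ ≤ _ := mul_le_mul_of_nonneg_left (good_lower h3) (pow_pos hB _).le
    · calc c i ≤ B ^ 520 * B ^ (1000 * (3 * i - 1)) :=
            mul_le_mul_of_nonneg_left (abs_w_le h _ _) (pow_pos hB _).le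
        _ = B ^ (520 + 1000 * (3 * i - 1)) := (pow_add _ _ _).symm
        _ < _ := pow_lt_pow_right₀ (by linarith [h.hB]) (by omega)
  have hmono : ∀ i ∈ S, ∀ j ∈ S, i < j → g i < g j := by
    intro i hi j hj hij
    obtain ⟨-, -, h1, -, h2⟩ := hpar i hi
    obtain ⟨-, -, h3, -⟩ := hSg j hj
    have h4 := h3.hW (3 * i) (by omega)
    have h5 : B ^ 1000 * c i ≤ c j := by
      calc B ^ 1000 * c i = B ^ 520 * (|ww k (Lf k p) (3 * i)| * B ^ 1000) := by rw [hc]; ring
        _ ≤ B ^ 520 * (|ww k (Lf k p) (3 * i)| * B ^ (950 * (3 * j - 3 * i))) :=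
            mul_le_mul_of_nonneg_left (mul_le_mul_of_nonneg_left (h.pow_le (by omega))
              (abs_nonneg _)) (pow_pos hB _).le
        _ ≤ _ := mul_le_mul_of_nonneg_left h4 (pow_pos hB _).le
    have h6 : c i ≤ B ^ 1000 * c i :=
      le_mul_of_one_le_left (mul_nonneg (pow_pos hB _).le (abs_nonneg _)) (one_le_pow₀ h.one_le)
    have h7 : c j < nv (ww k p) (g j) := by
      obtain ⟨h8, -, h9, h10, -⟩ := hpar j hj
      by_contra hc'
      have hex : ¬ ∃ i, c j < nv (ww k p) i := fun ⟨i, hi⟩ => hc' (fst_spec hi).2.1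
      have : g j = 0 := by simp only [hg, fst, dif_neg hex]
      omega
    by_contra hle
    rcases (not_lt.1 hle).eq_or_lt with he | hlt
    · rw [he] at h7
      linarith
    · linarith [h1 _ hlt]
  set G := S.filter fun i => Win DR (g i + 2) with hG
  have hcard : H / 10 ≤ G.card := by
    have h1 : ((Finset.Icc 1 (H / 6)).filter fun i => ¬ Win DL (3 * i + 2)).card ≤ 400 * DL.card := by
      rw [← Finset.card_image_of_injective _ (show Function.Injective fun i : ℕ => 3 * i + 2 from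
        fun x y e => by simpa using e)]
      refine card_not_win hM _ _ fun e he => ?_
      obtain ⟨i, hi, rfl⟩ := Finset.mem_image.1 he
      exact (Finset.mem_filter.1 hi).2
    have h2 : (S.filter fun i => ¬ Win DR (g i + 2)).card ≤ 400 * DR.card := by
      rw [← Finset.card_image_of_injOn (f := fun i => g i + 2)]
      · refine card_not_win hM _ _ fun e he => ?_
        obtain ⟨i, hi, rfl⟩ := Finset.mem_image.1 he
        exact (Finset.mem_filter.1 hi).2
      · intro x hx y hy e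
        have hx' := (Finset.mem_filter.1 hx).1
        have hy' := (Finset.mem_filter.1 hy).1
        simp only at e
        rcases lt_trichotomy x y with hlt | heq | hlt
        · have := hmono x hx' y hy' hlt; omega
        · exact heq
        · have := hmono y hy' x hx' hlt; omega
    have h3 := Finset.card_filter_add_card_filter_not (s := Finset.Icc 1 (H / 6))
      fun i => Win DL (3 * i + 2)
    have h4 := Finset.card_filter_add_card_filter_not (s := S) fun i => Win DR (g i + 2)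
    rw [Nat.card_Icc, ← hS] at h3
    rw [← hG] at h4
    omega
  obtain ⟨e, he1, he2⟩ := exists_enum G
  refine ⟨fun i => 3 * e i, fun i => g (e i), fun i hi => ?_, fun i hi => ?_⟩
  · have h1 := he2 i (by omega)
    exact ⟨show 3 * e i + 3 ≤ 3 * e (i + 1) by omega, hmono _ (Finset.mem_filter.1 (he1 i (by omega))).1 _
      (Finset.mem_filter.1 (he1 (i + 1) (by omega))).1 h1⟩
  · obtain ⟨h1, h2⟩ := Finset.mem_filter.1 (he1 i (by omega))
    obtain ⟨-, h3, h4, h5⟩ := hSg _ h1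
    obtain ⟨h6, h7, h8, h9, -⟩ := hpar _ h1
    obtain ⟨h10, h11⟩ := good_of_win h ha hR h6 (by omega) h2
    refine ⟨show 3 * e i ≤ H by omega, show g (e i) ≤ H by omega, ?_⟩
    have h12 : nv (ww k p) (g (e i) - 1) = |ww k p (g (e i))| := by
      have := good_mono h h10 (show g (e i) - 1 < g (e i) by omega)
      rw [nv, show g (e i) - 1 + 1 = g (e i) by omega]
      exact max_eq_right this
    have h13 := h8 (g (e i) - 1) (by omega)
    rw [h12] at h9 h13
    refine pair_of h h4 h5 h10 h11 ?_ h13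
    have hp : 0 < B ^ 520 := pow_pos hB _
    refine le_of_mul_le_mul_left (h9.le.trans ?_) hp
    rw [← mul_assoc, ← pow_add]
    exact mul_le_mul_of_nonneg_right (h.pow_le (by norm_num)) (abs_nonneg _)

end PairAux

open PairAux

theorem pairs (h : MaxStmt) : PairStmt := by
  intro η hη
  obtain ⟨B₀, hB₀⟩ := exists_par hη
  exact ⟨B₀, fun k B hB hs H p hH hp => pairs_aux h (hB₀ k B hB hs) hH hp⟩

theorem pt : PtStmt := by
  intro η hη
  obtain ⟨B₀, hB₀⟩ := exists_par hη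
  exact ⟨B₀, fun k B hB hs p a J hG => pt_aux (hB₀ k B hB hs) hG⟩

end Crest.Agent.R128
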