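import Crest.Agent.R128.Basic

/-!
Row 128: the product estimate (Vitali strips along finite-time stable leaves).
-/

set_option autoImplicit false
open MeasureTheory Real

namespace Crest.Agent.R128

namespace ProdA

/-- Area of a set whose pairs of points satisfy two transversal cone conditions (`a ≤ b`). -/
lemma area_le {E : Set (ℝ × ℝ)} {a b : ℝ} (ha : 0 ≤ a) (hab : a ≤ b)
    (h2 : ∀ x ∈ E, ∀ y ∈ E, |x.2 - y.2| ≤ |x.1 - y.1| / 4 + a)
    (h1 : ∀ x ∈ E, ∀ y ∈ E, |x.1 - y.1| ≤ |x.2 - y.2| / 4 + b) :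
    volume E ≤ ENNReal.ofReal (8 * a * b) := by
  rcases E.eq_empty_or_nonempty with rfl | ⟨x₀, hx₀⟩
  · simp
  have c2 : ∀ x ∈ closure E, ∀ y ∈ closure E, |x.2 - y.2| ≤ |x.1 - y.1| / 4 + a := by
    intro x hx y hy
    have s1 : ∀ y ∈ E, |x.2 - y.2| ≤ |x.1 - y.1| / 4 + a := fun y hy =>
      closure_minimal (t := {x : ℝ × ℝ | |x.2 - y.2| ≤ |x.1 - y.1| / 4 + a})
        (fun x hx => h2 x hx y hy) (isClosed_le (by fun_prop) (by fun_prop)) hx
    exact closure_minimal (t := {y : ℝ × ℝ | |x.2 - y.2| ≤ |x.1 - y.1| / 4 + a})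
      s1 (isClosed_le (by fun_prop) (by fun_prop)) hy
  have c1 : ∀ x ∈ closure E, |x.1 - x₀.1| ≤ 2 * b := fun x hx =>
    closure_minimal (t := {x : ℝ × ℝ | |x.1 - x₀.1| ≤ 2 * b})
      (fun x hx => by
        have u1 := h1 x hx x₀ hx₀
        have u2 := h2 x hx x₀ hx₀
        show |x.1 - x₀.1| ≤ 2 * b
        linarith) (isClosed_le (by fun_prop) (by fun_prop)) hx
  have hsec : ∀ s : ℝ, volume (Prod.mk s ⁻¹' closure E) ≤
      (Set.Icc (x₀.1 - 2 * b) (x₀.1 + 2 * b)).indicator (fun _ => ENNReal.ofReal (2 * a)) s := by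
    intro s
    rcases (Prod.mk s ⁻¹' closure E).eq_empty_or_nonempty with h | ⟨t₀, ht₀⟩
    · rw [h]; simp
    have hs : s ∈ Set.Icc (x₀.1 - 2 * b) (x₀.1 + 2 * b) := by
      have := abs_le.1 (c1 _ ht₀)
      constructor <;> linarith [this.1, this.2]
    rw [Set.indicator_of_mem hs]
    calc volume (Prod.mk s ⁻¹' closure E) ≤ volume (Set.Icc (t₀ - a) (t₀ + a)) := by
          refine measure_mono fun t ht => ?_
          have := c2 _ ht _ ht₀
          simp only [sub_self, abs_zero, zero_div, zero_add] at this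
          have := abs_le.1 this
          constructor <;> linarith [this.1, this.2]
      _ = ENNReal.ofReal (2 * a) := by rw [Real.volume_Icc]; congr 1; ring
  calc volume E ≤ volume (closure E) := measure_mono subset_closure
    _ = ∫⁻ s, volume (Prod.mk s ⁻¹' closure E) := by
        rw [Measure.volume_eq_prod, Measure.prod_apply isClosed_closure.measurableSet]
    _ ≤ ∫⁻ s, (Set.Icc (x₀.1 - 2 * b) (x₀.1 + 2 * b)).indicator
          (fun _ => ENNReal.ofReal (2 * a)) s := lintegral_mono hsec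
    _ = ENNReal.ofReal (2 * a) * volume (Set.Icc (x₀.1 - 2 * b) (x₀.1 + 2 * b)) := by
        rw [lintegral_indicator measurableSet_Icc, setLIntegral_const]
    _ = ENNReal.ofReal (8 * a * b) := by
        rw [Real.volume_Icc, ← ENNReal.ofReal_mul (by positivity)]; congr 1; ring

/-- Area of a set whose pairs of points satisfy two transversal cone conditions. -/
lemma area {E : Set (ℝ × ℝ)} {a b : ℝ} (ha : 0 ≤ a) (hb : 0 ≤ b)
    (h2 : ∀ x ∈ E, ∀ y ∈ E, |x.2 - y.2| ≤ |x.1 - y.1| / 4 + a)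
    (h1 : ∀ x ∈ E, ∀ y ∈ E, |x.1 - y.1| ≤ |x.2 - y.2| / 4 + b) :
    volume E ≤ ENNReal.ofReal (8 * a * b) := by
  rcases le_total a b with h | h
  · exact area_le ha h h2 h1
  · have e : volume (Prod.swap ⁻¹' E) = volume E := by
      rw [Measure.volume_eq_prod]
      exact MeasurePreserving.measure_preimage_equiv (f := MeasurableEquiv.prodComm)
        Measure.measurePreserving_swap E
    rw [← e, mul_right_comm]
    exact area_le (E := Prod.swap ⁻¹' E) hb h (fun x hx y hy => h1 _ hx _ hy)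
      (fun x hx y hy => h2 _ hx _ hy)

lemma wd_pos {B : ℝ} (hB : 2 ≤ B) (n : ℕ) : 0 < wd B n := by
  unfold wd; positivity

lemma wd_le_one {B : ℝ} (hB : 2 ≤ B) (n : ℕ) : wd B n ≤ 1 := by
  unfold wd
  exact (div_le_one (by positivity)).2 (one_le_pow₀ (by linarith))

lemma le_of_wd_le {B : ℝ} (hB : 2 ≤ B) {m n : ℕ} (hm : 1 ≤ m) (h : wd B m ≤ 5 * wd B n) :
    n ≤ m := by
  by_contra! hlt
  unfold wd at h
  rw [mul_one_div, div_le_div_iff₀ (by positivity) (by positivity), one_mul] at h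
  have h1 : B ^ (1200 * (m - 1) + 3) ≤ B ^ (1200 * (n - 1)) :=
    pow_le_pow_right₀ (by linarith) (by omega)
  have h2 : (2 : ℝ) ^ 3 ≤ B ^ 3 := pow_le_pow_left₀ (by norm_num) hB 3
  have h3 : 0 < B ^ (1200 * (m - 1)) := by positivity
  rw [pow_add] at h1
  nlinarith

lemma Close.mono {k B : ℝ} (hB : 2 ≤ B) {p q : ℝ × ℝ} {m n : ℕ} (h : Close k B p q n)
    (hmn : m ≤ n) : Close k B p q m := fun l h1 hl =>
  (h l h1 (hl.trans hmn)).trans (div_le_div_of_nonneg_left (by norm_num) (by positivity)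
    (pow_le_pow_right₀ (by linarith) (by omega)))

/-- Points of the vertical line close to the base point of the leaf. -/
lemma base_est {k B : ℝ} (hB : 2 ≤ B) (hS : Sc k B) {p : ℝ × ℝ} {c d d' : ℝ} {n : ℕ}
    (h : Close k B p (c, d) n) (hd : |d' - d| ≤ 5 * wd B n) (l : ℕ) (h1 : 1 ≤ l) (hl : l ≤ n) :
    |orb k (c, d') l - orb k p l| ≤
      2 / B ^ (900 * min l (n - 1)) + 5 * B ^ (1000 * (l - 1)) * wd B n := by
  have hk : 0 ≤ k := le_trans zero_le_one (hS.one_le hB)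
  have e1 := orb_lip hk hS (p := (c, d)) (q := (c, d')) rfl l
  have e2 := h l h1 hl
  have e3 : (B ^ 1000) ^ (l - 1) * |d' - d| ≤ B ^ (1000 * (l - 1)) * (5 * wd B n) := by
    rw [← pow_mul]; gcongr
  have e4 := abs_sub_le (orb k (c, d') l) (orb k (c, d) l) (orb k p l)
  simp only at e1
  linarith

lemma near_base {k B : ℝ} (hB : 2 ≤ B) (hS : Sc k B) {p : ℝ × ℝ} {c d d' : ℝ} {n : ℕ}
    (h : Close k B p (c, d) n) (hd : |d' - d| ≤ 5 * wd B n) : Near k B p (c, d') n := by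
  intro l h1 hl
  have e := base_est hB hS h hd l h1 hl
  have p1 : 0 ≤ 1 / B ^ (900 * min l (n - 1)) := by positivity
  have p2 : 0 ≤ B ^ (1000 * (l - 1)) * wd B n := by have := wd_pos hB n; positivity
  have r1 : 2 / B ^ (900 * min l (n - 1)) = 2 * (1 / B ^ (900 * min l (n - 1))) := by ring
  have r2 : 10 / B ^ (900 * min l (n - 1)) = 10 * (1 / B ^ (900 * min l (n - 1))) := by ring
  rw [r2]; rw [r1] at e
  linarith

lemma near_pt {k B : ℝ} (hB : 2 ≤ B) (hS : Sc k B) {p q : ℝ × ℝ} {c d d' : ℝ} {n : ℕ}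
    (h : Close k B p (c, d) n) (h' : Close k B q (c, d') n) (hd : |d' - d| ≤ 5 * wd B n) :
    Near k B p q n := by
  intro l h1 hl
  have e := base_est hB hS h hd l h1 hl
  have e' := h' l h1 hl
  have e4 := abs_sub_le (orb k q l) (orb k (c, d') l) (orb k p l)
  rw [abs_sub_comm] at e'
  have p1 : 0 ≤ 1 / B ^ (900 * min l (n - 1)) := by positivity
  have p2 : 0 ≤ B ^ (1000 * (l - 1)) * wd B n := by have := wd_pos hB n; positivity
  have r1 : 2 / B ^ (900 * min l (n - 1)) = 2 * (1 / B ^ (900 * min l (n - 1))) := by ring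
  have r2 : 10 / B ^ (900 * min l (n - 1)) = 10 * (1 / B ^ (900 * min l (n - 1))) := by ring
  rw [r2]; rw [r1] at e e'
  linarith

lemma exists_first {k lam : ℝ} {N : ℕ} {q : ℝ × ℝ} (hq : q ∈ Fail k lam N \ Fail k lam 100) :
    ∃ n, 100 < n ∧ n ≤ N ∧ First k lam q n := by
  classical
  obtain ⟨⟨s, hs, hs'⟩, h2⟩ := hq
  have hex : ∃ s, nv (ww k q) s < lam ^ s := ⟨s, hs'⟩
  refine ⟨Nat.find hex, ?_, (Nat.find_min' hex hs').trans hs,
    fun t ht => not_lt.1 (Nat.find_min hex ht), Nat.find_spec hex⟩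
  by_contra! h
  exact h2 ⟨_, h, Nat.find_spec hex⟩

end ProdA

open ProdA

theorem prod (h0 : MeasStmt) (h1 : LeafStmt) (h2 : StabStmt) (h3 : TwoStmt) : ProdStmt := by
  obtain ⟨B₁, h1⟩ := h1
  obtain ⟨B₂, h2⟩ := h2
  obtain ⟨B₃, h3⟩ := h3
  obtain ⟨-, -, hF, -, -, hsec, -⟩ := h0
  refine ⟨245000, max (max B₁ B₂) (max B₃ 2), fun k B lam lam' hB hS hl hl' N => ?_⟩
  have hB1 : B₁ ≤ B := ((le_max_left _ _).trans (le_max_left _ _)).trans hB
  have hB2 : B₂ ≤ B := ((le_max_right _ _).trans (le_max_left _ _)).trans hB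
  have hB3 : B₃ ≤ B := ((le_max_left _ _).trans (le_max_right _ _)).trans hB
  have hB' : 2 ≤ B := ((le_max_right _ _).trans (le_max_right _ _)).trans hB
  have hlam : 0 < lam := lt_of_lt_of_le (by positivity) hl
  obtain ⟨c, hc, hcv⟩ := hsec (Fail k lam' N) (hF k lam' N).1.measurableSet (hF k lam' N).2
  set A : Set (ℝ × ℝ) := (Fail k lam N \ Fail k lam 100) ∩ Q with hA
  have hex : ∀ q ∈ A, ∃ (n : ℕ) (d : ℝ), 100 < n ∧ n ≤ N ∧ First k lam q n ∧
      Close k B q (c, d) n := by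
    intro q hq
    obtain ⟨n, hn1, hn2, hn3⟩ := exists_first hq.1
    have hq1 : q.1 ∈ Set.Ico (0 : ℝ) 1 := hq.2.1
    obtain ⟨d, hd⟩ := h1 k B lam hB1 hS hl q n c hn1 hn3
      (abs_le.2 ⟨by linarith [hc.1, hq1.2], by linarith [hc.2, hq1.1]⟩)
    exact ⟨n, d, hn1, hn2, hn3, hd⟩
  choose! n d hn1 hn2 hn3 hd using hex
  -- the base intervals lie in the section
  have hball : ∀ q ∈ A, Metric.closedBall (d q) (wd B (n q)) ⊆
      {t : ℝ | (c, t) ∈ Fail k lam' N} ∩ Set.Icc (-3) 4 := by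
    intro q hq t ht
    have ht' : |t - d q| ≤ wd B (n q) := by simpa [Real.dist_eq] using ht
    have hw := wd_pos hB' (n q)
    have hw1 := wd_le_one hB' (n q)
    constructor
    · have e := h2 k B lam hB2 hS hl q (c, t) (n q) (hn1 q hq) (hn3 q hq)
        (near_base hB' hS (hd q hq) (by linarith))
      refine ⟨n q, hn2 q hq, e.trans_lt ?_⟩
      have e1 : (4 * lam) ^ n q ≤ lam' ^ n q := pow_le_pow_left₀ (by positivity) hl' _
      have e2 : (4 : ℝ) ^ 1 ≤ 4 ^ n q := pow_le_pow_right₀ (by norm_num) (by have := hn1 q hq; omega)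
      have e3 : 0 < lam ^ n q := by positivity
      rw [mul_pow] at e1
      nlinarith
    · have e := hd q hq 1 le_rfl (by have := hn1 q hq; omega)
      have e1 : min 1 (n q - 1) = 1 := by have := hn1 q hq; omega
      rw [e1, orb_one, orb_one] at e
      have e2 : 2 / B ^ (900 * 1) ≤ 1 := by
        rw [div_le_one (by positivity)]
        calc (2 : ℝ) ≤ B ^ 1 := by simpa using hB'
          _ ≤ B ^ (900 * 1) := pow_le_pow_right₀ (by linarith) (by norm_num)
      have e3 := abs_le.1 (e.trans e2)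
      have e4 := abs_le.1 ht'
      have hq2 : q.2 ∈ Set.Ico (0 : ℝ) 1 := hq.2.2
      simp only at e3
      constructor <;> linarith [e3.1, e3.2, e4.1, e4.2, hq2.1, hq2.2]
  obtain ⟨u, huA, hdis, hcov⟩ :=
    Vitali.exists_disjoint_subfamily_covering_enlargement_closedBall A d (fun q => wd B (n q)) 1
      (fun q _ => wd_le_one hB' _) 5 (by norm_num)
  have hcount : u.Countable := hdis.countable_of_nonempty_interior fun q _ =>
    ⟨d q, by
      rw [mem_interior_iff_mem_nhds]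
      exact Metric.closedBall_mem_nhds _ (wd_pos hB' _)⟩
  have := hcount.to_subtype
  have hsum : ∑' p : u, ENNReal.ofReal (2 * wd B (n p)) ≤ 7 * nu (Fail k lam' N) := by
    have e := measure_biUnion (μ := volume) hcount hdis fun q _ => measurableSet_closedBall
    simp only [Real.volume_closedBall] at e
    rw [← e]
    exact (measure_mono (Set.iUnion₂_subset fun q hq => hball q (huA hq))).trans hcv
  -- the strips
  set S : ℝ × ℝ → Set (ℝ × ℝ) := fun p => {q | q ∈ A ∧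
    Metric.closedBall (d q) (wd B (n q)) ⊆ Metric.closedBall (d p) (5 * wd B (n p))} with hSdef
  have hS1 : ∀ p, ∀ q ∈ S p, |d q - d p| ≤ 5 * wd B (n p) ∧ n p ≤ n q := by
    intro p q hq
    have hw := wd_pos hB' (n q)
    have a0 := hq.2 (Metric.mem_closedBall_self hw.le)
    have a1 := hq.2 (show d q + wd B (n q) ∈ Metric.closedBall (d q) (wd B (n q)) by
      simp [abs_of_pos hw])
    have a2 := hq.2 (show d q - wd B (n q) ∈ Metric.closedBall (d q) (wd B (n q)) by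
      simp [abs_of_pos hw])
    rw [Metric.mem_closedBall, Real.dist_eq] at a0 a1 a2
    refine ⟨a0, le_of_wd_le hB' (by have := hn1 q hq.1; omega) ?_⟩
    linarith [(abs_le.1 a1).2, (abs_le.1 a2).1]
  have hS2 : ∀ p ∈ A, ∀ q ∈ S p, ∀ q' ∈ S p,
      |q.2 - q'.2| ≤ |q.1 - q'.1| / 4 + 50 * wd B (n p) := by
    intro p hp q hq q' hq'
    obtain ⟨a1, a2⟩ := hS1 p q hq
    obtain ⟨b1, b2⟩ := hS1 p q' hq'
    have cq := Close.mono hB' (hd q hq.1) a2
    have cq' := Close.mono hB' (hd q' hq'.1) b2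
    refine h3 k B lam hB3 hS hl p q q' (c, d q) (c, d q') (n p) (hn1 p hp) (hn3 p hp)
      (near_pt hB' hS (hd p hp) cq a1) (near_pt hB' hS (hd p hp) cq' b1)
      (near_base hB' hS (hd p hp) a1) (near_base hB' hS (hd p hp) b1) cq cq' rfl ?_
    have := abs_sub_le (d q) (d p) (d q')
    rw [abs_sub_comm (d p)] at this
    show |d q - d q'| ≤ _
    linarith
  have hQ : MeasurableSet Q := measurableSet_Ico.prod measurableSet_Ico
  have hsub : ((Fail k lam N \ Fail k lam 100) ∩ Prod.swap ⁻¹' (Fail k lam N \ Fail k lam 100)) ∩ Q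
      ⊆ ⋃ p : u, ⋃ p' : u, S p ∩ Prod.swap ⁻¹' S p' := by
    rintro q ⟨⟨q1, q2⟩, q3⟩
    have a1 : q ∈ A := ⟨q1, q3⟩
    have a2 : q.swap ∈ A := ⟨q2, q3.2, q3.1⟩
    obtain ⟨p, hp, hp'⟩ := hcov q a1
    obtain ⟨r, hr, hr'⟩ := hcov q.swap a2
    exact Set.mem_iUnion.2 ⟨⟨p, hp⟩, Set.mem_iUnion.2 ⟨⟨r, hr⟩, ⟨a1, hp'⟩, ⟨a2, hr'⟩⟩⟩
  have harea : ∀ p p' : u, volume (S p ∩ Prod.swap ⁻¹' S p') ≤
      5000 * (ENNReal.ofReal (2 * wd B (n p)) * ENNReal.ofReal (2 * wd B (n p'))) := by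
    intro p p'
    have hw := wd_pos hB' (n p)
    have hw' := wd_pos hB' (n p')
    refine (area (a := 50 * wd B (n p)) (b := 50 * wd B (n p')) (by positivity) (by positivity)
      (fun x hx y hy => hS2 p (huA p.2) x hx.1 y hy.1)
      (fun x hx y hy => hS2 p' (huA p'.2) _ hx.2 _ hy.2)).trans (le_of_eq ?_)
    rw [← ENNReal.ofReal_mul (by positivity), ← ENNReal.ofReal_ofNat 5000,
      ← ENNReal.ofReal_mul (by positivity)]
    congr 1; ring
  calc nu ((Fail k lam N \ Fail k lam 100) ∩ Prod.swap ⁻¹' (Fail k lam N \ Fail k lam 100))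
      = volume (((Fail k lam N \ Fail k lam 100) ∩
          Prod.swap ⁻¹' (Fail k lam N \ Fail k lam 100)) ∩ Q) := Measure.restrict_apply' hQ
    _ ≤ volume (⋃ p : u, ⋃ p' : u, S p ∩ Prod.swap ⁻¹' S p') := measure_mono hsub
    _ ≤ ∑' p : u, ∑' p' : u, volume (S p ∩ Prod.swap ⁻¹' S p') :=
        (measure_iUnion_le _).trans (ENNReal.tsum_le_tsum fun p => measure_iUnion_le _)
    _ ≤ ∑' p : u, ∑' p' : u,
          5000 * (ENNReal.ofReal (2 * wd B (n p)) * ENNReal.ofReal (2 * wd B (n p'))) :=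
        ENNReal.tsum_le_tsum fun p => ENNReal.tsum_le_tsum fun p' => harea p p'
    _ = 5000 * (∑' p : u, ENNReal.ofReal (2 * wd B (n p))) ^ 2 := by
        simp only [ENNReal.tsum_mul_left, ENNReal.tsum_mul_right, sq]
    _ ≤ 5000 * (7 * nu (Fail k lam' N)) ^ 2 := by gcongr
    _ = (245000 : ℕ) * nu (Fail k lam' N) ^ 2 := by
        rw [mul_pow, ← mul_assoc]; norm_num

end Crest.Agent.R128
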