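import Crest.Agent.R128.Defs

/-! Row 128: the resonance estimate from the gain in a node (Vitali covering and counting). -/

set_option autoImplicit false
open MeasureTheory Real

namespace Crest.Agent.R128

namespace ResA

/-- one Vitali step -/
theorem step (S : Set ℝ) (P P' : ℝ → ℝ) (N : ℝ → Set ℝ) {r c : ℝ} (hr : 0 < r) (hc : 0 ≤ c)
    (hP : ∀ α ∈ S, 1 ≤ P α)
    (hN : ∀ α ∈ S, volume (N α) ≤ ENNReal.ofReal (2 * c / 5 * r / P α))
    (hS : ∀ α ∈ S, ∀ β ∈ S, |β - α| * P α ≤ r → Metric.closedBall β (r / (5 * P' β)) ⊆ N α) :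
    volume (⋃ β ∈ S, Metric.closedBall β (r / (5 * P' β))) ≤
      ENNReal.ofReal c * volume (⋃ α ∈ S, Metric.closedBall α (r / (5 * P α))) := by
  have hpos : ∀ α ∈ S, 0 < r / (5 * P α) := fun α hα => by
    have := hP α hα
    positivity
  obtain ⟨u, huS, hd, hcov⟩ := Vitali.exists_disjoint_subfamily_covering_enlargement_closedBall S
    (fun α => α) (fun α => r / (5 * P α)) r
    (fun α hα => div_le_self hr.le (by linarith [hP α hα])) 5 (by norm_num)
  have hcount : u.Countable := hd.countable_of_nonempty_interior fun α hα =>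
    ⟨α, interior_mono Metric.ball_subset_closedBall
      (by rw [Metric.isOpen_ball.interior_eq]; exact Metric.mem_ball_self (hpos α (huS hα)))⟩
  have hsub : (⋃ β ∈ S, Metric.closedBall β (r / (5 * P' β))) ⊆ ⋃ α ∈ u, N α := by
    refine Set.iUnion₂_subset fun β hβ => ?_
    obtain ⟨α, hα, h⟩ := hcov β hβ
    have h1 := h (Metric.mem_closedBall_self (hpos β hβ).le)
    have h2 := hP α (huS hα)
    rw [Metric.mem_closedBall, Real.dist_eq] at h1
    refine (hS α (huS hα) β hβ ?_).trans (Set.subset_biUnion_of_mem (u := N) hα)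
    rw [← le_div_iff₀ (by linarith)]
    refine h1.trans (le_of_eq ?_)
    field_simp
  calc _ ≤ volume (⋃ α ∈ u, N α) := measure_mono hsub
    _ ≤ ∑' α : u, volume (N α) := measure_biUnion_le _ hcount _
    _ ≤ ∑' α : u, ENNReal.ofReal c * volume (Metric.closedBall (α : ℝ) (r / (5 * P α))) := by
        refine ENNReal.tsum_le_tsum fun α => (hN α (huS α.2)).trans (le_of_eq ?_)
        rw [Real.volume_closedBall, ← ENNReal.ofReal_mul hc]
        congr 1
        ring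
    _ = ENNReal.ofReal c * volume (⋃ α ∈ u, Metric.closedBall α (r / (5 * P α))) := by
        rw [ENNReal.tsum_mul_left, measure_biUnion hcount hd fun _ _ => measurableSet_closedBall]
    _ ≤ _ := mul_le_mul_right (measure_mono (Set.biUnion_subset_biUnion_left huS)) _

/-- iteration of the Vitali step -/
theorem iter (S : Set ℝ) (hS01 : S ⊆ Set.Ico 0 1) (P : ℕ → ℝ → ℝ) (N : ℕ → ℝ → Set ℝ) {r c : ℝ}
    (hr : 0 < r) (hr1 : r ≤ 1) (hc : 0 ≤ c) (n : ℕ) (hP : ∀ i ≤ n, ∀ α ∈ S, 1 ≤ P i α)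
    (hN : ∀ i < n, ∀ α ∈ S, volume (N i α) ≤ ENNReal.ofReal (2 * c / 5 * r / P i α))
    (hS : ∀ i < n, ∀ α ∈ S, ∀ β ∈ S, |β - α| * P i α ≤ r →
      Metric.closedBall β (r / (5 * P (i + 1) β)) ⊆ N i α) :
    volume S ≤ ENNReal.ofReal (3 * c ^ n) := by
  have key : ∀ i ≤ n, volume (⋃ α ∈ S, Metric.closedBall α (r / (5 * P i α))) ≤
      ENNReal.ofReal (3 * c ^ i) := by
    intro i
    induction i with
    | zero =>
      intro _
      have : (⋃ α ∈ S, Metric.closedBall α (r / (5 * P 0 α))) ⊆ Set.Icc (-1) 2 := by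
        refine Set.iUnion₂_subset fun α hα y hy => ?_
        have h1 : r / (5 * P 0 α) ≤ r := div_le_self hr.le (by linarith [hP 0 n.zero_le α hα])
        rw [Metric.mem_closedBall, Real.dist_eq] at hy
        have h2 := abs_le.1 (hy.trans (h1.trans hr1))
        have h3 := hS01 hα
        exact ⟨by linarith [h2.1, h3.1], by linarith [h2.2, h3.2]⟩
      refine (measure_mono this).trans (le_of_eq ?_)
      rw [Real.volume_Icc]
      norm_num
    | succ i ih =>
      intro hi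
      refine (step S (P i) (P (i + 1)) (N i) hr hc (hP i (by omega)) (hN i hi) (hS i hi)).trans ?_
      refine (mul_le_mul_right (ih (by omega)) _).trans (le_of_eq ?_)
      rw [← ENNReal.ofReal_mul hc]
      congr 1
      ring
  refine le_trans (measure_mono fun α hα => ?_) (key n le_rfl)
  refine Set.mem_biUnion hα (Metric.mem_closedBall_self ?_)
  have := hP n le_rfl α hα
  positivity

/-- there are few increasing sequences -/
theorem cover (m h : ℕ) : ∃ s : Finset (ℕ → ℕ), s.card ≤ 2 ^ (h + 1) ∧ ∀ f : ℕ → ℕ,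
    (∀ i, i + 1 < m → f i < f (i + 1)) → (∀ i < m, f i ≤ h) → ∃ f' ∈ s, ∀ i < m, f' i = f i := by
  classical
  refine ⟨(Finset.range (h + 1)).powerset.image fun F i =>
    if hi : F.card = m ∧ i < m then F.orderEmbOfFin hi.1 ⟨i, hi.2⟩ else 0,
    Finset.card_image_le.trans (by simp), fun f hf hh => ?_⟩
  have hmono : StrictMono fun i : Fin m => f i := by
    cases m with
    | zero => exact fun i => i.elim0
    | succ m => exact Fin.strictMono_iff_lt_succ.2 fun i => hf i (by omega)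
  have hc : (Finset.univ.image fun i : Fin m => f i).card = m := by
    rw [Finset.card_image_of_injective _ hmono.injective]
    simp
  refine ⟨_, Finset.mem_image_of_mem _ (a := Finset.univ.image fun i : Fin m => f i) ?_,
    fun i hi => ?_⟩
  · simp only [Finset.mem_powerset, Finset.image_subset_iff, Finset.mem_range]
    exact fun i _ => Nat.lt_succ_of_le (hh i i.2)
  · have := Finset.orderEmbOfFin_unique hc (fun i => Finset.mem_image_of_mem _ (Finset.mem_univ i))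
      hmono
    simp only [dif_pos (And.intro hc hi)]
    exact (congrFun this ⟨i, hi⟩).symm

/-- the slope grows from one pair of levels to the next -/
theorem grow {k B η x₀ α β : ℝ} {J J' L L' : ℕ} (hB : 2 ≤ B) (hα : Lev k B η (x₀, α) J J')
    (hβ : Lev k B η (x₀, β) J J') (hβ' : Lev k B η (x₀, β) L L') (hL : J + 3 ≤ L)
    (hs : |ww k (x₀, β) J' - ww k (x₀, α) J'| ≤ |ww k (x₀, α) J'| / B ^ 800) :
    PP k (x₀, α) J J' * B ^ 1600 ≤ PP k (x₀, β) L L' := by
  obtain ⟨-, -, -, a1, -⟩ := hα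
  obtain ⟨-, -, -, -, b2⟩ := hβ
  obtain ⟨a, -, c1, -, -⟩ := hβ'
  have hB1 : 1 ≤ B := by linarith
  have h600 : 1 ≤ B ^ 600 := one_le_pow₀ hB1
  have n1 := abs_nonneg (ww k (x₀, α) J')
  have n2 := abs_nonneg (ww k (Lf k (x₀, β)) J)
  have h1 : PP k (x₀, α) J J' ≤ B ^ 600 * |ww k (x₀, α) J'| :=
    max_le a1 (le_mul_of_one_le_left n1 h600)
  have h2 : |ww k (x₀, α) J'| ≤ 2 * |ww k (x₀, β) J'| := by
    have h3 : |ww k (x₀, α) J'| / B ^ 800 ≤ |ww k (x₀, α) J'| / 2 :=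
      div_le_div_of_nonneg_left n1 two_pos (hB.trans (le_self_pow₀ hB1 (by norm_num)))
    have h4 := abs_sub_abs_le_abs_sub (ww k (x₀, α) J') (ww k (x₀, β) J')
    rw [abs_sub_comm] at h4
    linarith
  have h3 : |ww k (Lf k (x₀, β)) J| * B ^ 2850 ≤ PP k (x₀, β) L L' :=
    ((mul_le_mul_of_nonneg_left (pow_le_pow_right₀ hB1 (by omega)) n2).trans
      (c1.hW J (by omega))).trans (le_max_left _ _)
  have h4 : 2 ≤ B ^ 50 := hB.trans (le_self_pow₀ hB1 (by norm_num))
  calc PP k (x₀, α) J J' * B ^ 1600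
      ≤ B ^ 600 * (B ^ 50 * (B ^ 600 * |ww k (Lf k (x₀, β)) J|)) * B ^ 1600 := by
        refine mul_le_mul_of_nonneg_right (h1.trans (mul_le_mul_of_nonneg_left (h2.trans ?_)
          (by positivity))) (by positivity)
        exact mul_le_mul h4 b2 (abs_nonneg _) (by positivity)
    _ = |ww k (Lf k (x₀, β)) J| * B ^ 2850 := by ring
    _ ≤ _ := h3

theorem numeric {h : ℕ} (hh : 1000 ≤ h) :
    (2 : ℝ) ^ (h + 1) * 2 ^ (h + 1) * (3 * ((1 / 2) ^ 100) ^ (h / 10 - 1)) ≤ (1 / 2) ^ h := by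
  have h1 : ((1 / 2 : ℝ) ^ 100) ^ (h / 10 - 1) ≤ (1 / 2) ^ (3 * h + 4) := by
    rw [← pow_mul]
    exact pow_le_pow_of_le_one (by norm_num) (by norm_num) (by omega)
  calc (2 : ℝ) ^ (h + 1) * 2 ^ (h + 1) * (3 * ((1 / 2) ^ 100) ^ (h / 10 - 1))
      ≤ 2 ^ (h + 1) * 2 ^ (h + 1) * (4 * (1 / 2) ^ (3 * h + 4)) := by
        gcongr
        norm_num
    _ = (1 / 2) ^ h := by
        have : (2 : ℝ) ^ h ≠ 0 := by positivity
        simp only [one_div, inv_pow, pow_add, pow_mul']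
        field_simp
        norm_num

theorem nu_le {A : Set (ℝ × ℝ)} (hA : MeasurableSet A) {c : ENNReal}
    (h : ∀ x, volume (Prod.mk x ⁻¹' A ∩ Set.Ico 0 1) ≤ c) : nu A ≤ c := by
  rw [nu, Q, Measure.volume_eq_prod, ← Measure.prod_restrict, Measure.prod_apply hA]
  refine (lintegral_mono (g := fun _ => c) fun x => ?_).trans (by simp)
  simp only
  rw [Measure.restrict_apply (measurable_prodMk_left hA)]
  exact h x

end ResA

open ResA

theorem res (h0 : MeasStmt) (h1 : PairStmt) (h2 : NodeStmt) (h3 : SideStmt) (h4 : PtStmt) :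
    ResStmt := by
  intro η hη
  obtain ⟨c, hc⟩ : ∃ c : ℝ, c = (1 / 2) ^ 100 := ⟨_, rfl⟩
  have hc0 : 0 < c := by rw [hc]; positivity
  obtain ⟨B₁, h1⟩ := h1 η hη
  obtain ⟨r, B₂, hr, hr1, h2⟩ := h2 η (2 * c / 5) hη (by positivity)
  obtain ⟨B₃, h3⟩ := h3
  obtain ⟨B₄, h4⟩ := h4 η hη
  refine ⟨max (max B₁ B₂) (max (max B₃ B₄) 2), fun k B hB hk h hh => ?_⟩
  simp only [max_le_iff] at hB
  obtain ⟨⟨b1, b2⟩, ⟨b3, b4⟩, b5⟩ := hB
  refine nu_le (h0.2.2.2.2.1 k η h).1.measurableSet fun x₀ => ?_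
  obtain ⟨s, hs, hcov⟩ := cover (h / 10) h
  set S : (ℕ → ℕ) × (ℕ → ℕ) → Set ℝ := fun q => {α | α ∈ Set.Ico (0 : ℝ) 1 ∧
    (∀ i, i + 1 < h / 10 → q.1 i + 3 ≤ q.1 (i + 1)) ∧
      ∀ i < h / 10, Pair k B η (x₀, α) (q.1 i) (q.2 i)} with hS
  have hsub : Prod.mk x₀ ⁻¹' Res k η h ∩ Set.Ico 0 1 ⊆ ⋃ q ∈ s ×ˢ s, S q := by
    rintro α ⟨hα, hα'⟩
    obtain ⟨f, g, hfg, hp⟩ := h1 k B b1 hk h (x₀, α) hh hα
    obtain ⟨f', hf', ef⟩ := hcov f (fun i hi => by have := (hfg i hi).1; omega)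
      fun i hi => (hp i hi).1
    obtain ⟨g', hg', eg⟩ := hcov g (fun i hi => (hfg i hi).2) fun i hi => (hp i hi).2.1
    refine Set.mem_biUnion (x := (f', g')) (Finset.mk_mem_product hf' hg') ⟨hα', fun i hi => ?_,
      fun i hi => ?_⟩
    · simp only
      rw [ef i (by omega), ef (i + 1) hi]
      exact (hfg i hi).1
    · simp only
      rw [ef i hi, eg i hi]
      exact (hp i hi).2.2
  have hP1 : ∀ (p : ℝ × ℝ) (J J' : ℕ), Lev k B η p J J' → 1 ≤ PP k p J J' := by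
    rintro p J J' ⟨a, g1, -⟩
    exact ((one_le_pow₀ (by linarith)).trans (h4 k B b4 hk p a J' g1).1).trans (le_max_right _ _)
  have hvol : ∀ q, volume (S q) ≤ ENNReal.ofReal (3 * c ^ (h / 10 - 1)) := fun q => by
    refine iter (S q) (fun α hα => hα.1) (fun i α => PP k (x₀, α) (q.1 i) (q.2 i))
      (fun i α₀ => {y : ℝ | ∃ α : ℝ, |α - α₀| * PP k (x₀, α₀) (q.1 i) (q.2 i) ≤ r ∧
        Pair k B η (x₀, α) (q.1 i) (q.2 i) ∧
        |y - α| * PP k (x₀, α₀) (q.1 i) (q.2 i) ≤ 1 / B ^ 1600}) hr hr1 hc0.le _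
      (fun i hi α hα => hP1 _ _ _ (hα.2.2 i (by omega)).1)
      (fun i hi α hα => h2 k B b2 hk x₀ α _ _ (hα.2.2 i (by omega)))
      fun i hi α hα β hβ hd y hy => ⟨β, hd, hβ.2.2 i (by omega), ?_⟩
    have lα := (hα.2.2 i (by omega)).1
    have lβ' := (hβ.2.2 (i + 1) (by omega)).1
    have hg := grow b5 lα (hβ.2.2 i (by omega)).1 lβ' (hβ.2.1 i (by omega)) (by
      obtain ⟨a, g1, -⟩ := lα
      obtain ⟨s₂, -, hs₂⟩ := h3 k B b3 hk η (x₀, α) a _ g1
      have := (hs₂ (β - α) (((mul_le_mul_of_nonneg_left (le_max_right _ _) (abs_nonneg _)).trans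
        hd).trans hr1)).1
      simpa using this)
    have p1 := hP1 _ _ _ lα
    have p2 := hP1 _ _ _ lβ'
    rw [Metric.mem_closedBall, Real.dist_eq, le_div_iff₀ (by positivity)] at hy
    rw [le_div_iff₀ (by positivity), mul_assoc]
    refine (mul_le_mul_of_nonneg_left hg (abs_nonneg _)).trans ?_
    nlinarith [abs_nonneg (y - β)]
  calc _ ≤ volume (⋃ q ∈ s ×ˢ s, S q) := measure_mono hsub
    _ ≤ ∑ q ∈ s ×ˢ s, volume (S q) := measure_biUnion_finset_le _ _
    _ ≤ ((s ×ˢ s).card : ENNReal) * ENNReal.ofReal (3 * c ^ (h / 10 - 1)) := by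
        rw [← nsmul_eq_mul]
        exact Finset.sum_le_card_nsmul _ _ _ fun q _ => hvol q
    _ ≤ _ := by
        rw [← ENNReal.ofReal_natCast, ← ENNReal.ofReal_mul (Nat.cast_nonneg _)]
        refine ENNReal.ofReal_le_ofReal (le_trans ?_ (numeric hh))
        rw [← hc, Finset.card_product, Nat.cast_mul]
        have : (s.card : ℝ) ≤ 2 ^ (h + 1) := by exact_mod_cast hs
        gcongr

end Crest.Agent.R128
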