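import Crest.Agent.R128.Basic

/-!
Row 128 (S0172): the deterministic structure lemma.
-/

set_option autoImplicit false
open MeasureTheory Real

namespace Crest.Agent.R128

namespace Struct

open Finset

lemma chain_down {f : ℕ → ℝ} {K L : ℝ} (hK : 0 ≤ K) (hL : 0 ≤ L) (P : ℕ → Prop) [DecidablePred P]
    {a e : ℕ} (hae : a ≤ e) (h1 : ∀ s, a ≤ s → s < e → P (s + 1) → L * f (s + 1) ≤ f s)
    (h2 : ∀ s, f (s + 1) ≤ K * f s) :
    L ^ ((Ioc a e).filter P).card * f e ≤ K ^ ((Ioc a e).filter fun s => ¬ P s).card * f a := by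
  induction e, hae using Nat.le_induction with
  | base => simp
  | succ e hae ih =>
    have ih := ih fun s h h' => h1 s h (by omega)
    simp only [card_filter] at ih ⊢
    rw [sum_Ioc_succ_top hae, sum_Ioc_succ_top hae]
    by_cases hP : P (e + 1)
    · simp only [hP, if_true, not_true, if_false, add_zero, pow_succ]
      rw [mul_assoc]
      exact (mul_le_mul_of_nonneg_left (h1 e hae (by omega) hP) (pow_nonneg hL _)).trans ih
    · simp only [hP, if_false, not_false_iff, if_true, add_zero, pow_succ]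
      refine (mul_le_mul_of_nonneg_left (h2 e) (pow_nonneg hL _)).trans ?_
      rw [mul_left_comm]
      refine (mul_le_mul_of_nonneg_left ih hK).trans (le_of_eq ?_)
      ring

lemma chain_up {f : ℕ → ℝ} {K L : ℝ} (hK : 0 ≤ K) (hL : 0 ≤ L) (P : ℕ → Prop) [DecidablePred P]
    (n : ℕ) (h1 : ∀ s, P s → L * f s ≤ f (s + 1)) (h2 : ∀ s, f s ≤ K * f (s + 1)) :
    L ^ ((range n).filter P).card * f 0 ≤ K ^ ((range n).filter fun s => ¬ P s).card * f n := by
  induction n with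
  | zero => simp
  | succ n ih =>
    simp only [card_filter] at ih ⊢
    rw [sum_range_succ, sum_range_succ]
    by_cases hP : P n
    · simp only [hP, if_true, not_true, if_false, add_zero, pow_succ]
      rw [mul_right_comm]
      refine (mul_le_mul_of_nonneg_right ih hL).trans ?_
      rw [mul_assoc, mul_comm (f n)]
      exact mul_le_mul_of_nonneg_left (h1 n hP) (pow_nonneg hK _)
    · simp only [hP, if_false, not_false_iff, if_true, add_zero, pow_succ]
      rw [mul_assoc]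
      exact ih.trans (mul_le_mul_of_nonneg_left (h2 n) (pow_nonneg hK _))

lemma two_mul_pow_le {b : ℝ} (hb : 5 ≤ b) {m n : ℕ} (h : m + 1 ≤ n) : 2 * b ^ m ≤ b ^ n := by
  have h0 : 0 ≤ b ^ m := by positivity
  calc 2 * b ^ m ≤ b ^ (m + 1) := by rw [pow_succ]; nlinarith
    _ ≤ b ^ n := pow_le_pow_right₀ (by linarith) h

lemma dec {V : ℕ → ℝ} {b : ℝ} {M : ℕ} (hb : 5 ≤ b) (hM : 11 ≤ M) (hV : ∀ l, |V l| ≤ b ^ M - 1)
    (m : ℕ) (h : ∀ s ≤ m, (b ^ (M - 3)) ^ s ≤ nv (sol V 0 1) s) :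
    ∃ (c : ℝ) (e : ℕ), (e = m ∨ e = m + 1) ∧ sol V 1 c e = 0 ∧ b ^ ((M - 3) * m) ≤ |sol V 0 1 e| ∧
      ∀ s, 1 ≤ s → s ≤ m → b ^ ((M - 10) * s) * nv (sol V 1 c) s ≤ 1 := by
  have hb1 : 1 ≤ b := by linarith
  have h2 : 2 ≤ b ^ (M - 3) := by simpa using two_mul_pow_le hb (m := 0) (n := M - 3) (by omega)
  obtain ⟨c, e, he, h0, hw, hs⟩ := dec_sol hV h2 (pow_le_pow_right₀ hb1 (by omega)) m h
  refine ⟨c, e, he, h0, ?_, fun s hs1 hsm => ?_⟩
  · rw [pow_mul]; exact (h m le_rfl).trans hw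
  · have h3 := hs s hsm
    rw [le_div_iff₀ (by positivity), ← pow_mul, ← pow_mul] at h3
    obtain ⟨r, rfl⟩ : ∃ r, M = r + 10 := ⟨M - 10, by omega⟩
    have e1 : r + 10 - 3 = r + 7 := by omega
    have e2 : r + 10 - 10 = r := by omega
    rw [e1] at h3
    rw [e2]
    have h4 : b ^ (r * s) * (5 * b ^ ((r + 10) * (s + 1))) ≤ b ^ ((r + 7) * (2 * s + 1)) := by
      calc b ^ (r * s) * (5 * b ^ ((r + 10) * (s + 1)))
          ≤ b ^ (r * s) * (b ^ 1 * b ^ ((r + 10) * (s + 1))) := by gcongr; simpa using hb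
        _ = b ^ (r * s + (1 + (r + 10) * (s + 1))) := by rw [pow_add, pow_add]
        _ ≤ _ := pow_le_pow_right₀ hb1 (by nlinarith)
    have h5 : 0 < b ^ ((r + 7) * (2 * s + 1)) := by positivity
    refine le_of_mul_le_mul_right ?_ h5
    rw [one_mul, mul_assoc]
    exact (mul_le_mul_of_nonneg_left h3 (by positivity)).trans h4

lemma abs_le_nv_of {u : ℕ → ℝ} {m e : ℕ} (he : e = m ∨ e = m + 1) : |u e| ≤ nv u m := by
  rcases he with rfl | rfl
  · exact abs_le_nv _ _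
  · exact abs_succ_le_nv _ _

/-- An up-bond which is forward clean does not decay. -/
lemma fwd {V : ℕ → ℝ} {b : ℝ} {M : ℕ} (hb : 5 ≤ b) (hM : 11 ≤ M) (hV : ∀ l, |V l| ≤ b ^ M - 1)
    {H : ℕ} (hH : 1 ≤ H) (h : ∀ s ≤ H, (b ^ (M - 3)) ^ s ≤ nv (sol V 0 1) s) {a₀ a₁ : ℝ}
    (hup : |a₀| ≤ |a₁|) : |a₁| ≤ nv (sol V a₀ a₁) H := by
  obtain ⟨c, e, he, h0, hw, hs⟩ := dec hb hM hV H h
  refine le_trans ?_ (abs_le_nv_of he)
  rw [sol_decomp V a₀ a₁ c, h0, mul_zero, zero_add, abs_mul]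
  have h1 : 2 ≤ |sol V 0 1 e| := by
    refine le_trans ?_ hw
    have : 1 ≤ (M - 3) * H := Nat.mul_pos (by omega) hH
    simpa using two_mul_pow_le hb (m := 0) (n := (M - 3) * H) (by omega)
  have h2 : 2 * |c| ≤ 1 := by
    have h3 := hs 1 le_rfl hH
    have h4 : |c| ≤ nv (sol V 1 c) 1 := abs_le_nv (sol V 1 c) 1
    have h5 : 2 ≤ b ^ ((M - 10) * 1) := by
      simpa using two_mul_pow_le hb (m := 0) (n := M - 10) (by omega)
    exact (mul_le_mul h5 h4 (abs_nonneg _) (by positivity)).trans h3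
  have h3 := abs_sub_abs_le_abs_sub a₁ (a₀ * c)
  rw [abs_mul] at h3
  have h4 : |a₀| * (2 * |c|) ≤ |a₁| * 1 := mul_le_mul hup h2 (by positivity) (abs_nonneg _)
  nlinarith [mul_le_mul_of_nonneg_left h1 (abs_nonneg (a₁ - a₀ * c))]

/-- A solution which is small at the far end of a clean stretch decays. -/
lemma bwd {V : ℕ → ℝ} {b : ℝ} {M : ℕ} (hb : 5 ≤ b) (hM : 11 ≤ M) (hV : ∀ l, |V l| ≤ b ^ M - 1)
    {H m : ℕ} (hH : 1 ≤ H) (hm : 2 * H ≤ m) (h : ∀ s ≤ m, (b ^ (M - 3)) ^ s ≤ nv (sol V 0 1) s)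
    {a₀ a₁ : ℝ} (hend : nv (sol V a₀ a₁) m ≤ 1) (ha : 1 ≤ |a₀|) :
    b ^ ((M - 11) * H) * nv (sol V a₀ a₁) H ≤ |a₀| := by
  obtain ⟨c, e, he, h0, hw, hs⟩ := dec hb hM hV m h
  have h1 : |a₁ - a₀ * c| * b ^ ((M - 3) * m) ≤ 1 := by
    have := (abs_le_nv_of (u := sol V a₀ a₁) he).trans hend
    rw [sol_decomp V a₀ a₁ c, h0, mul_zero, zero_add, abs_mul] at this
    exact (mul_le_mul_of_nonneg_left hw (abs_nonneg _)).trans this
  have h2 := hs H hH (by omega)
  have h3 := nv_dir_le hV H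
  rw [← pow_mul] at h3
  obtain ⟨r, rfl⟩ : ∃ r, M = r + 11 := ⟨M - 11, by omega⟩
  have e1 : r + 11 - 3 = r + 8 := by omega
  have e2 : r + 11 - 10 = r + 1 := by omega
  have e3 : r + 11 - 11 = r := by omega
  rw [e1] at h1
  rw [e2] at h2
  rw [e3]
  have h4 : 2 * b ^ (r * H) ≤ b ^ ((r + 1) * H) := two_mul_pow_le hb (by nlinarith)
  have h5 : 2 * (b ^ (r * H) * b ^ ((r + 11) * H)) ≤ b ^ ((r + 8) * m) := by
    rw [← pow_add]
    exact two_mul_pow_le hb (by nlinarith)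
  have h6 : 0 < b ^ (r * H) := by positivity
  have key : ∀ i, (i = H ∨ i = H + 1) → b ^ (r * H) * |sol V a₀ a₁ i| ≤ |a₀| := fun i hi => by
    have g1 := abs_le_nv_of (u := sol V 1 c) hi
    have g2 := (abs_le_nv_of (u := sol V 0 1) hi).trans h3
    have g3 : 2 * (b ^ (r * H) * |sol V 1 c i|) ≤ 1 := by
      rw [← mul_assoc]
      exact (mul_le_mul h4 g1 (abs_nonneg _) (by positivity)).trans h2
    have g4 : |a₁ - a₀ * c| * (2 * (b ^ (r * H) * |sol V 0 1 i|)) ≤ 1 := by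
      refine le_trans (mul_le_mul_of_nonneg_left (le_trans ?_ h5) (abs_nonneg _)) h1
      gcongr
    have g5 := abs_add_le (a₀ * sol V 1 c i) ((a₁ - a₀ * c) * sol V 0 1 i)
    rw [← sol_decomp V a₀ a₁ c, abs_mul, abs_mul] at g5
    have g6 := mul_le_mul_of_nonneg_left g5 h6.le
    have g7 := mul_le_mul_of_nonneg_left g3 (abs_nonneg a₀)
    nlinarith
  rw [nv, mul_max_of_nonneg _ _ h6.le]
  exact max_le (key _ (Or.inl rfl)) (key _ (Or.inr rfl))

lemma exp_le {b x : ℝ} (hb : 5 ≤ b) (hx : 0 < x) {m n : ℕ} (h : b ^ m * x ≤ b ^ n * x) : m ≤ n :=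
  (pow_le_pow_iff_right₀ (by linarith : 1 < b)).1 (le_of_mul_le_mul_right h hx)

/-- The core of the structure lemma, for sequences. -/
lemma core {V : ℕ → ℝ} {b : ℝ} {M C t : ℕ} (crit Z : ℕ → Prop) (hb : 5 ≤ b) (hM : M = 10000000)
    (hC : 2000000 ≤ C) (hV : ∀ l, |V l| ≤ b ^ M - 1)
    (hcrit : ∀ l, ¬ crit l → b ^ (M - 1) + 1 ≤ |V l|)
    (hgrow : ∀ s ≤ t, (b ^ (M - 2)) ^ s ≤ nv (sol V 0 1) s)
    (hdown : |sol V 0 1 (t + 1)| < |sol V 0 1 t|)
    (hbad : ∀ j, 1 ≤ j → j ≤ t → ∀ S : Finset ℕ,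
      (∀ s ∈ S, t - j < s ∧ s ≤ t ∧ (Z s ∨ crit s)) → C * S.card < j)
    (hZ : ∀ s < t, ¬ Z s →
      (∀ i ≤ t, (b ^ (M - 3)) ^ i ≤ nv (sol (fun i => V (s + i)) 0 1) i) ∨
      ∃ V' : ℕ → ℝ, (∀ l, |V' l| ≤ b ^ M - 1) ∧ (∀ i, 1 ≤ i → i ≤ s → V' i = V (s + 1 - i)) ∧
        ∀ i ≤ t, (b ^ (M - 3)) ^ i ≤ nv (sol V' 0 1) i) :
    ∃ c h : ℕ, c + 1 + h = t ∧ C ≤ 2 * h ∧ h ≤ c ∧ |sol V 0 1 (c + 2)| < |sol V 0 1 (c + 1)| ∧
      |sol V 0 1 c| ≤ |sol V 0 1 (c + 1)| ∧
      (∀ S : Finset ℕ, (∀ i ∈ S, 1 ≤ i ∧ i ≤ h ∧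
        (|sol V 0 1 (c + 1 + i)| < |sol V 0 1 (c + 1 + (i + 1))| ∨ crit (c + 1 + i))) →
        100000 * S.card ≤ h) ∧
      (∀ S : Finset ℕ, (∀ i ∈ S, 1 ≤ i ∧ i ≤ h ∧
        (|sol V 0 1 (c + 1 - i)| < |sol V 0 1 (c + 1 - (i + 1))| ∨ crit (c + 1 - i))) →
        100000 * S.card ≤ h) := by
  classical
  have hM11 : 11 ≤ M := by omega
  have hb1 : 1 ≤ b := by linarith
  have hb0 : 0 < b := by linarith
  set w := sol V 0 1 with hw
  have hsol : IsSol V w := isSol_sol V 0 1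
  have hone : ∀ s ≤ t, 1 ≤ nv w s := fun s hs =>
    (one_le_pow₀ (one_le_pow₀ hb1)).trans (hgrow s hs)
  have ht : 1 ≤ t := by
    rcases Nat.eq_zero_or_pos t with rfl | h
    · simp [hw] at hdown; linarith
    · exact h
  -- the chain estimate
  have chain : ∀ a e, a ≤ e → ∃ D D' : Finset ℕ, D.card + D'.card = e - a ∧
      (∀ s, a < s → s ≤ e → |w (s + 1)| ≤ |w s| → ¬ crit s → s ∈ D) ∧
      (∀ s ∈ D', a < s ∧ s ≤ e ∧ (|w s| < |w (s + 1)| ∨ crit s)) ∧
      b ^ ((M - 1) * D.card) * nv w e ≤ b ^ (M * D'.card) * nv w a := fun a e hae => by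
    refine ⟨(Ioc a e).filter fun s => |w (s + 1)| ≤ |w s| ∧ ¬ crit s,
      (Ioc a e).filter fun s => ¬ (|w (s + 1)| ≤ |w s| ∧ ¬ crit s), ?_, ?_, ?_, ?_⟩
    · rw [card_filter_add_card_filter_not, Nat.card_Ioc]
    · intro s h1 h2 h3 h4
      exact mem_filter.2 ⟨mem_Ioc.2 ⟨h1, h2⟩, h3, h4⟩
    · intro s hs
      obtain ⟨h1, h2⟩ := mem_filter.1 hs
      refine ⟨(mem_Ioc.1 h1).1, (mem_Ioc.1 h1).2, ?_⟩
      by_cases hc : crit s
      · exact Or.inr hc
      · exact Or.inl (not_le.1 fun h => h2 ⟨h, hc⟩)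
    · rw [pow_mul, pow_mul]
      exact chain_down (by positivity) (by positivity) (fun s => |w (s + 1)| ≤ |w s| ∧ ¬ crit s) hae
        (fun s _ _ hP => nv_down (hsol s) hP.1 (hcrit _ hP.2)) fun s => nv_succ_le (hsol s) (hV _)
  -- the last clean up-bond
  obtain ⟨t', ht't, hP, hmax⟩ : ∃ t', t' < t ∧ (t' = 0 ∨ (|w t'| ≤ |w (t' + 1)| ∧ ¬ Z t')) ∧
      ∀ s, t' < s → s < t → |w s| ≤ |w (s + 1)| → Z s := by
    let P : ℕ → Prop := fun s => s = 0 ∨ (|w s| ≤ |w (s + 1)| ∧ ¬ Z s)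
    refine ⟨Nat.findGreatest P (t - 1), ?_, Nat.findGreatest_spec (P := P) (Nat.zero_le _) (Or.inl rfl),
      fun s h1 h2 h3 => ?_⟩
    · have := Nat.findGreatest_le (P := P) (t - 1)
      omega
    · by_contra hz
      exact Nat.findGreatest_is_greatest h1 (by omega) (Or.inr ⟨h3, hz⟩)
  have hmax' : ∀ s, t' < s → s ≤ t → |w s| ≤ |w (s + 1)| → Z s := fun s h1 h2 h3 => by
    rcases eq_or_lt_of_le h2 with rfl | h
    · exact absurd h3 (not_le.2 hdown)
    · exact hmax s h1 h h3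
  obtain ⟨H, rfl⟩ : ∃ H, t = t' + H := ⟨t - t', by omega⟩
  have hH : 1 ≤ H := by omega
  have hdecay : b ^ ((M - 11) * H) * nv w (t' + H) ≤ nv w t' := by
    obtain ⟨D, D', h1, -, h3, h4⟩ := chain t' (t' + H) (by omega)
    have h5 := hbad H hH (by omega) D' fun s hs => by
      obtain ⟨g1, g2, g3⟩ := h3 s hs
      exact ⟨by omega, g2, g3.imp (fun g => hmax' s g1 g2 g.le) id⟩
    have h6 := Nat.mul_le_mul_right D'.card hC
    have h7 : M * D'.card + (M - 11) * H ≤ (M - 1) * D.card := by subst hM; omega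
    refine le_of_mul_le_mul_left (le_trans ?_ h4) (by positivity)
    rw [← mul_assoc, ← pow_add]
    exact mul_le_mul_of_nonneg_right (pow_le_pow_right₀ hb1 h7) (nv_nonneg _ _)
  have h2H : 2 * H ≤ t' := by
    have h1 := hgrow _ le_rfl
    have h2 := nv_dir_le hV t'
    rw [← pow_mul] at h1 h2
    have h3 := ((mul_le_mul_of_nonneg_left h1 (by positivity)).trans hdecay).trans h2
    rw [← pow_add] at h3
    have h4 := (pow_le_pow_iff_right₀ (by linarith : 1 < b)).1 h3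
    subst hM; omega
  obtain ⟨hup, hnZ⟩ := hP.resolve_left (by omega)
  have hN' : nv w t' = |w (t' + 1)| := max_eq_right hup
  have hback : b ^ ((M - 11) * H) * nv w (t' - H) ≤ nv w t' := by
    rcases hZ t' ht't hnZ with h | ⟨V', h1, h2, h3⟩
    · exfalso
      have g1 := fwd (V := fun i => V (t' + i)) hb hM11 (fun l => hV _) hH
        (fun s hs => h s (by omega)) hup
      have g2 : nv (sol (fun i => V (t' + i)) (w t') (w (t' + 1))) H = nv w (t' + H) := by
        simp only [nv, hw, ← sol_shift, add_assoc]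
      have g3 : 2 ≤ b ^ ((M - 11) * H) := by
        have : 1 ≤ (M - 11) * H := Nat.mul_pos (by omega) hH
        simpa using two_mul_pow_le hb (m := 0) (n := (M - 11) * H) (by omega)
      have g4 := hone _ le_rfl
      have g5 := mul_le_mul_of_nonneg_right g3 (nv_nonneg w (t' + H))
      linarith
    · have g0 := sol_rev V V' 0 1 t' h2
      have g1 : ∀ i ≤ t', nv (sol V' (w (t' + 1)) (w t')) i = nv w (t' - i) := fun i hi => by
        rw [nv, nv, hw, ← g0 i (by omega), ← g0 (i + 1) (by omega), max_comm,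
          show t' + 1 - (i + 1) = t' - i by omega, show t' + 1 - i = t' - i + 1 by omega]
      have g2 := bwd hb hM11 h1 hH h2H (fun s hs => h3 s (by omega)) (a₀ := w (t' + 1)) (a₁ := w t')
        (by rw [g1 _ le_rfl, Nat.sub_self, hw, nv_dir_zero]) (hN' ▸ hone t' (by omega))
      rwa [g1 H (by omega), ← hN'] at g2
  obtain ⟨Y, Y', hY1, hY2, -, hY4⟩ := chain (t' - H) t' (by omega)
  have hY : 19999999 * Y.card ≤ 11 * H := by
    have g1 : b ^ ((M - 11) * H + (M - 1) * Y.card) * nv w t' ≤ b ^ (M * Y'.card) * nv w t' := by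
      rw [pow_add, mul_assoc]
      refine (mul_le_mul_of_nonneg_left hY4 (by positivity)).trans ?_
      rw [mul_left_comm]
      exact mul_le_mul_of_nonneg_left hback (by positivity)
    have g2 := exp_le hb (by linarith [hone t' (by omega)]) g1
    subst hM; omega
  -- the peak
  obtain ⟨c, hc1, hc2, hcd, hcu⟩ : ∃ c, t' ≤ c ∧ c + 1 ≤ t' + H ∧ |w (c + 2)| < |w (c + 1)| ∧
      ∀ s, t' ≤ s → s ≤ c → |w s| ≤ |w (s + 1)| := by
    have hex : ∃ s, t' < s ∧ |w (s + 1)| < |w s| := ⟨t' + H, ht't, hdown⟩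
    have g1 := Nat.find_spec hex
    have g2 : Nat.find hex ≤ t' + H := Nat.find_min' hex ⟨ht't, hdown⟩
    have g3 := fun s => Nat.find_min hex (m := s)
    obtain ⟨c, hc⟩ : ∃ c, Nat.find hex = c + 1 := ⟨Nat.find hex - 1, by omega⟩
    rw [hc] at g1 g2 g3
    refine ⟨c, by omega, g2, g1.2, fun s h1 h2 => ?_⟩
    rcases eq_or_lt_of_le h1 with rfl | h
    · exact hup
    · exact not_lt.1 fun h' => g3 s (by omega) ⟨h, h'⟩
  have hcc : crit (c + 1) := by
    by_contra hn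
    have g1 := abs_up (hsol c) (hcu c hc1 le_rfl) (hcrit _ hn)
    have g2 := mul_le_mul_of_nonneg_right (one_le_pow₀ hb1 (n := M - 1)) (abs_nonneg (w (c + 1)))
    linarith
  have hβ : C * (c + 1 - t') < H := by
    have := hbad H hH (by omega) (Ioc t' (c + 1)) fun s hs => by
      obtain ⟨g1, g2⟩ := mem_Ioc.1 hs
      refine ⟨by omega, by omega, ?_⟩
      rcases eq_or_lt_of_le g2 with rfl | g
      · exact Or.inr hcc
      · exact Or.inl (hmax' s g1 (by omega) (hcu s g1.le (by omega)))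
    rwa [Nat.card_Ioc] at this
  have hβ1 := Nat.mul_le_mul_right (c + 1 - t') hC
  have hβ2 : C * 1 ≤ C * (c + 1 - t') := Nat.mul_le_mul_left C (by omega)
  obtain ⟨h, hh⟩ : ∃ h, c + 1 + h = t' + H := ⟨t' + H - (c + 1), by omega⟩
  refine ⟨c, h, hh, by omega, by omega, hcd, hcu c hc1 le_rfl, fun S hS => ?_, fun S hS => ?_⟩
  · have g1 := hbad h (by omega) (by omega) (S.image fun i => c + 1 + i) fun s hs => by
      obtain ⟨i, hi, rfl⟩ := mem_image.1 hs
      obtain ⟨g1, g2, g3⟩ := hS i hi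
      exact ⟨by omega, by omega, g3.imp (fun g => hmax' _ (by omega) (by omega) g.le) id⟩
    rw [card_image_of_injective _ (add_right_injective _)] at g1
    have g2 := Nat.mul_le_mul_right S.card hC
    omega
  · have hcr : ∀ (d : ℕ) (R : Finset ℕ), c ≤ d → d ≤ c + 1 → (∀ i ∈ R, i ∈ S ∧ crit (d - i)) →
        2000000 * R.card < 2 * H := fun d R hd1 hd2 hR => by
      have g1 := hbad (2 * H) (by omega) (by omega) (R.image fun i => d - i) fun s hs => by
        obtain ⟨i, hi, rfl⟩ := mem_image.1 hs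
        obtain ⟨g1, g2, -⟩ := hS i (hR i hi).1
        exact ⟨by omega, by omega, Or.inr (hR i hi).2⟩
      rw [card_image_of_injOn fun i hi j hj hij => by
        have := (hS i (hR i hi).1).2.1
        have := (hS j (hR j hj).1).2.1
        omega] at g1
      exact (Nat.mul_le_mul_right R.card hC).trans_lt g1
    have g1 := hcr c (S.filter fun i => crit (c - i)) le_rfl (by omega) fun i hi => mem_filter.1 hi
    have g2 := hcr (c + 1) (S.filter fun i => crit (c + 1 - i)) (by omega) le_rfl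
      fun i hi => mem_filter.1 hi
    have g3 : (S.filter fun i => ¬ crit (c - i) ∧ ¬ crit (c + 1 - i)).card ≤ Y.card := by
      refine card_le_card_of_injOn (fun i => c - i) (fun i hi => ?_) fun i hi j hj hij => ?_
      · obtain ⟨k1, k2, k3⟩ := mem_filter.1 (mem_coe.1 hi)
        obtain ⟨k4, k5, k6⟩ := hS i k1
        have k7 := k6.resolve_right k3
        rw [show c + 1 - i = c - i + 1 by omega, show c + 1 - (i + 1) = c - i by omega] at k7
        have k8 : c - i < t' := by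
          by_contra k9
          exact absurd (hcu (c - i) (not_lt.1 k9) (by omega)) (not_le.2 k7)
        exact mem_coe.2 (hY2 (c - i) (by omega) k8.le k7.le k2)
      · have := (hS i (mem_filter.1 (mem_coe.1 hi)).1).2.1
        have := (hS j (mem_filter.1 (mem_coe.1 hj)).1).2.1
        simp only at hij
        omega
    have g4 : S.card ≤ (S.filter fun i => ¬ crit (c - i) ∧ ¬ crit (c + 1 - i)).card +
        (S.filter fun i => crit (c - i)).card + (S.filter fun i => crit (c + 1 - i)).card := by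
      refine le_trans (card_le_card ?_) ((card_union_le _ _).trans
        (Nat.add_le_add_right (card_union_le _ _) _))
      intro i hi
      simp only [mem_union, mem_filter]
      tauto
    omega

/-- The statement for general `M`. -/
lemma main {k b η : ℝ} {M : ℕ} (hM : M = 10000000) (hb : 5 ≤ b)
    (hK : 2 * π * k + 3 = b ^ M) {C N t : ℕ} {p : ℝ × ℝ} (hC : 2000000 ≤ C) (ht : t ≤ N)
    (hcrit : ∀ l, ¬ |Real.cos (2 * π * orb k p l)| < η → b ^ (M - 1) + 1 ≤ |Vp k p l|)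
    (hk : 0 ≤ k) (hgrow : ∀ s ≤ t, (b ^ (M - 2)) ^ s ≤ nv (ww k p) s)
    (hdown : |ww k p (t + 1)| < |ww k p t|) : (T k)^[t] p ∈ Eset k η (b ^ (M - 3)) C N := by
  classical
  by_cases hB : (T k)^[t] p ∈ Bad' k η (b ^ (M - 3)) C N
  · exact Or.inl (Or.inr hB)
  refine Or.inr ?_
  obtain ⟨c, h, hh, hC2, hhc, hcd, hcu, hR, hL⟩ := core (V := Vp k p) (t := t)
    (fun l => |Real.cos (2 * π * orb k p l)| < η) (fun s => (T k)^[s] p ∈ Zs k (b ^ (M - 3)) N)
    hb hM hC (abs_Vp_le hk hK p) hcrit hgrow hdown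
    (fun j h1 h2 S hS => by
      by_contra hn
      refine hB ⟨j, h1, by omega, (not_lt.1 hn).trans (Nat.mul_le_mul_left C ?_)⟩
      refine card_le_card_of_injOn (fun s => t - s) (fun s hs => ?_) fun s hs s' hs' h => ?_
      · obtain ⟨g1, g2, g3⟩ := hS s (mem_coe.1 hs)
        simp only [coe_filter, mem_range, Set.mem_ofPred_eq]
        refine ⟨by omega, ?_⟩
        rw [Ti_iter_T k p (by omega), show t - (t - s) = s by omega]
        refine g3.imp id fun g => ?_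
        rw [iter_T]
        exact g
      · have := (hS s (mem_coe.1 hs)).2.1
        have := (hS s' (mem_coe.1 hs')).2.1
        simp only at h
        omega)
    (fun s hs hz => by
      by_cases hf : (T k)^[s] p ∈ Fail k (b ^ (M - 3)) N
      · refine Or.inr ⟨Vp k ((T k)^[s] p).swap, abs_Vp_le hk hK _, fun i _ h2 => ?_, fun i hi => ?_⟩
        · simp only [Vp, orb_swap_iter k p s i (by omega)]
        · exact not_lt.1 fun h => hz ⟨hf, i, by omega, h⟩
      · refine Or.inl fun i hi => not_lt.1 fun h => hf ⟨i, by omega, ?_⟩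
        rwa [ww, Vp_iter])
  simp only [Set.mem_iUnion, Set.mem_preimage]
  refine ⟨h, hC2, ?_⟩
  rw [Ti_iter_T k p (by omega), show t - h = c + 1 by omega]
  set w := sol (Vp k p) 0 1 with hw
  have hpos : 0 < |w (c + 1)| := (abs_nonneg _).trans_lt hcd
  have hne : w (c + 1) ≠ 0 := abs_pos.1 hpos
  have ha : pot k ((T k)^[c + 1] p).1 - w (c + 2) / w (c + 1) = w c / w (c + 1) := by
    have e1 : pot k ((T k)^[c + 1] p).1 = Vp k p (c + 1) := by rw [iter_T]; rfl
    have e2 : w (c + 2) = Vp k p (c + 1) * w (c + 1) - w c := rfl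
    rw [e1, e2]; field_simp; ring
  have hr : ∀ i, w (c + 1 + i) = w (c + 1) * uu k ((T k)^[c + 1] p) (w (c + 2) / w (c + 1)) i :=
    fun i => by
      rw [uu, ← sol_smul, Vp_iter, mul_one, mul_div_cancel₀ _ hne]
      exact sol_shift _ _ _ _ _
  have hl : ∀ i ≤ c + 1,
      w (c + 1 - i) = w (c + 1) * uu k (Lf k ((T k)^[c + 1] p)) (w c / w (c + 1)) i :=
    fun i hi => by
      rw [uu, ← sol_smul, mul_one, mul_div_cancel₀ _ hne]
      exact sol_rev _ _ _ _ c (fun j _ hj => by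
        simp only [Vp, orb_Lf_iter k p (c + 1) j (by omega)]) i hi
  refine ⟨w (c + 2) / w (c + 1), ?_, ?_, ?_, ?_⟩
  · rw [abs_div, div_le_one hpos]; exact hcd.le
  · rw [ha, abs_div, div_le_one hpos]; exact hcu
  · refine hR _ fun i hi => ?_
    obtain ⟨g1, g2⟩ := mem_filter.1 hi
    refine ⟨(mem_Icc.1 g1).1, (mem_Icc.1 g1).2, ?_⟩
    rw [orb_iter] at g2
    by_contra hn
    obtain ⟨n1, n2⟩ := not_or.1 hn
    refine g2 ⟨?_, not_lt.1 n2⟩
    rw [hr, hr, abs_mul, abs_mul] at n1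
    exact le_of_mul_le_mul_left (not_lt.1 n1) hpos
  · rw [ha]
    refine hL _ fun i hi => ?_
    obtain ⟨g1, g2⟩ := mem_filter.1 hi
    obtain ⟨g3, g4⟩ := mem_Icc.1 g1
    refine ⟨g3, g4, ?_⟩
    rw [orb_Lf_iter k p (c + 1) i (by omega)] at g2
    by_contra hn
    obtain ⟨n1, n2⟩ := not_or.1 hn
    refine g2 ⟨?_, not_lt.1 n2⟩
    rw [hl i (by omega), hl (i + 1) (by omega), abs_mul, abs_mul] at n1
    exact le_of_mul_le_mul_left (not_lt.1 n1) hpos

lemma count {k b η : ℝ} {M : ℕ} (hM : M = 10000000) (hb : 5 ≤ b) (hη : 12 ≤ η * b)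
    (hK : 2 * π * k + 3 = b ^ M) {C N n : ℕ} {p : ℝ × ℝ} (hC : 2000000 ≤ C) (hn : n ≤ N + 1)
    (hF : First k (b ^ (M - 2)) p n) (S : Finset ℕ)
    (hS : ∀ t < n, (T k)^[t] p ∈ Eset k η (b ^ (M - 3)) C N → t ∈ S) : n ≤ 20000000 * S.card := by
  classical
  have hb1 : 1 ≤ b := by linarith
  have hη0 : 0 < η := by
    by_contra h
    nlinarith [not_lt.1 h]
  have hbM : b ≤ b ^ M := le_self_pow₀ hb1 (by omega)
  have hk : 0 ≤ k := by
    by_contra h
    nlinarith [pi_pos, not_le.1 h]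
  have hcrit : ∀ l, ¬ |Real.cos (2 * π * orb k p l)| < η → b ^ (M - 1) + 1 ≤ |Vp k p l| :=
    fun l hl => by
      refine le_trans ?_ (noncrit hk hK (hη.trans (mul_le_mul_of_nonneg_left hbM hη0.le))
        (not_lt.1 hl))
      have e : b ^ M = b * b ^ (M - 1) := by
        rw [← pow_succ']; congr 1; omega
      have : 0 < b ^ (M - 1) := by positivity
      rw [e]
      nlinarith
  have hsol : IsSol (Vp k p) (ww k p) := isSol_sol _ 0 1
  let P : ℕ → Prop := fun s => |ww k p s| ≤ |ww k p (s + 1)| ∧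
    ¬ |Real.cos (2 * π * orb k p (s + 1))| < η
  have h1 := chain_up (f := nv (ww k p)) (K := b ^ M) (L := b ^ (M - 1)) (by positivity)
    (by positivity) P n (fun s hP => nv_up (hsol s) hP.1 (hcrit _ hP.2))
    fun s => nv_le_succ (hsol s) (abs_Vp_le hk hK p _)
  have h2 := h1.trans (mul_le_mul_of_nonneg_left hF.2.le (by positivity))
  rw [show nv (ww k p) 0 = 1 from nv_dir_zero _, mul_one, ← pow_mul, ← pow_mul, ← pow_mul, ← pow_add] at h2
  have h3 := (pow_le_pow_iff_right₀ (by linarith : 1 < b)).1 h2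
  have h4 := card_filter_add_card_filter_not (s := range n) P
  rw [card_range] at h4
  have h5 : ((range n).filter fun s => ¬ P s).card ≤ S.card := by
    refine card_le_card fun t ht => ?_
    obtain ⟨g1, g2⟩ := mem_filter.1 ht
    have g3 := mem_range.1 g1
    refine hS t g3 ?_
    by_cases hc : |Real.cos (2 * π * orb k p (t + 1))| < η
    · refine Or.inl (Or.inl ?_)
      rw [iter_T]
      exact hc
    · exact main hM hb hK hC (by omega) hcrit hk (fun s hs => hF.1 s (by omega))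
        (not_le.1 fun h => g2 ⟨h, hc⟩)
  subst hM
  omega

end Struct

theorem struct : StructStmt := by
  classical
  intro η hη
  refine ⟨max 5 (12 / η), fun k b hb hK C N n p hC hn hF => ?_⟩
  have h1 : 12 ≤ η * b := by
    rw [mul_comm, ← div_le_iff₀ hη]
    exact (le_max_right _ _).trans hb
  exact Struct.count (M := 10000000) rfl ((le_max_left _ _).trans hb) h1 hK hC hn hF _
    fun t ht h => Finset.mem_filter.2 ⟨Finset.mem_range.2 ht, h⟩

end Crest.Agent.R128
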