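import Crest.Agent.R128.Basic

/-!
Row 128 (S0172): the linearisation near a finite-time stable leaf.
`stab : StabStmt` (failure is stable near the leaf) and `two : TwoStmt` (leaves stay close).
-/

set_option autoImplicit false
open MeasureTheory Real

namespace Crest.Agent.R128

namespace Two

/-! ### Integer powers of `B` -/

theorem zp_pos {B : ℝ} (hB : 2 ≤ B) (a : ℤ) : 0 < B ^ a := zpow_pos (by linarith) a

theorem zp_le {B : ℝ} (hB : 2 ≤ B) {a b : ℤ} (h : a ≤ b) : B ^ a ≤ B ^ b :=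
  zpow_le_zpow_right₀ (by linarith) h

theorem zp_add {B : ℝ} (hB : 2 ≤ B) (a b : ℤ) : B ^ a * B ^ b = B ^ (a + b) :=
  (zpow_add₀ (by linarith) a b).symm

theorem zp2 {B : ℝ} (hB : 2 ≤ B) {a b c : ℤ} (h : a + b ≤ c) : B ^ a * B ^ b ≤ B ^ c := by
  rw [zp_add hB]; exact zp_le hB h

theorem zp_nat (B : ℝ) (n : ℕ) {z : ℤ} (h : (n : ℤ) = z) : B ^ n = B ^ z := by
  rw [← h, zpow_natCast]

theorem zp_inv (B c : ℝ) (n : ℕ) {z : ℤ} (h : -(n : ℤ) = z) : c / B ^ n = c * B ^ z := by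
  rw [← h, zpow_neg, zpow_natCast, div_eq_mul_inv]

/-- `c B^a ≤ B^b` as soon as `c ≤ 2^j` and `a + j ≤ b`. -/
theorem zp_const {B c : ℝ} (hB : 2 ≤ B) (j : ℕ) (hc : c ≤ 2 ^ j) {a b : ℤ} (h : a + j ≤ b) :
    c * B ^ a ≤ B ^ b := by
  have h1 : c ≤ B ^ (j : ℤ) := by
    rw [zpow_natCast]; exact hc.trans (pow_le_pow_left₀ (by norm_num) hB j)
  calc c * B ^ a ≤ B ^ (j : ℤ) * B ^ a := mul_le_mul_of_nonneg_right h1 (zp_pos hB a).le
    _ ≤ B ^ b := zp2 hB (by omega)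

theorem geom {B : ℝ} (hB : 2 ≤ B) (m : ℕ) :
    ∑ l ∈ Finset.Ioc 0 m, 140 * B ^ (-100 * (l : ℤ)) ≤ 1 / 100 := by
  have key : ∀ m : ℕ, ∑ l ∈ Finset.Ioc 0 m, 140 * B ^ (-100 * (l : ℤ)) ≤
      1 / 100 * (1 - (1 / 2) ^ m) := by
    intro m
    induction m with
    | zero => simp
    | succ m ih =>
      rw [Finset.sum_Ioc_succ_top (Nat.zero_le m)]
      have h1 : 14000 * B ^ (-100 * ((m + 1 : ℕ) : ℤ)) ≤ B ^ (-((m + 1 : ℕ) : ℤ)) :=
        zp_const hB 14 (by norm_num) (by push_cast; omega)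
      have h2 : B ^ (-((m + 1 : ℕ) : ℤ)) ≤ (1 / 2) ^ (m + 1) := by
        rw [zpow_neg, zpow_natCast, one_div, inv_pow]
        exact inv_anti₀ (by positivity) (pow_le_pow_left₀ (by norm_num) hB _)
      rw [pow_succ] at h2 ⊢
      linarith
  have := key m
  have h2 : (0 : ℝ) ≤ (1 / 2) ^ m := by positivity
  linarith

/-! ### The data attached to a first failure -/

theorem dir_le {k B : ℝ} (hB : 2 ≤ B) (hS : Sc k B) (q : ℝ × ℝ) {l : ℕ} (hl : 1 ≤ l) :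
    |sol (Vp k q) 0 1 l| ≤ B ^ (1000 * ((l : ℤ) - 1)) := by
  have hk : 0 ≤ k := by linarith [hS.one_le hB]
  have := abs_dir_le (abs_Vp_le hk hS q) l
  rwa [← pow_mul, zp_nat B _ (z := 1000 * ((l : ℤ) - 1)) (by push_cast [Nat.cast_sub hl]; ring)]
    at this

theorem near_le {k B : ℝ} (hB : 2 ≤ B) {p q : ℝ × ℝ} {m : ℕ} (h : Near k B p q (m + 1)) {l : ℕ}
    (h1 : 1 ≤ l) (h2 : l ≤ m + 1) :
    |orb k q l - orb k p l| ≤ 20 * B ^ (-200 * min (l : ℤ) m) := by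
  have := h l h1 h2
  rw [wd, Nat.add_sub_cancel, zp_inv B 10 _ (z := -900 * min (l : ℤ) m) (by push_cast; ring),
    zp_inv B 1 _ (z := -1200 * (m : ℤ)) (by push_cast; ring),
    zp_nat B _ (z := 1000 * ((l : ℤ) - 1)) (by push_cast [Nat.cast_sub h1]; ring)] at this
  have a1 : B ^ (-900 * min (l : ℤ) m) ≤ B ^ (-200 * min (l : ℤ) m) := zp_le hB (by omega)
  have a2 : B ^ (1000 * ((l : ℤ) - 1)) * B ^ (-1200 * (m : ℤ)) ≤ B ^ (-200 * min (l : ℤ) m) :=
    zp2 hB (by omega)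
  linarith

/-- The decaying solution at a first failure. -/
structure Data (k B : ℝ) (p : ℝ × ℝ) (m : ℕ) (c : ℝ) (e : ℕ) : Prop where
  he : e = m ∨ e = m + 1
  h0 : sol (Vp k p) 1 c e = 0
  hwe : B ^ (999 * (m : ℤ)) ≤ |sol (Vp k p) 0 1 e|
  ha : ∀ l : ℕ, 1 ≤ l → l ≤ m + 1 → |sol (Vp k p) 1 c l| ≤ B ^ (-990 * min (l : ℤ) m)
  ha2 : |sol (Vp k p) 1 c (m + 2)| ≤ B ^ (1000 - 990 * (m : ℤ))

theorem pow_lam {B lam : ℝ} (hB : 2 ≤ B) (hl : B ^ 999 ≤ lam) (s : ℕ) :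
    B ^ (999 * (s : ℤ)) ≤ lam ^ s := by
  rw [← zp_nat B (999 * s) (by push_cast; ring), pow_mul]
  exact pow_le_pow_left₀ (by positivity) hl s

theorem exists_data {k B lam : ℝ} (hB : 2 ≤ B) (hS : Sc k B) (hl : B ^ 999 ≤ lam) {p : ℝ × ℝ}
    {m : ℕ} (hm : 1 ≤ m) (hF : First k lam p (m + 1)) : ∃ c e, Data k B p m c e := by
  have hk : 0 ≤ k := by linarith [hS.one_le hB]
  have hV := abs_Vp_le hk hS p
  have h2 : 2 ≤ lam := by
    have : B ^ 1 ≤ B ^ 999 := pow_le_pow_right₀ (by linarith) (by norm_num)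
    rw [pow_one] at this; linarith
  have hK : lam ≤ B ^ 1000 := by
    have h1 := (hF.1 1 (by omega)).trans (nv_dir_le hV 1)
    simpa using h1
  obtain ⟨c, e, he, h0, hwe, ha⟩ := dec_sol hV h2 hK m fun s hs => hF.1 s (by omega)
  have ha' : ∀ s, 1 ≤ s → s ≤ m → nv (sol (Vp k p) 1 c) s ≤ B ^ (-990 * (s : ℤ)) := by
    intro s hs1 hs
    refine (ha s hs).trans ?_
    have b1 := pow_lam hB hl (2 * s + 1)
    rw [div_le_iff₀ (by positivity), ← pow_mul,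
      zp_nat B _ (z := 1000 * ((s : ℤ) + 1)) (by push_cast; ring)]
    calc 5 * B ^ (1000 * ((s : ℤ) + 1))
        ≤ B ^ (-990 * (s : ℤ) + 999 * ((2 * s + 1 : ℕ) : ℤ)) :=
          zp_const hB 3 (by norm_num) (by push_cast; omega)
      _ = B ^ (-990 * (s : ℤ)) * B ^ (999 * ((2 * s + 1 : ℕ) : ℤ)) := (zp_add hB _ _).symm
      _ ≤ _ := mul_le_mul_of_nonneg_left b1 (zp_pos hB _).le
  refine ⟨c, e, he, h0, ((pow_lam hB hl m).trans (hF.1 m (by omega))).trans hwe, ?_, ?_⟩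
  · intro l h1 h2
    rcases eq_or_lt_of_le h2 with rfl | h3
    · refine ((abs_succ_le_nv _ m).trans (ha' m hm le_rfl)).trans (zp_le hB ?_)
      push_cast; omega
    · exact ((abs_le_nv _ l).trans (ha' l h1 (by omega))).trans (zp_le hB (by omega))
  · have b1 := nv_succ_le (isSol_sol (Vp k p) 1 c m) (hV _)
    have b2 := mul_le_mul_of_nonneg_left (ha' m hm le_rfl) (by positivity : 0 ≤ B ^ 1000)
    rw [zp_nat B 1000 (z := 1000) rfl] at b1 b2
    exact ((abs_succ_le_nv _ (m + 1)).trans (b1.trans b2)).trans (zp2 hB (by omega))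

/-! ### Stability of failure -/

theorem stab_aux {k B lam : ℝ} (hB : 2 ≤ B) (hS : Sc k B) (hl : B ^ 999 ≤ lam) {p q : ℝ × ℝ}
    {m : ℕ} (hm : 100 ≤ m) {c : ℝ} {e : ℕ} (D : Data k B p m c e) (hN : Near k B p q (m + 1))
    {s : ℕ} (hs : s = m + 1 ∨ s = m + 2) :
    |ww k q s - ww k p s| ≤ |ww k p s| / 100 + lam ^ (m + 1) / 100 := by
  have hk : 0 ≤ k := by linarith [hS.one_le hB]
  set g : ℕ → ℝ := fun l => (Vp k q l - Vp k p l) * ww k q l with hg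
  have hd := duhamel (Vp k p) c (f := fun l => ww k q l - ww k p l) (g := g) (m := m + 1)
    (fun n _ => by simp only [hg, ww, sol_succ_succ]; ring) s (by omega)
  have hz : sol (Vp k p) (ww k q 0 - ww k p 0) (ww k q 1 - ww k p 1) s = 0 := by
    rw [sol_lin]; simp [ww]
  simp only [hz, zero_add] at hd
  have hgl : ∀ l : ℕ, 1 ≤ l → l ≤ m + 1 →
      |g l| ≤ 140 * B ^ (1000 * (l : ℤ) - 200 * min (l : ℤ) m) := by
    intro l h1 h2
    have a1 := pot_lip hk hS (orb k q l) (orb k p l)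
    have a2 := near_le hB hN h1 h2
    have a3 := dir_le hB hS q h1
    rw [zp_nat B 1000 (z := 1000) rfl] at a1
    have a4 := a1.trans (mul_le_mul_of_nonneg_left a2 (by have := zp_pos hB 1000; positivity))
    calc |g l| = |pot k (orb k q l) - pot k (orb k p l)| * |sol (Vp k q) 0 1 l| := abs_mul _ _
      _ ≤ 7 * B ^ (1000 : ℤ) * (20 * B ^ (-200 * min (l : ℤ) m)) * B ^ (1000 * ((l : ℤ) - 1)) :=
          mul_le_mul a4 a3 (abs_nonneg _) ((abs_nonneg _).trans a4)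
      _ = 140 * (B ^ (1000 : ℤ) * B ^ (-200 * min (l : ℤ) m) * B ^ (1000 * ((l : ℤ) - 1))) := by
          ring
      _ ≤ _ := by
          rw [zp_add hB]
          exact mul_le_mul_of_nonneg_left (zp2 hB (by omega)) (by norm_num)
  have has : |sol (Vp k p) 1 c s| ≤ B ^ (1000 - 990 * (m : ℤ)) := by
    rcases hs with rfl | rfl
    · exact (D.ha (m + 1) (by omega) le_rfl).trans (zp_le hB (by push_cast; omega))
    · exact D.ha2
  have hlam := pow_lam hB hl (m + 1)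
  have hterm : ∀ l ∈ Finset.Ico 1 s,
      |(sol (Vp k p) 0 1 s * sol (Vp k p) 1 c l - sol (Vp k p) 1 c s * sol (Vp k p) 0 1 l) * g l|
        ≤ (|ww k p s| + lam ^ (m + 1)) * (140 * B ^ (-100 * (l : ℤ))) := by
    intro l hl'
    obtain ⟨h1, h2⟩ := Finset.mem_Ico.1 hl'
    have h3 : l ≤ m + 1 := by omega
    have a1 := hgl l h1 h3
    have a2 := D.ha l h1 h3
    have a3 := dir_le hB hS p h1
    have b1 : |sol (Vp k p) 1 c l| * |g l| ≤ 140 * B ^ (-100 * (l : ℤ)) := by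
      calc |sol (Vp k p) 1 c l| * |g l|
          ≤ B ^ (-990 * min (l : ℤ) m) * (140 * B ^ (1000 * (l : ℤ) - 200 * min (l : ℤ) m)) :=
            mul_le_mul a2 a1 (abs_nonneg _) (zp_pos hB _).le
        _ = 140 * (B ^ (-990 * min (l : ℤ) m) * B ^ (1000 * (l : ℤ) - 200 * min (l : ℤ) m)) := by
            ring
        _ ≤ _ := mul_le_mul_of_nonneg_left (zp2 hB (by omega)) (by norm_num)
    have b2 : |sol (Vp k p) 1 c s| * |sol (Vp k p) 0 1 l| * |g l|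
        ≤ lam ^ (m + 1) * (140 * B ^ (-100 * (l : ℤ))) := by
      calc |sol (Vp k p) 1 c s| * |sol (Vp k p) 0 1 l| * |g l|
          ≤ B ^ (1000 - 990 * (m : ℤ)) * B ^ (1000 * ((l : ℤ) - 1)) *
              (140 * B ^ (1000 * (l : ℤ) - 200 * min (l : ℤ) m)) :=
            mul_le_mul (mul_le_mul has a3 (abs_nonneg _) (zp_pos hB _).le) a1 (abs_nonneg _)
              (mul_pos (zp_pos hB _) (zp_pos hB _)).le
        _ = 140 * (B ^ (1000 - 990 * (m : ℤ)) * B ^ (1000 * ((l : ℤ) - 1)) *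
              B ^ (1000 * (l : ℤ) - 200 * min (l : ℤ) m)) := by ring
        _ ≤ 140 * (B ^ (999 * ((m + 1 : ℕ) : ℤ)) * B ^ (-100 * (l : ℤ))) := by
            rw [zp_add hB, zp_add hB, zp_add hB]
            exact mul_le_mul_of_nonneg_left (zp_le hB (by push_cast; omega)) (by norm_num)
        _ ≤ 140 * (lam ^ (m + 1) * B ^ (-100 * (l : ℤ))) :=
            mul_le_mul_of_nonneg_left (mul_le_mul_of_nonneg_right hlam (zp_pos hB _).le)
              (by norm_num)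
        _ = _ := by ring
    have b3 := mul_le_mul_of_nonneg_left b1 (abs_nonneg (sol (Vp k p) 0 1 s))
    have b4 := mul_le_mul_of_nonneg_right
      (abs_sub (sol (Vp k p) 0 1 s * sol (Vp k p) 1 c l) (sol (Vp k p) 1 c s * sol (Vp k p) 0 1 l))
      (abs_nonneg (g l))
    rw [abs_mul (sol (Vp k p) 0 1 s), abs_mul (sol (Vp k p) 1 c s)] at b4
    rw [abs_mul, ww]
    nlinarith
  have hsum : ∑ l ∈ Finset.Ico 1 s, 140 * B ^ (-100 * (l : ℤ)) ≤ 1 / 100 := by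
    refine le_trans (Finset.sum_le_sum_of_subset_of_nonneg (t := Finset.Ioc 0 s) ?_ ?_) (geom hB s)
    · intro l hl'
      rw [Finset.mem_Ico] at hl'
      rw [Finset.mem_Ioc]; omega
    · intro l _ _; have := zp_pos hB (-100 * (l : ℤ)); positivity
  have hpos : 0 ≤ |ww k p s| + lam ^ (m + 1) := by
    have := (zp_pos hB _).le.trans hlam
    positivity
  rw [hd]
  calc _ ≤ _ := Finset.abs_sum_le_sum_abs _ _
    _ ≤ _ := Finset.sum_le_sum hterm
    _ = (|ww k p s| + lam ^ (m + 1)) * ∑ l ∈ Finset.Ico 1 s, 140 * B ^ (-100 * (l : ℤ)) := by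
        rw [Finset.mul_sum]
    _ ≤ (|ww k p s| + lam ^ (m + 1)) * (1 / 100) := mul_le_mul_of_nonneg_left hsum hpos
    _ = _ := by ring

/-! ### Differences of two nearby orbits -/

/-- The weight of the bootstrap. -/
noncomputable def Om (B A T : ℝ) (s : ℕ) : ℝ :=
  A * B ^ (-900 * (s : ℤ)) + T * B ^ (1000 * ((s : ℤ) - 1))

theorem Om_pos {B A T : ℝ} (hB : 2 ≤ B) (hA : 0 ≤ A) (hT : 0 < T) (s : ℕ) : 0 < Om B A T s := by
  have := zp_pos hB (-900 * (s : ℤ))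
  have := zp_pos hB (1000 * ((s : ℤ) - 1))
  rw [Om]; positivity

theorem kern {B A T Θ G x : ℝ} (hB : 2 ≤ B) (hA : 0 ≤ A) (hT : 0 < T) (hΘ : 0 ≤ Θ) {z : ℤ}
    {s l : ℕ} (hG : |G| ≤ B ^ z) (hx : |x| ≤ 140 * B ^ (1000 - 200 * (l : ℤ)) * (Θ * Om B A T l))
    (h1 : z + 1000 - 1000 * l ≤ -900 * s) (h2 : z + 1000 + 900 * l ≤ 1000 * s) :
    |G * x| ≤ Θ * Om B A T s * (140 * B ^ (-100 * (l : ℤ))) := by
  have a1 : B ^ z * B ^ (1000 - 200 * (l : ℤ)) * B ^ (-900 * (l : ℤ)) ≤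
      B ^ (-900 * (s : ℤ)) * B ^ (-100 * (l : ℤ)) := by
    rw [zp_add hB, zp_add hB, zp_add hB]; exact zp_le hB (by omega)
  have a2 : B ^ z * B ^ (1000 - 200 * (l : ℤ)) * B ^ (1000 * ((l : ℤ) - 1)) ≤
      B ^ (1000 * ((s : ℤ) - 1)) * B ^ (-100 * (l : ℤ)) := by
    rw [zp_add hB, zp_add hB, zp_add hB]; exact zp_le hB (by omega)
  have b1 := mul_le_mul_of_nonneg_left a1 (by positivity : 0 ≤ 140 * Θ * A)
  have b2 := mul_le_mul_of_nonneg_left a2 (by positivity : 0 ≤ 140 * Θ * T)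
  calc |G * x| = |G| * |x| := abs_mul _ _
    _ ≤ B ^ z * (140 * B ^ (1000 - 200 * (l : ℤ)) * (Θ * Om B A T l)) :=
        mul_le_mul hG hx (abs_nonneg _) (zp_pos hB _).le
    _ ≤ _ := by simp only [Om]; linarith

theorem grn_le {B : ℝ} (hB : 2 ≤ B) {V g : ℕ → ℝ} {c A T Θ : ℝ} {m : ℕ} (hA : 0 ≤ A) (hT : 0 < T)
    (hΘ : 0 ≤ Θ) (hw : ∀ l : ℕ, 1 ≤ l → |sol V 0 1 l| ≤ B ^ (1000 * ((l : ℤ) - 1)))
    (ha : ∀ l : ℕ, 1 ≤ l → l ≤ m → |sol V 1 c l| ≤ B ^ (-990 * (l : ℤ)))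
    (hg : ∀ l : ℕ, 1 ≤ l → l ≤ m →
      |g l| ≤ 140 * B ^ (1000 - 200 * (l : ℤ)) * (Θ * Om B A T l))
    {s : ℕ} (hs1 : 1 ≤ s) (hs : s ≤ m) : |grn V c g m s| ≤ Θ * Om B A T s / 100 := by
  have hO := Om_pos hB hA hT s
  have t1 : |sol V 1 c s * ∑ l ∈ Finset.Ioc 0 s, sol V 0 1 l * g l| ≤
      ∑ l ∈ Finset.Ioc 0 s, Θ * Om B A T s * (140 * B ^ (-100 * (l : ℤ))) := by
    rw [Finset.mul_sum]
    refine (Finset.abs_sum_le_sum_abs _ _).trans (Finset.sum_le_sum fun l hl => ?_)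
    obtain ⟨h1, h2⟩ := Finset.mem_Ioc.1 hl
    rw [← mul_assoc]
    refine kern hB hA hT hΘ (z := -990 * (s : ℤ) + 1000 * ((l : ℤ) - 1)) ?_
      (hg l h1 (by omega)) (by omega) (by omega)
    rw [abs_mul, ← zp_add hB]
    exact mul_le_mul (ha s hs1 hs) (hw l h1) (abs_nonneg _) (zp_pos hB _).le
  have t2 : |sol V 0 1 s * ∑ l ∈ Finset.Ioc s m, sol V 1 c l * g l| ≤
      ∑ l ∈ Finset.Ioc s m, Θ * Om B A T s * (140 * B ^ (-100 * (l : ℤ))) := by
    rw [Finset.mul_sum]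
    refine (Finset.abs_sum_le_sum_abs _ _).trans (Finset.sum_le_sum fun l hl => ?_)
    obtain ⟨h1, h2⟩ := Finset.mem_Ioc.1 hl
    rw [← mul_assoc]
    refine kern hB hA hT hΘ (z := 1000 * ((s : ℤ) - 1) + -990 * (l : ℤ)) ?_
      (hg l (by omega) h2) (by omega) (by omega)
    rw [abs_mul, ← zp_add hB]
    exact mul_le_mul (hw s hs1) (ha l (by omega) h2) (abs_nonneg _) (zp_pos hB _).le
  rw [grn, min_eq_left hs]
  refine (abs_add_le _ _).trans ((add_le_add t1 t2).trans ?_)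
  rw [Finset.sum_Ioc_consecutive _ (Nat.zero_le s) hs, ← Finset.mul_sum]
  have := mul_le_mul_of_nonneg_left (geom hB m) (by positivity : 0 ≤ Θ * Om B A T s)
  linarith

/-- The slope of the difference of two nearby orbits is read off at the far end. -/
theorem two_aux {k B : ℝ} (hB : 2 ≤ B) (hS : Sc k B) {p y y' : ℝ × ℝ} {m : ℕ} (hm : 1 ≤ m)
    {c : ℝ} {e : ℕ} (D : Data k B p m c e) (hy : Near k B p y (m + 1))
    (hy' : Near k B p y' (m + 1)) {T : ℝ} (hT : 0 < T)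
    (hth : |(orb k y e - orb k y' e) / ww k p e| ≤ T) :
    |y.2 - y'.2 - (orb k y e - orb k y' e) / ww k p e| ≤ |y.1 - y'.1| / 4 + T / 50 := by
  have hk : 0 ≤ k := by linarith [hS.one_le hB]
  set f : ℕ → ℝ := fun l => orb k y l - orb k y' l with hf
  set g : ℕ → ℝ := fun l => NN k (orb k p l) (orb k y l - orb k p l) -
    NN k (orb k p l) (orb k y' l - orb k p l) with hg
  set A := |y.1 - y'.1| with hA
  have hA0 : 0 ≤ A := abs_nonneg _
  have hwe : sol (Vp k p) 0 1 e ≠ 0 := abs_pos.1 ((zp_pos hB _).trans_le D.hwe)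
  have hgr := green (Vp k p) c (f := f) (g := g) D.he D.h0 hwe fun n _ => by
    simp only [hf, hg]
    linear_combination orb_sub_rec k p y n - orb_sub_rec k p y' n
  have hf0 : |f 0| = A := rfl
  have hth' : |f e / sol (Vp k p) 0 1 e| ≤ T := hth
  have hw : ∀ l : ℕ, 1 ≤ l → |sol (Vp k p) 0 1 l| ≤ B ^ (1000 * ((l : ℤ) - 1)) :=
    fun l hl => dir_le hB hS p hl
  have ha : ∀ l : ℕ, 1 ≤ l → l ≤ m → |sol (Vp k p) 1 c l| ≤ B ^ (-990 * (l : ℤ)) :=
    fun l h1 h2 => (D.ha l h1 (by omega)).trans (zp_le hB (by omega))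
  have hgf : ∀ l : ℕ, 1 ≤ l → l ≤ m → |g l| ≤ 140 * B ^ (1000 - 200 * (l : ℤ)) * |f l| := by
    intro l h1 h2
    have a1 := NN_lip hk hS (orb k p l) (near_le hB hy h1 (by omega))
      (near_le hB hy' h1 (by omega))
    rw [zp_nat B 1000 (z := 1000) rfl, sub_sub_sub_cancel_right] at a1
    refine a1.trans (mul_le_mul_of_nonneg_right ?_ (abs_nonneg _))
    have : B ^ (1000 : ℤ) * B ^ (-200 * min (l : ℤ) m) ≤ B ^ (1000 - 200 * (l : ℤ)) :=
      zp2 hB (by omega)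
    linarith
  obtain ⟨s, hs, hmax⟩ := Finset.exists_max_image (Finset.Icc 1 m) (fun l => |f l| / Om B A T l)
    ⟨1, Finset.mem_Icc.2 ⟨le_rfl, hm⟩⟩
  obtain ⟨hs1, hs2⟩ := Finset.mem_Icc.1 hs
  set Θ := |f s| / Om B A T s with hΘ
  have hO := Om_pos hB hA0 hT
  have hΘ0 : 0 ≤ Θ := div_nonneg (abs_nonneg _) (hO s).le
  have hG : ∀ t : ℕ, 1 ≤ t → t ≤ m → |grn (Vp k p) c g m t| ≤ Θ * Om B A T t / 100 := by
    intro t h1 h2
    refine grn_le hB hA0 hT hΘ0 hw ha (fun l l1 l2 => (hgf l l1 l2).trans ?_) h1 h2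
    refine mul_le_mul_of_nonneg_left ?_ (by have := zp_pos hB (1000 - 200 * (l : ℤ)); positivity)
    exact (div_le_iff₀ (hO l)).1 (hmax l (Finset.mem_Icc.2 ⟨l1, l2⟩))
  have hΘ2 : Θ ≤ 2 := by
    have a1 : Θ * Om B A T s = |f s| := div_mul_cancel₀ _ (hO s).ne'
    have a2 : |f 0 * sol (Vp k p) 1 c s| ≤ A * B ^ (-900 * (s : ℤ)) := by
      rw [abs_mul, hf0]
      exact mul_le_mul_of_nonneg_left ((ha s hs1 hs2).trans (zp_le hB (by omega))) hA0
    have a3 : |f e / sol (Vp k p) 0 1 e * sol (Vp k p) 0 1 s| ≤ T * B ^ (1000 * ((s : ℤ) - 1)) := by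
      rw [abs_mul]
      exact mul_le_mul hth' (hw s hs1) (abs_nonneg _) hT.le
    have a4 : |f s| ≤ Om B A T s + Θ * Om B A T s / 100 := by
      rw [hgr s (by omega)]
      refine (abs_sub _ _).trans (add_le_add ((abs_add_le _ _).trans ?_) (hG s hs1 hs2))
      rw [Om]; exact add_le_add a2 a3
    have := hO s
    by_contra hcon
    push Not at hcon
    nlinarith
  have e1 : y.2 - y'.2 - (orb k y e - orb k y' e) / ww k p e =
      f 0 * sol (Vp k p) 1 c 1 - grn (Vp k p) c g m 1 := by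
    have := hgr 1 (by omega)
    simp only [hf, orb_one, sol_one, mul_one] at this ⊢
    rw [ww]; linarith
  have b1 : |f 0 * sol (Vp k p) 1 c 1| ≤ A / 8 := by
    rw [abs_mul, hf0]
    have h8 : 8 * B ^ (-990 * ((1 : ℕ) : ℤ)) ≤ B ^ (0 : ℤ) := zp_const hB 3 (by norm_num) (by omega)
    rw [zpow_zero] at h8
    have := mul_le_mul_of_nonneg_left (ha 1 le_rfl hm) hA0
    nlinarith
  have b2 : Om B A T 1 ≤ A + T := by
    have h1 : B ^ (-900 * ((1 : ℕ) : ℤ)) ≤ B ^ (0 : ℤ) := zp_le hB (by omega)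
    have h2 : B ^ (1000 * (((1 : ℕ) : ℤ) - 1)) ≤ B ^ (0 : ℤ) := zp_le hB (by omega)
    rw [zpow_zero] at h1 h2
    rw [Om]
    nlinarith
  have b3 := hG 1 le_rfl hm
  have b4 : Θ * Om B A T 1 ≤ 2 * (A + T) := mul_le_mul hΘ2 b2 (hO 1).le (by norm_num)
  rw [e1]
  refine (abs_sub _ _).trans ?_
  linarith

theorem close_le {k B : ℝ} (hB : 2 ≤ B) {p q r : ℝ × ℝ} {m : ℕ} (hm : 1 ≤ m) {c : ℝ} {e : ℕ}
    (D : Data k B p m c e) (h : Close k B q r (m + 1)) :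
    |(orb k r e - orb k q e) / ww k p e| ≤ wd B (m + 1) := by
  have he := D.he
  have h1 := h e (by omega) (by omega)
  rw [Nat.add_sub_cancel, zp_inv B 2 _ (z := -900 * (m : ℤ)) (by push_cast; omega)] at h1
  have h2 := D.hwe
  rw [wd, Nat.add_sub_cancel, zp_inv B 1 _ (z := -1200 * (m : ℤ)) (by push_cast; ring), one_mul,
    abs_div, ww, div_le_iff₀ ((zp_pos hB _).trans_le h2)]
  calc _ ≤ _ := h1
    _ ≤ B ^ (-1200 * (m : ℤ) + 999 * (m : ℤ)) := zp_const hB 1 (by norm_num) (by omega)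
    _ = B ^ (-1200 * (m : ℤ)) * B ^ (999 * (m : ℤ)) := (zp_add hB _ _).symm
    _ ≤ _ := mul_le_mul_of_nonneg_left h2 (zp_pos hB _).le

end Two

open Two

theorem stab : StabStmt := by
  refine ⟨2, fun k B lam hB hS hl p q n hn hF hN => ?_⟩
  obtain ⟨m, rfl⟩ : ∃ m, n = m + 1 := ⟨n - 1, by omega⟩
  obtain ⟨c, e, D⟩ := exists_data hB hS hl (by omega) hF
  have h1 := stab_aux hB hS hl (by omega) D hN (Or.inl rfl)
  have h2 := stab_aux hB hS hl (by omega) D hN (Or.inr rfl)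
  have a1 := (abs_le_nv _ _).trans hF.2.le
  have a2 := (abs_succ_le_nv _ _).trans hF.2.le
  have b1 := abs_sub_abs_le_abs_sub (ww k q (m + 1)) (ww k p (m + 1))
  have b2 := abs_sub_abs_le_abs_sub (ww k q (m + 2)) (ww k p (m + 2))
  have b3 := abs_nonneg (ww k p (m + 1))
  exact nv_le (by linarith) (by linarith)

theorem two : TwoStmt := by
  refine ⟨2, fun k B lam hB hS hl p q q' r r' n hn hF hq hq' hr hr' hc hc' h1 h2 => ?_⟩
  obtain ⟨m, rfl⟩ : ∃ m, n = m + 1 := ⟨n - 1, by omega⟩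
  obtain ⟨c, e, D⟩ := exists_data hB hS hl (by omega) hF
  have hw : 0 < wd B (m + 1) := by rw [wd]; positivity
  have a1 := close_le hB (by omega) D hc
  have a2 := close_le hB (by omega) D hc'
  have a3 := two_aux hB hS (by omega) D hr hr'
    (T := |(orb k r e - orb k r' e) / ww k p e| + wd B (m + 1)) (by positivity) (by linarith)
  rw [h1, sub_self, abs_zero] at a3
  have a4 : |(orb k r e - orb k r' e) / ww k p e| ≤ 11 * wd B (m + 1) := by
    have := abs_sub_abs_le_abs_sub ((orb k r e - orb k r' e) / ww k p e) (r.2 - r'.2)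
    rw [abs_sub_comm] at a3
    linarith
  have a5 : |(orb k q e - orb k q' e) / ww k p e| ≤ 13 * wd B (m + 1) := by
    have e1 : (orb k q e - orb k q' e) / ww k p e =
        (orb k r e - orb k r' e) / ww k p e + (orb k r' e - orb k q' e) / ww k p e -
          (orb k r e - orb k q e) / ww k p e := by ring
    rw [e1]
    refine (abs_sub _ _).trans ?_
    linarith [abs_add_le ((orb k r e - orb k r' e) / ww k p e)
      ((orb k r' e - orb k q' e) / ww k p e)]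
  have a6 := two_aux hB hS (by omega) D hq hq' (by positivity) a5
  have := abs_sub_abs_le_abs_sub (q.2 - q'.2) ((orb k q e - orb k q' e) / ww k p e)
  linarith

end Crest.Agent.R128
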